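import Mathlib.Logic.Basic

/-
# P032: index of the modules behind `CommonColours`, `StoppedArcs`, `MeasurableEqual`

Made by a program from the module comments (helper19), imported by nothing, no theorem of its own.
Each entry: module (below Vale.Agent.P032), level in the import graph, number of modules of the list
which import it, size in kB, beginning of its comment, last theorems.


## Bdl

* `Bdl.B1` (level 1, used by 1, 391 kB): Five-colour closed covers of the complex plane: definitions and
  statements of the base lemmas. | last: support_subset, walk_parity, colorable_two, exists_nice

## Carr

* `Carr.Apex` (level 3, used by 1, 9 kB): P032: apex covers `K` is an upper semicontinuous palette, `Z` a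
  compact set of exceptional points. `apx K Z δ h` is the palette which near `Z` (distance less than `δ`)
  has the single colour `h z`, on the boundary `K w` and `h z`, and is `K` elsewhere. If the new palettes
  have at most three colours then the state `lamS` of `apx K Z δ h` does not depend on `δ` and `h`. | last:
  Sc.three, Sc.nice, Av_apx, Sc.eq
* `Carr.St` (level 4, used by 1, 11 kB): P032: states in the presence of harmless four-coloured points `Hm K
  Z f δ₀` : the points of the compact set `Z` have four colours, near a point `z ∈ Z` the two colours of `f
  z ⊆ K z` are together only at points of `Z`. The state `lamH` is the state of an apex cover; it is defined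
  at all points, also at the points of `Z`. | last: Hm.loc, Hm.euler, Hm.scale, Hm.agree
* `Carr.Supp` (level 5, used by 3, 12 kB): P032: support and boundary of the state in the presence of
  harmless four-coloured points | last: Hm.supp, lamS_windT, Hm.noface, Hm.windT
* `Carr.LamT` (level 12, used by 3, 16 kB): P032: the state in the frame `Irr U T` with harmless
  four-coloured points | last: face_iff, Ex_symm, apex_off, agree_T
* `Carr.LamX` (level 13, used by 3, 5 kB): P032: the interface `LamX` for the state in the presence of
  harmless four-coloured points | last: Hm.ring_off, lamX_of
* `Carr.LamU` (level 14, used by 3, 7 kB): P032: the interface `LamX` with unit pairs of harmless points The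
  hypothesis that no two exceptional points are at distance one is weakened: for two exceptional points `z`,
  `z'` at distance one, the apexes of `z` are not both colours of `z'`, unless they are the forbidden pair
  of `z'`. | last: apex_offU, agree_U, lamX_U
* `Carr.Ring` (level 14, used by 1, 6 kB): P032: the ring hypothesis at bases without exceptional points on
  the circle, and the bridge to `Harm` | last: ring_clean, ring_all, Hml.harm_of_hml, exists_Hml

## H180

* `H180.Tor` (level 1, used by 2, 16 kB): P032: torsors over a square, an interval, a disc are trivial `Tor
  B K φ` : on `B`, every point `x` carries a set `K x` of labels and differences `φ x i j` (`i, j ∈ K x`)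
  with values in an abelian group, satisfying the cocycle rule and locally constant. `Sec B K φ g` : `g` is
  a primitive, locally constant on `B`. | last: continuous_pt, pt_six, dist_pt, circle
* `H180.Wind` (level 2, used by 1, 20 kB): P032: the hexagon count Three closed sets on the circle `ℝ / 6`,
  covering, without common point, with `Q t`, `Q (t + 1)` incomparable. If the mod 2 class (1 on the pair
  `{0,1}`, 0 on the other pairs) is trivial on the circle, then `Q (t + 1) = Q t + 1` for all `t` or `Q (t +
  1) = Q t - 1` for all `t`. | last: Hex.tor2, Hex.frozen, unif, Hex.ring_odd
* `H180.Disc` (level 3, used by 1, 6 kB): P032: a cocycle on the disc forces the frozen pattern on the unit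
  circle | last: dist_rot', exists_pt, hex_of, frozen_of_tor
* `H180.Ring` (level 4, used by 4, 3 kB): P032: the ring form If the three colours `col` on the unit circle
  of `v` do not form the frozen pattern, then on every fine ring of the circle, with labels, the number of
  steps `col 0 | col 1` is odd. | last: ring_odd_of, polar_odd

## M

* `M.Defs` (level 1, used by 1, 3 kB): P032, measurable chromatic number of the plane: shared definitions
  (plane = `ℂ`). Blocks are stated here as `Prop`s; each block file proves `theorem xxx : XxxStmt`.
* `M.Fub` (level 2, used by 4, 5 kB): P032, measurable chromatic number: Fubini helpers. | last: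
  Sees.exists_mem, Sees.mono, Sees.mono_ae, exists_pick
* `M.J` (level 3, used by 2, 8 kB): P032, measurable chromatic number: the Jacobian block. | last: gg_eq,
  volume_image_eq, areaLower, sumNull
* `M.LL` (level 3, used by 2, 41 kB): P032, block LL: the limit lemma. | last: Proper.mul_avg,
  exists_min_pick, limit_zero, limitStmt_of_sumNull
* `M.Rec` (level 3, used by 1, 5 kB): P032, measurable chromatic number: the recolouring step. | last:
  measurable_recol, recol_proper
* `M.Max` (level 4, used by 1, 8 kB): P032, measurable chromatic number: maximal extendable open sets and
  the downward induction. | last: sel_mono, sel_extend, sel_mem, exists_maximal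
* `M.Purity` (level 4, used by 1, 12 kB): P032, measurable chromatic number: purity block. | last:
  dist_e_le, dens_compl, purity_local, purity
* `M.Ind` (level 5, used by 1, 14 kB): P032, measurable chromatic number: the downward induction, and
  Theorem M from the blocks. | last: mu_null, generic_dens, step, denseOpen_of
* `M.Fin` (level 6, used by 2, 5 kB): P032, measurable chromatic number: the final assembly. | last:
  exists_proper, limit, denseOpen, six_le

## Net.H672

* `Net.H672.Net` (level 1, used by 2, 23 kB): P032: the network of two-pair centres, abstract form `tE z v`:
  `v` is an end of type `T` of the circle about `z`; `cE z q`: `q` is an end of the complementary type. The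
  axioms are the rhombus, three centres at every vertex, separation of the two kinds of lines at a centre,
  and two facts on the word of one circle (`L2`, `L3`). | last: Net.between, Net.side_pos, Net.sides, flip
* `Net.H672.DNet` (level 2, used by 2, 4 kB): P032: the network of two-pair centres with palettes, abstract
  form `E z v`: `v` is a clean end of an exact two-coloured arc of the circle about `z`. `A z v v'`: `v`,
  `v'` are the two ends of one exact arc of the circle about `z`. `o z v = 1` iff the arc of the circle
  about `z` at its end `v` is `z + (v - z) e^{-it}`, `0 < t < l`; `inn z v` is the colour of the pair of
  that arc which is inside the disc about `z` near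
* `Net.H672.End` (level 3, used by 1, 31 kB): P032: there is no network of two-pair centres (394's page,
  abstract form) | last: both, uniq_far, far_cov, common_far
* `Net.H672.NoD` (level 4, used by 1, 14 kB): P032: there is no network of two-pair centres (394's page (4),
  abstract form) | last: closing, sixth, dist_e, false

## R2.H125

* `R2.H125.Cpt` (level 1, used by 1, 2 kB): P032: compactness for colourings with prescribed colours at some
  points. | last: exists_colouring
* `R2.H125.Full` (level 7, used by 1, 12 kB): P032: an almost everywhere proper Borel colouring of the plane
  can be changed on a null set into a colouring which is proper everywhere. | last: exists_pair,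
  isDens_of_mem, ae_isDens, nowhereDense

## R2.H137

* `R2.H137.Adm` (level 2, used by 4, 14 kB): P032: certificates on palette systems, named times, closed
  paths `palS X t p`: the letters of the position `p` at the time `t`. A certificate is a statement about
  palette systems `W : P → Set Λ` (no time, no topology): `Cert C cls Adm`: two legal selections of an
  admissible `W` have the same class. `Sys.eq_of_cert`: the class is constant on an interval all of whose
  times are admissible. `Sys.chain`: a path through fi | last: Chain.rel, Sys.chain, Sys.chain_cert,
  Sys.chain_finite
* `R2.H137.Bridge` (level 3, used by 1, 8 kB): P032: from the finite checks to certificates `Enc P Λ n m`: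
  positions are numbered `0 .. n-1`, letters `0 .. m-1`. `E.pal W q`: bit mask of the letters of the
  position number `q`; `E.sel h q`: number of the letter. `cert_of_data`, `cert_of_win`: a finite check of
  H741 is a certificate. | last: WAdm.noWin, cert_of_win, forall_legal_of_win, Enc.code_comp
* `R2.H137.Moves` (level 3, used by 1, 12 kB): P032: forced moves Two legal selections `h`, `h'` of a
  palette system are connected by moves with disjoint supports; a move changes a position `p` and then only
  the positions whose old letter is in conflict with a new letter. All selections of the path are legal and
  in the palette system. | last: LPath.mono_set, LPath.mono, LPath.trans, lpath_of_pair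
* `R2.H137.Roots` (level 4, used by 19, 3 kB): P032: the ring systems of the certificates `rdS1a`, `rdS1b`:
  the ring of `z = {a, b | c, d}` alone, without contacts `iq|ef`, the anchor is an end of an `ab`-arc with
  four colours; `rdS1a`: typed `cd`-arcs which do not meet a four-coloured point; `rdS1b`: typed `ab`- and
  `cd`-arcs. `rdS2`: the rings of `z` and `w = {a, c | e, f}` and the letters of the ring of `y = {a, e | b,
  f}`, the anchor is `y`. `rdR2`: the rings
* `R2.H137.Close` (level 9, used by 1, 6 kB): P032: coupled rings, named points, closed paths Named points:
  finitely many points on every circle. Named times: the times at which some position is at a named point.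
  `Rings.no_path_named`: if the palettes are admissible at all other times, there is a chain of jumps at the
  named times of one period from a legal selection to its rotation. | last: sys_mono137, legal_mono137,
  Rings.no_path_named, Rings.no_path_points
* `R2.H137.JPath` (level 10, used by 3, 12 kB): P032: the combinatorial form of a closed path `J`: finitely
  many named points `q j` on the circles `ri j`. `nm t`: the set of pairs `(j, k)` such that at the time `t`
  the position `(ri j, k)` is at `q j`. In one period every named point is met exactly once.
  `Rings.no_path_J`: for a starting time `a` in a given interval there are positions `κ j`, times `τ j` and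
  a legal selection `s` such that there is a path from the | last: mem_nm, nm_empty, Rings.no_path_J,
  Rings.no_path_cert
* `R2.H137.Final` (level 11, used by 1, 7 kB): P032: closed paths of named moves `Rings.no_path_moves`:
  windows `Wu` (sets of atoms which are never all in the palettes), named windows `Wn (j, k)` (allowed when
  the named point `j` is at the position `(ri j, k)`), a class function which is constant under moves
  without windows. Then there is a path of named moves from the class of a legal selection to the class of
  its rotation, in which every named point is used at  | last: TPath.lpath, lpath_append, tpath_of_npath,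
  Rings.no_path_moves
* `R2.H137.Table` (level 12, used by 1, 19 kB): P032: from the closure check (H741) to closed paths of named
  moves `D`, `Tx`: conflicts and windows (masks and lists). Kinds of named points: `kd j`; `nw K k`: the
  windows of the kind `K` at the position `k`; `nwm K k`: their masks. `label nwm r u`: the number `∑ K < r,
  8 ^ K * (number of positions with a window of the kind K in the union u)`. `leaf`: the leaf test; a move
  whose union has label `0` keeps the class, a | last: testBit_img, splits_filter, labL_map, dead_sound
* `R2.H137.Slots` (level 13, used by 2, 21 kB): P032: slots and gaps The soundness theorem of the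
  certificates with slots and gaps. Coupled rings, times `t 0 < t 1 < ... < t (M-1) < t 0 + 1`. At a slot
  `s` there are legal selections `w (2 s)`, `w (2 s + 1)` from the palettes at the time `t s`, limits from
  the left and from the right. In a gap (between `t s` and `t (s+1)`, and from `t (M-1)` to `t 0 + 1`) the
  palettes are admissible for a certificate `Cert C0 cls A | last: exists_times, Rings.exists_slotTimes,
  SlotTimes.nm_empty, Rings.slots_named
* `R2.H137.Induct` (level 14, used by 1, 11 kB): P032: induction in time `Sys.induct`: an invariant `I m k`
  (`m`: memory, a function of the time with one-sided limits; `k`: a legal selection) which is kept at every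
  time from the limits from the left to the limits from the right holds on the whole interval. No finiteness
  of the number of events. `Rings.no_period`: one period of coupled rings. | last: reg_mono, reg_pi,
  reg_prod, reg_map
* `R2.H137.S1W` (level 29, used by 1, 4 kB): P032: the system of the ring of one centre `datS1`: the data of
  the ring of `z = {a, b | c, d}`; `wdS1`: its world. | last: xs_surj, one_S1a, one_S1b, wdS1
* `R2.H137.S1H` (level 30, used by 1, 4 kB): P032: the hypotheses of the systems of one ring | last:
  typd_S1b, anch_S1, nc_S1a, nc_S1b
* `R2.H137.S1T` (level 31, used by 1, 2 kB): P032: the first certificate from the two systems of one ring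
  `Root1 U T G`: the hypotheses of the ring `z` with the anchor `pt z v` are contradictory; `certS1w_of`:
  `CertS1w` from the roots `S1a`, `S1b`. | last: certS1w_of
* `R2.H137.S1R` (level 32, used by 2, 5 kB): P032: the roots `S1a`, `S1b` in the form of a certificate
  `hpA`, `hpB`: all hypotheses of the systems `rdS1a`, `rdS1b`; `rootA_of`, `rootB_of`: a certificate gives
  the root. | last: hpA, hpB, rootA_of, rootB_of
* `R2.H137.S1` (level 33, used by 1, 2 kB): P032: the first certificate `crtS1a`, `crtS1b`: the certificates
  of the roots `S1a`, `S1b`; `WT.certS1w`: the two-pair points with a contact `{a, e | b, f}` and the faces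
  of type `e, f` do not exist. | last: crtS1a, crtS1b, certS1w_of_crt, certS1w
* `R2.H137.Mir` (level 34, used by 1, 6 kB): P032: the mirror image `mU U`, `mT T`: the images of `U`, `T`
  under complex conjugation; `WT`, `MinF`, `DPt` and the places `pt z u` are transported. `boxH'_of_mir`,
  `WT.certS2_half`: it suffices to refute the box `S2n` with `a, b` at the place `u0 + 2` and `c, d` at the
  place `u0 + 4`. | last: DPt.mir, WT.mir, boxH'_of_mir, WT.certS2_half

## R2.H171

* `R2.H171.Wedge` (level 8, used by 3, 23 kB): P032: the wedge lemma `v` with `T v ⊆ {a, b, e}` and three
  different points `M1, M2, M3` of `S(v)` such that near `v` the colours `a, b` are on different sides of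
  `S(M1)`, the colours `b, e` on different sides of `S(M2)` and the colours `e, a` on different sides of
  `S(M3)`. Then near `v` the palettes are exactly those of three sectors: the palette is a single colour
  except on three half arcs (one of each circle) endi | last: Irr.wedge, Irr.not_single_of_XX,
  Irr.arc_local, Irr.separation
* `R2.H171.Ident` (level 12, used by 1, 20 kB): P032: identity points, the branch rule, the edge rule and
  the antipode rule at two-pair points No tameness and no bound on the orders of other points. *
  `Irr.cover_one`, `Irr.cover_two`: a point of `S(c) ∩ S(c')`, `T c ∪ T c'` = everything. *
  `Irr.hub_branch`: if points with the colours `i, j` (one of each pair of the two-pair point `y`)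
  accumulate at `y` on one side of a circle through `y` whose centre has both colo | last: exists_ip,
  Irr.two_ray, Irr.two_nv, Irr.two_edge
* `R2.H171.LF0` (level 13, used by 1, 13 kB): P032: tools for the local finiteness of full ends
  `Irr.leg_side`: an exact arc does not cross the circle about a point which has a colour of its pair.
  `Wd.factA`: a point of `S(v)` with two colours of a full end `v` is one of its three hubs. `Wd.side3`: the
  leg of the third hub leaves `v` on a fixed side of the circle about the first hub. `Irr.sep2`: two-pair
  points with the same palette and different pairs are far f | last: ev_ne_or, Wd.factA, Wd.side3, Irr.sep2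
* `R2.H171.LF1` (level 14, used by 2, 7 kB): P032: worlds of full ends `HbL T v M i j k`: `T v = {i, j, k}`,
  `M` is a two-pair point with pair `{i, j}` and without `k`, `dist v M = 1`. `Wld T E`: axioms for the set
  `E` of full ends. | last: three, factA, unique, hs_finite
* `R2.H171.LF2` (level 15, used by 1, 17 kB): P032: barriers `Nr U T E p c`: the context near a point `p`.
  `Nr.key`: at a full end `v` near `p` with a barrier hub `B` there is a long exact arc starting at a full
  end near `p`, on a given side of the circle about `B`, whose centre is far from `B`, and which does not
  cross the circles about the other barriers. | last: long, prop, leg_zero, key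
* `R2.H171.LF3` (level 16, used by 1, 15 kB): P032: full ends are locally finite `Wld.lf`: in a world of
  full ends with at most four colours the full ends do not accumulate. | last: good, own, lf, Wld.lf
* `R2.H171.EmptyV` (level 23, used by 1, 9 kB): P032: two-pair points with harmless contacts only
  `Irr.no_hx_pair` : on the circle of a two-pair point `ab | cd` there are no harmless points with the
  palettes `{a, b, e, f}`, `{c, d, e, f}` and the pairs `{a, b}`, `{c, d}` at distance one.
  `Irr.noD_of_harm` : no two-pair point, if the four-coloured points on the circles of the two-pair points
  `ab | cd` are harmless with the common pair `{a, b}` or `{c, d}` and no ex | last: hx_of_harm,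
  Irr.noD_of_harm, Irr.empty_of_noD, Irr.empty_of_harm

## R2.H245

* `R2.H245.Tab5` (level 1, used by 1, 11 kB): P032 (T2*): graphs on five vertices A relation on five colours
  whose complement is connected, and whose graph of disjoint pairs is not two-colourable, is a pentagon or a
  pentagon with one chord. | last: dps_ok, ords_chk, ords_inj, tab5
* `R2.H245.Silent` (level 27, used by 2, 9 kB): P032 (T2*): a clean point with six colours: the graph of
  disjoint broken pairs The graph whose vertices are the broken pairs of a clean six-coloured point and
  whose edges are the disjoint ones has no proper two-colouring (`no_proper`). If one colour `i` is in no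
  broken pair, the broken pairs are a pentagon, or a pentagon with one chord, on the other five colours
  (`silent`). | last: no_proper, pair_inj, silent
* `R2.H245.Pent` (level 28, used by 1, 3 kB): P032 (T2*): a clean point with six colours and a silent colour
  is of pentagon type `pent`: the hypothesis `Pent T z c` of `R2.H616.Wind.wind`, with all five diagonals
  `{c (m - 1), c (m + 1)}` broken pairs. | last: g5_surj, g5_pen, g5_hou, pent

## R2.H264

* `R2.H264.Same` (level 9, used by 2, 11 kB): P032: positions of coupled rings at one instant `pos c (r, k)
  u = pt (c r) (u + k)`: the position `k` of the ring about `c r` at the time `u`. * `pos_same1`,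
  `pos_same5`, `pos_same3`: if the position `(r, k)` is the centre `c s`, then `(r, k + 1) = (s, k + 2)`,
  `(r, k - 1) = (s, k - 2)`, `(s, k + 3) = c r`; * `pos_ident`: then `(s', k)` is the corner `c s + c s' - c
  r`; * `nd_...`, `cross_...`: when two neighbours of | last: cross_eq_ring5, cross_mid_ring5,
  cross_cross_eq, cross_cross_mid
* `R2.H264.Mem` (level 15, used by 3, 15 kB): P032: memories of the induction in time The latches of a
  transition system for coupled rings as functions of the time with one-sided limits. * `EvF E u0`: finitely
  many events in a period; `nev E u0 v`: the number of events in `[u0, v)`; `nev_memL`, `nev_memR`: the step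
  adds the number `evc E u` of the events of the instant; * `seen S u0 v`: some time of `[u0, v)` is in the
  closed set `S`; `seen_step`; * `arc_reg`: m | last: Cvx.reg, memL_mem, memR_mem, memL_rot
* `R2.H264.Latch` (level 18, used by 1, 16 kB): P032: the latches of the transition systems Each latch is a
  function `μ : ℝ → Prop` of the time with one-sided limits; `m` is the value just before the instant `u`
  (`MemL μ u m`), `m'` the value just after `u` (`MemR μ u m'`). * `firstM u0`: the anchor instant `u0` is
  not passed; * `nM U z i k`: the direction of the position `k` is in the dual cone of `i`; * `sM U z i k
  u0`: this happened at an earlier time of the pe | last: dM_not, dM_uniq, dM_rise, anchor_iff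
* `R2.H264.SemAt` (level 27, used by 4, 38 kB): P032: the truth values of the atoms at an instant `Dat`:
  centres, colours, letter sets and the anchor time of the rings `G : RD`. `semAt U T G D L0 u L K`: the
  values of all atoms at the instant `u`, where `L`, `K` are selections just before and just after `u` and
  `L0` is the selection just before the anchor time. The letter sets of a ring have the numbers `0 .. 5`:
  `0: e`, `1: f`, `2, 5: ab`, `3, 4: cd`; the numbers | last: lit_congr, hd_congr, hd_nxl, no_cert
* `R2.H264.Wd` (level 28, used by 7, 5 kB): P032: the world of a system of rings `Wd U T G D`: the centres
  are two-pair points with the colours of the rings, the letter sets cover the circles; `Wd.rings`: the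
  positions form `Rings`. | last: ctr, memL4, cls_eq, rings
* `R2.H264.Inv` (level 29, used by 1, 2 kB): P032: an inductive invariant of a system of rings does not
  exist `Wd.no_inv`: the facts at all instants of a period and a certificate give a contradiction. | last:
  no_inv
* `R2.H264.Asm` (level 31, used by 3, 10 kB): P032: the facts at the instants of a period in a system of
  rings `Hp U T G D`: the hypotheses of a root; `Hp.sF`, `Hp.tF`, `Hp.iF`, `Hp.bF`: the facts; `Hp.no_root`:
  an inductive invariant does not exist. | last: iF, bF, no_rootE, no_root

## R2.H267

* `R2.H267.Zone` (level 17, used by 2, 13 kB): P032: the labels of a two-pair point as functions of the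
  direction `z = {a, b | c, d}`, `Nc U z i v`: the direction `pt z v - z` is in the dual cone of the colour
  `i`: all rays `w` of `U i` at `z` have `0 ≤ ip w (pt z v - z)`. * `Nc.per`, `Nc.isClosed`, `Nc.conv`
  (CONV: an interval of length `< 3`), `Nc.left`, `Nc.right` (one-sided limits exist); * `Irr.nc_opp` (opp:
  not `Nc i v` and `Nc i (v + 3)`), `Irr.nc_pair` (n | last: line1', pt_inj_near, mix_right, mix_left
* `R2.H267.NoS3` (level 21, used by 2, 8 kB): P032: there are no contacts of type S3 in the world with
  contacts of type S3 only `z = {ab|cd}`, `y = {ab|ef}` two-pair points at distance one, `p` a flank with
  `e, f ∈ T p`. Take `g` on an exact `cd`-arc of `S(z)`. Then `u = y + g - z` is on an exact `ab`-arc of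
  `S(y)` (rule R), and `w = p + g - z` is at distance one from `g`, `u` and `p`: no `c, d` (because of `g`),
  no `a, b` (because of `u`), so `T w ⊆ {e, f} ⊆ T  | last: no_swapped, false', exists_flank, clean
* `R2.H267.Tight` (level 24, used by 1, 22 kB): P032: labels at a contact of a two-pair point `z = {a, b |
  c, d}`, `n` on `S(z)`. * `Irr.tight` : `c` near and `b` far at `n`: on one side of the direction of `n`
  the label of `c` holds and the label of `b` fails, on the other side conversely; `Irr.tight_before`,
  `Irr.tight_after`: which side is which is decided by the `{b, c}` arc of `S(n)` at `z`; * `Irr.agree` : a
  common colour of two two-pair points at distance o | last: agree_far, rkind, Irr.mkind, WT.mkind_harm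
* `R2.H267.Labels` (level 26, used by 2, 26 kB): P032: the label families of the transition system
  Directions are numbered in thirds: at the time `u` the number `3 k`, `3 k + 1`, `3 k + 2` stands for: just
  before, at, just after `u + k`; `Nx U z i u x`: the label of the colour `i` holds in the direction number
  `x`. * `Nx.zero`, `Nx.one`, `Nx.two`: the three cases; `nx_memL`, `nx_memR` : limits of the label as a
  latch; * `Nx.per` (period 18), `Nx.n0L`, `Nx.n0R`, `Nx | last: nx_not_zero, nx_not_two, nx_tight0,
  nx_tight1
* `R2.H267.Fields` (level 27, used by 1, 26 kB): P032: the label fields of `H741/TpF.lean` `LabH`: the
  literal meaning of the atoms `n`, `C`, `X`, `M`, `g`, `D`, `H`, `ct` at the instant `u` of the period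
  which starts at `u0`. For every valuation with this meaning: the fields `opp`, `conv`, `mix`, `letlab` of
  `SF` (`LabH.s_opp` ...) and the fields `n0L`, `n0R`, `opp`, `conv`, `convM`, `convM2`, `mix`, `line1`,
  `rkind`, `mkind`, `lab1`, `pairlab`, `letlab`, `gline`, | last: t_mkind, ct_pos, t_agree, t_tight
* `R2.H267.LatchSem` (level 28, used by 1, 3 kB): P032: the fields of the memories on `semAt` `fM`, `fgmono`
  (step), `finitn`, `fM0`, `fg0` (start), `fclosen` (end). | last: not_seen, fM0, fg0, fclosen
* `R2.H267.LabSem` (level 29, used by 1, 6 kB): P032: the label fields on `semAt` * `labS`, `labH` : `semAt`
  has the literal meaning `LabS`, `LabH`; so all label fields of `SF` and `TF` hold (`(labS ..).s_conv` ...,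
  `(labH ..).t_conv` ...); * `gset` : the field `gset`. | last: nc_six, labS, labH, gset
* `R2.H267.SameSem` (level 29, used by 1, 7 kB): P032: the fields of contacts between rings For every `S`
  with the meaning `PM` (positions of the rings, palettes, two-pair points): the fields `ctC`, `ctD`,
  `same`, `sameH`, `sameD`. | last: same, sameH, hDi, sameD

## R2.H301

* `R2.H301.FieldL` (level 28, used by 1, 17 kB): P032: the letter fields at an instant For `semAt U T G D L0
  u L K` (264) the letter fields of the facts at an instant (741's `SF`, `TF`, `IF`, `BF`), word for word:
  `some`, `uniq`, `legal`, `legal2` before and after, `LC`, `s4word`, `initX`, `closeX`. `lf_of_semL`,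
  `rf_of_semR`: the letter of a limit selection is frequent on the left or on the right. | last: tl_rot,
  b_closeX, b_closeY, b_closeF
* `R2.H301.FieldT` (level 29, used by 2, 10 kB): P032: the type fields and the anchor at an instant For
  `semAt U T G D L0 u L K` (264) in a world `Wd U T G D`: the fields `tpkeep`, `tpend`, `anch`, `anchD`,
  `nc` of 741's `TF`, word for word. `Typd`: what is needed of the two letter sets of a typed pair;
  `Typd.of_typ`: from the types `Typ` (609). | last: t_tpend, t_anch, t_anchD, t_nc

## R2.H306

* `R2.H306.RInd` (level 1, used by 1, 3 kB): P032: real induction over generic times A value which is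
  attached to the points of a dense set of times, and which is the same at all of them close to any given
  time of an open interval, is the same at all of them in the interval. | last: const_generic

## R2.H333

* `R2.H333.Raw3` (level 11, used by 2, 10 kB): P032: the word of a two-pair centre with harmless and mixed
  four-coloured points on the circle `Mk T z a b c d e f y`: `y` carries the two missing colours `e, f`, no
  pair of the centre, and no palette of `S(y)` is inside `{e, f}` (two-pair points `{ae|cf}`, crossed
  harmless points `{a,c,e,f}`). If every point of `S(z)` is admissible (`Adm`) or mixed (`Mk`), no star `Hx
  ab`, `Hx cd` exists and no four-coloured neighbo | last: ef_of, noswapM, dblM, raw3_mix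
* `R2.H333.S3V` (level 25, used by 1, 40 kB): P032: the world with contacts of type S3, harmless contacts
  allowed `S3V U T`: at most four colours; a four-coloured point on the circle of a two-pair point `z =
  {ab|cd}` has exactly one pair of `z` in common with `z` and is a two-pair point with this pair or a
  harmless point whose only exact arcs carry this pair (`tie`); exact arcs of two-pair points end in
  three-coloured points (`end3`). * `S3V.no_lock`: there are  | last: no_flank, adm, no_dpt, empty
* `R2.H333.E3` (level 28, used by 1, 15 kB): P032: the world without stopped arcs `E3W U T`: exact arcs of
  two-pair points do not end at points with more than three colours (`stop`), the points at distance one of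
  a point with at least four colours have at most four colours (`loc`). * `E3W.inside`, `E3W.not_same`: the
  points of the circle of a two-pair point inside its palette; * `E3W.side`: two colours of different pairs
  of a two-pair point at a four-coloured c | last: harm_pair, not_three, two, contact_pal
* `R2.H333.E3b` (level 29, used by 1, 16 kB): P032: contacts in the world without stopped arcs (`E3W`) *
  `E3W.contact_ab`: a contact `{a, b, e, f}` of `z = {a b | c d}` is `{ab | ef}` or harmless with the pair
  `{a, b}`; * `E3W.contact_mix`: no palette of the circle of a contact `{a, c, e, f}` is inside `{e, f}`; *
  `E3W.mix_flank`: no common neighbour `p` of `z` and a contact `{a, c, e, f}` carries `e`, `f` without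
  exact `ef`-arcs. | last: one_side_fc, flank_ac, no_harm_ac, mix_flank
* `R2.H333.E3c` (level 30, used by 1, 25 kB): P032: no contacts of type S3 in the world without stopped arcs
  `E3W.no_lock`: a contact `{a, b, e, f}` of `z = {a b | c d}` is harmless with the pair `{a, b}`. | last:
  no_t1E, no_swappedE, falseE1, harm_ab
* `R2.H333.E3d` (level 31, used by 1, 7 kB): P032: the word of a two-pair point in the world without stopped
  arcs `E3W.kinds`: the four-coloured points of the circle of `z = {a b | c d}` are harmless with one of the
  pairs of `z` or mixed; `E3W.fc_ef`: no palette of their circles is inside `{e, f}`; `E3W.rawM`: the word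
  of `z` satisfies all rules but the triple contact. | last: kinds, fc_ef, admM, rawM
* `R2.H333.E3f` (level 32, used by 1, 8 kB): P032: the world without stopped arcs of two-pair points is
  empty * `E3W.okC3`: the circles of the two-pair points are good for the network with T3 contacts; *
  `E3W.com4`: a common point of the circles of two centres with all six colours has at most three colours; *
  `E3W.empty4`: at most four colours everywhere: empty. | last: com4_of', com4, no_dpt, empty4

## R2.H413

* `R2.H413.RuleC` (level 27, used by 2, 5 kB): P032: rule 2 in the form of the certificates `z = {ab|cd}` a
  two-pair point, all orders at most four. `palN a b c d e f n`, `n < 4`: the palettes `abe`, `abf`, `cde`,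
  `cdf`; the palettes number `n` and `3 - n` are complementary. * `Irr.rule2_pal`: if the palette number `3
  - n` is present on the circle of `z`, then there are at most two points with the palette number `n`; *
  `Irr.vis_pal`: at such a point the two limit | last: nodup_cdabfe, Irr.rule2_pal, Irr.vis_pal, evc_nat
* `R2.H413.FieldC` (level 28, used by 1, 10 kB): P032: the fields of the numbers of points `SemC`: what is
  used about the atoms `C`, `E`, `P`, `N`, `X` at the instant `u`. Conclusions: the fields `cntmono` of
  `SF`, `E`, `absent`, `pres`, `cnt`, `vis` of `TF`, `cnt0` of `IF`, `cntend1`, `cntend2`, `cntend` of `BF`.
  | last: total, cntend1, cntend2, cntend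
* `R2.H413.RuleT` (level 28, used by 1, 6 kB): P032: rule 2 in the form of the certificates, without bounds
  on orders * `Irr.vis_lr413`, `Irr.f_vis413`: the limit letters at a visible end; * `Irr.rule2_palT`,
  `Irr.vis_palT`: all palettes. | last: Irr.vis_lr413, Irr.f_vis413, Irr.rule2_palT, Irr.vis_palT
* `R2.H413.SemF` (level 29, used by 1, 19 kB): P032: fields of `semAt` The fields `cntmono` of `SF`; `E`,
  `absent`, `pres`, `cnt`, `vis`, `first`, `anchor`, `done`, `ident`, `identD` of `TF`; `cnt0`, `done0`,
  `first` of `IF`; `cntend1`, `cntend2`, `cntend`, `doneend`, `first` of `BF`, for the valuation `semAt`. *
  `Cnt G T D`: the numbers of points (modes `1, 2, 3`, rule two), `WD.cnt_top`: rule two holds; * `Ltr G T D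
  u L K`: the letters of the selections, `WD.vi | last: cntend1, cntend2, cntend, WD.vis

## R2.H479

* `R2.H479.Hub` (level 16, used by 3, 3 kB): P032: the frame with two-pair points `Hub U T` : at most four
  colours; the contacts of two-pair points with four-coloured points are of type S3 (`tie`), the exact arcs
  of two-pair points end in three-coloured points (`end3`), and all kinds of ends occur (`full`). | last:
  cases, _root_.Vale.Agent.P032.Six.Harm.not_dpt, not_three, _root_.Vale.Agent.P032.Six.DPt.first
* `R2.H479.Repro` (level 17, used by 1, 14 kB): P032: the end of a D-star pair is again a D-star pair, in
  the frame with two-pair points As `H306/ReproL.lean`, with the hypothesis `harmless` only on the two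
  circles. | last: end_harm, ends, loc_end, repro
* `R2.H479.Shrink` (level 17, used by 3, 9 kB): P032: limits of two-pair points: the arcs of the second pair
  shrink | last: Irr.no_arc, Irr.lim_arc, Irr.arc_side, five_count
* `R2.H479.Star` (level 18, used by 1, 18 kB): P032: a limit of two-pair points is one point of a D-star
  pair | last: Irr.two_five, Irr.corner_inj, shrink, star_of_lim
* `R2.H479.Contact` (level 19, used by 2, 20 kB): P032: harmless contacts of two-pair points
  `Irr.harm_contact` : `z` with the pairs `ab | cd`, `y` harmless with the palette `{a, b, e, f}` and the
  broken pair `{e, f}`, `|y - z| = 1`. At a three-coloured end `q` of a `cd`-arc of `z` the point `y + q -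
  z` is a two-pair point with palette `{e, f, g, i}`, `g` one of `c, d`, `i` one of `a, b`.
  `Irr.no_harm_contact`, `Hub.no_harm_contact` : if the ends are three-coloured  | last: Irr.shift_off,
  Irr.harm_contact, Irr.no_harm_contact, Hub.no_harm_contact
* `R2.H479.Meet` (level 19, used by 1, 22 kB): P032: D-star pairs in the frame with two-pair points: the
  corner lemma | last: DPt.relabel, tri_arc, mixed, next
* `R2.H479.NX` (level 20, used by 1, 10 kB): P032: the world without stopped arcs and without contacts
  meeting both pairs `NX T` : no four-coloured point on the circle of a two-pair point `ab | cd` meets both
  pairs, and no exact arcs of the circle accumulate at such a point. With at most four colours everywhere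
  the contacts of two-pair points are two-pair points of type S3 or harmless with the common pair
  (`NX.tie`), and exact arcs end at three-coloured points  | last: Irr.acc_of_freq, end3, tie_aux, tie
* `R2.H479.Top` (level 24, used by 2, 3 kB): P032, W4.TOP: the statement in the plane from the statement on
  frames with at most four colours | last: exists_T_four, exists_fiveV_of, HubC.empty, exists_fiveV_of_ring
* `R2.H479.StopV` (level 25, used by 2, 12 kB): P032: stopped arcs, statement in the plane `XV U x x'` : `x`
  is a two-pair point, `x'` is a point at distance one near which four of the sets suffice and no three of
  these four, and these four contain a set of both pairs of `x`, or `x'` is a limit of exact arcs of the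
  unit circle about `x`. `exists_stopV_of` : if frames with `NX` are impossible then every maximal family
  has a point of order `> 4`, or two points of or | last: XV_of, exists_T_stop, hXV, exists_stopV_of
* `R2.H479.Avoid` (level 26, used by 1, 10 kB): P032: frames in which points with five colours see only
  points with three colours `exists_open_avoid2` : neighbourhoods of two closed sets avoiding a closed
  relation of bounded range. `exists_T_stop5` : the frame for the relation `XV` when points of order `> 4`
  have no points of order `> 3` at distance one. `exists_stopV5_of` : the statement in the plane. | last:
  exists_open_avoid2, exists_T_stop5, exists_stopV5_of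
* `R2.H479.Loc` (level 27, used by 1, 23 kB): P032: contacts of two-pair points, the bound on the orders is
  local `Loc4 T` : the points at distance one of a point with at least four colours have at most four
  colours. `NX.tieL`, `NX.end3L` : `NX.tie`, `NX.end3` with `Loc4`. | last: Irr.no_harm_contactL, end3L,
  tie_auxL, tieL
* `R2.H479.Final7` (level 29, used by 2, 9 kB): P032, the statements in the plane without the alternative of
  a point with a silent colour `Act` : a point with six colours all of whose points at distance one have at
  most three colours has, for every colour `i`, a point with two colours, one of them `i`, at distance one.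
  `rel7_of` : with `Act`, the statement in the plane for a world given by a relation of pairs, no bound for
  the order, no first alternative. `resultW | last: exists_pairW7_of, exists_e3V7_of, resultW7, resultE7
* `R2.H479.Final8` (level 30, used by 1, 7 kB): P032, world `E3`: exceptional pairs `(x, x')` with a minimal
  set of exactly four elements at `x'` `EV4` : the relation `EV` with a minimal sufficient set of exactly
  four elements at `x'`. `exists_e3V8_of`, `resultE8` : the statements in the plane. | last: hEV4, relW_E4,
  exists_e3V8_of, resultE8

## R2.H492

* `R2.H492.Face` (level 24, used by 2, 14 kB): P032: the clause families `single`, `notsub`, `face`,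
  `facehub`, `insub`, `inside`, `two` Points at distance one, palettes `T`. General points first, then the
  points of the rings: `pt z v` and its neighbours `pt z (v + 1)`, `pt z (v - 1)`, and the partner `pt y v`
  of a centre `y` at distance one. | last: cross_face_nx, cross_face_partner, cross_insub, cross_two
* `R2.H492.Fields` (level 25, used by 1, 23 kB): P032: the fields `single` ... `two`, `inside`, `le4`,
  `q4i`, `q4ge` of `H741/TpF.lean` `PW G S U T c x u`: the part of the world which these fields need. The
  point `(r, k)` is `pt (c r) (u + k)`, the colour number `i` is `x i`. | last: faceE, hubB, insubB, two
* `R2.H492.Out2` (level 27, used by 2, 10 kB): P032: the points behind the flanks of a contact (family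
  `out2`) `z = {ab|cd}`, `y` on `S(z)` with `T y = {a, b, e, f}`, `p` a common neighbour. `flank_acc`: `p`
  is a limit of exact `cd`-arcs of `S(z)`. `out_acc`: if `y = {ae|bf}` then `y + p - z` is a limit of exact
  `ae`-arcs or of exact `bf`-arcs of `S(y)`. `f_out2`: two places beside an S4r point of `S(z)` the circle
  `S(z)` has limits of exact arcs. | last: f_out2_ad, f_out2_bc, f_out2_bd, f_outy
* `R2.H492.Fields2` (level 28, used by 2, 15 kB): P032: the fields `q4e dQ dC dd dH hQ q4cases notri swap4
  flanksame flank4 flankr out2` of `H741/TpF.lean` `PM G S U T c x u`: the world `PW` with minimality,
  harmless points and the two-pair points as an equivalence. | last: flanksame, flank4, flankr, out2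
* `R2.H492.FieldY` (level 29, used by 1, 8 kB): P032: the fields `nodir tpY sameY` of `H741/TpF.lean` (rings
  with letters only) `YW G S U T c x u s`: what is known about the ring `s` with letters only: it belongs to
  an end contact of the hub `G.yr s`. | last: not_all, nodir, tpY, sameY
* `R2.H492.PMS` (level 30, used by 1, 7 kB): P032: the worlds `PM`, `YW` for the valuation `semAt` of
  `H264/SemAt.lean` `pm_of_wd : Wd U T G D → PM G (semAt ..) ..`; `yw_of_wd : Wd U T G D → YH G D → YW G
  (semAt ..) .. s`; `TY G S`: the fields `nodir tpY sameY`. | last: sem_mem, endct_of_wd, yw_of_wd, ty_of_wd

## R2.H544

* `R2.H544.Five3` (level 25, used by 2, 15 kB): P032: five coloured points when points of order > 3 at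
  distance one share at most two colours The tree excludes a five coloured point `z` whose circle is clean
  (`H229.no_five_gen`) with one non-local input: the circles of the corners `v + q - z` are clean. It is
  used only for the convexity statement `L3p` at such corners. Here the theorem is stated with `L3p`
  instead. If two points of order `> 3` at distance one neve | last: cnt5_L3, cnt5_cases_L3, no_five_L3,
  no_five_N3
* `R2.H544.Corner3` (level 26, used by 2, 5 kB): P032: the convexity statement at corners whose circles are
  tie words `L3_node_ok3`: `S5.H450.L3_node` for a corner whose circle is a tie word without special ends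
  (`Net3.OkC3`); in particular harmless contacts are allowed. So `L3p` holds if all circles of two-pair
  points are such words, and then clean points with five colours do not exist. | last: L3_node_ok3,
  L3p_of_ok3, no_five_ok3
* `R2.H544.Six3` (level 29, used by 2, 6 kB): P032: five and six coloured points in the world `N3` If two
  points of order `> 3` at distance one have at most two common colours (`N3`), and the convexity statement
  `L3p` holds at corners, then there is no point with five colours, and every point with six colours misses
  one colour in the pairs on its unit circle (`no_six_N3`). So all orders are at most four up to such points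
  (`le4_of_N3`). | last: r_strong_L3, no_six_L3, no_six_N3, le4_of_N3
* `R2.H544.E3Top` (level 33, used by 1, 2 kB): P032: the world without stopped arcs has no points with five
  or six colours The two hypotheses `H5` and `H6` of `resultE6` (R2/H951/FinalW.lean). * `E3T.h5` : frames
  with `E3`, at most five colours, clean points of order five: empty. * `E3T.h6` : with the tree table
  `htab`: no six coloured point with all colours active. | last: l3p, no5, h5, h6

## R2.H609

* `R2.H609.S3At` (level 16, used by 1, 26 kB): P032: contact S3, at the point `z = ab | cd` a two-pair
  point, `y` on `S(z)` with the palette `{a, b, e, f}`. | last: dist_br, word, word_pt, letters_pt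
* `R2.H609.W2` (level 22, used by 3, 61 kB): P032: the world in which four-coloured points at distance one
  share at most two colours * `Lock.ruleT`: rule R; * `Lock.third_dpt`: a flank with the colours `c, d, e,
  f` of a contact of type S3 is a two-pair point; * `WT.no_lock`: there are no contacts of type S3; *
  `WT.no_harm`: no harmless contact `{a, b, e, f}` has the arc pair `{e, f}`. | last: DPt.ways, cases,
  contact_same, contact_mixed
* `R2.H609.W2E` (level 23, used by 4, 22 kB): P032: contacts with the colours of one pair in the world `WT`
  `z = {ab|cd}`, `T y = {a, b, e, f}`, `|y - z| = 1`, `y` of any kind. * `WT.near_pair`: at a point of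
  `S(y)` with palette inside `T y` a colour of `{a, b}` is present on a neighbourhood; * `WT.flank_same`: a
  common neighbour of `z` and `y` carries `c, d` and neither `a` nor `b`; * `WT.over_same`: over an exact
  `cd`-arc of `S(z)` the palettes of `S(y)` are i | last: near_pair, flank_same, over_same, end_same
* `R2.H609.Rule2` (level 24, used by 1, 3 kB): P032: RULE 2 for every two-pair point (orders at most four,
  no world needed) `Irr.rule2`: if `z = {ab|cd}` and the circle of `z` has a point with the palette `{c, d,
  f}`, then at most two points of the circle have the palette `{a, b, e}`. | last: Irr.rule2,
  Irr.rule2_ncard
* `R2.H609.W2Conv` (level 24, used by 2, 13 kB): P032: convexity in the world `WT` `z = {ab|cd}`, missing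
  colours `e, f`. Every open arc of `S(z)` longer than 180 degrees contains an end `{a, b, e}` or `{c, d,
  f}` of an exact arc of `z`, or two points `u`, `u + 1` which both carry `e` and `f` and one of which has
  four colours. A contact `{a, b, e, f}` or `{c, d, e, f}` whose flanks have three colours is not a flip. |
  last: not_abcd, pair_core, conv, conv'
* `R2.H609.WLim` (level 25, used by 3, 22 kB): P032: the limit letters of the circle of a two-pair point at
  its two-pair contacts `z = {ab|cd}`, letters `0 = e`, `1 = f`, `2 = ab`, `3 = cd`; positions `v : ℝ`. *
  `LS v l`, `RS v l`: `l` is the only letter just before (after) `v`; `LF v l`, `RF v l`: the letter `l` is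
  frequent from the left (right) at `v` (`lf_of_limL`, `rf_of_limR`: the letters of the limit selections). *
  `Irr.s4_lr`: contact `ae|bf`: exactly one  | last: flank_lr, flank_dist, flank_s4r, s4r_swap
* `R2.H609.WFam` (level 26, used by 6, 18 kB): P032: the facts about one circle in the world `WT`, in the
  form used by the certificates `z = {ab|cd}`; `p, q ∈ S(z)` at distance one. * `WT.f_q4e`, `WT.f_notri`,
  `WT.f_swap4`, `WT.f_flanksame`, `WT.f_flank4`, `WT.f_flankr`, `WT.f_q4cases`; * `Irr.f_s4word`: at a
  contact `ae|bf` exactly one of the two limit letters is `ab`; * `Irr.f_vis`: at an end of class one whose
  complementary palette is present the two limit let | last: Irr.f_s4rword, Irr.f_t3word, Irr.vis_lr,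
  Irr.f_vis
* `R2.H609.Types` (level 27, used by 2, 10 kB): P032: the types of the `cd`-arcs of `z = {ab|cd}` given by
  an end contact `y` `EndCt`: `T y = {a, b, e, f}`, `y ∈ S(z)`, `y = {ae|bf}` or harmless with the arc pair
  `{a, e}`. `TyE`, `TyF`: the points `q` with `b, f` (`a, e`) in the palette of `y + q - z`. *
  `EndCt.cover`: every limit of exact `cd`-arcs is in `TyE` or `TyF`; * `EndCt.not_both` (`tpkeep`),
  `EndCt.tpend_F`, `EndCt.tpend_E` (`tpend`), `EndCt.crossed`. | last: end_F, end_E, cover5,
  Irr.hsame_letters
* `R2.H609.Typ` (level 28, used by 4, 6 kB): P032: the types of the exact arcs of one pair, without names
  `Typ T z P e f SE SF`: the limits of the exact `P`-arcs of `S(z)` are covered by two closed sets, disjoint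
  on `S(z)`; in `SE` an end with the colour `f` has the colour `e`, in `SF` an end with the colour `e` has
  the colour `f`. `WT.exists_typ`: if a four-coloured point is a limit of exact `ab`-arcs, then the
  `cd`-arcs have types. | last: exists_typ, exists_typ', pal_end, Irr.s4_closure
* `R2.H609.S2n` (level 32, used by 2, 10 kB): P032: the worlds of the roots `rdR2` and `rdS2n` `z = {a, b |
  c, d}`, `w = pt z u0 = {a, c | e, f}` and `y = {a, e | b, f}` on the circle of `z`. The anchor time is the
  time of `w`; the `cd`-arcs of the circle of `z` are typed by `y`. * `hpR2`: the hypotheses of the root
  `rdR2` (rings of `z` and `y`); * `hpS2n`: the hypotheses of the root `rdS2n` (rings of `z`, `w` and `y`).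
  | last: r2_inj, wdR2, md_R2, hpR2

## R2.H616

* `R2.H616.Disc` (level 1, used by 1, 7 kB): P032: closed walks of six letters on a pentagon: the discrete
  winding lemma `a i` : the letter (a vertex of a five cycle) at time `i / N`. In one step the letter moves
  by `0`, `2` or `-2`; the letters at the times `i` and `i + N` are neighbours (they differ by `1` or `-1`);
  after `6 N` steps the letter is the same. Then the total of the moves is `30 c` with `c` odd. | last:
  tot_cast, mod5_of_cast, winding, hitting
* `R2.H616.Cont` (level 2, used by 1, 8 kB): P032: closed walks of six letters on a pentagon: the winding
  lemma on the circle `μ u` : the letter at time `u` (a vertex of a five cycle, in the numbering in which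
  neighbouring letters differ by `±1` and the letters inside one palette are `m` and `m + 2`), defined at
  the times of a dense open set `G`. Near every time there are only two letters `m`, `m + 2`. The letters at
  the times `u` and `u + 1` are neighbours, th | last: exists_delta, step_of, exists_path, exists_times
* `R2.H616.Wind` (level 20, used by 1, 16 kB): P032: a clean six-coloured point whose pairs are the
  diagonals of a pentagon: winding `z` has six colours, all palettes on the unit circle about `z` have at
  most three colours, and the broken pairs are diagonals `{c (m - 1), c (m + 1)}` of a pentagon, or the pair
  `{c 0, c 4}`. The letter `m` (the pair `{c 0, c 4}` counts as `m = 1`) turns: in one turn of the circle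
  the letters `m, m + 2 s, m + 4 s, .., m + 30 s` appe | last: third, lt_loc, gn_add, wind
* `R2.H616.NoSilent` (level 30, used by 2, 1 kB): P032 (T2*): a clean six-coloured point has no silent
  colour Every colour of a clean six-coloured point `z` is in a palette of two colours on the unit circle of
  `z`: `no_silent`, without further hypotheses. | last: no_silent, no_silent'

## R2.H62

* `R2.H62.FinC` (level 3, used by 1, 7 kB): P032: the finite system of an s-free chord (two directions): the
  kernel check The invariant is a hashed table; both properties of `H962.Fin2` are checked by one Bool
  function on masks. | last: chk3, chk4, chk5, chkw0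
* `R2.H62.Fin2` (level 4, used by 1, 7 kB): P032: `H962.Fin2` is true | last: leaf_of, leaf1_of, clo_of,
  fin2

## R2.H659

* `R2.H659.Tip` (level 7, used by 2, 12 kB): P032: the tip of a thin lens `tip s u v` (`s = 1` or `s = -1`):
  one of the two points at distance one from `u` and from `v`. If `u, v` are inside the unit circle about
  `0` and near `n`, `-n`, then the tip is near `0` and its direction is near `s * (I * n)`. | last:
  tendsto_tip, ip_basis, tip_dir, tip_side
* `R2.H659.Cross` (level 8, used by 1, 5 kB): P032: the crossing point near `0` of two nearly unit circles
  through `0` `tip s u v` for `(u, v)` near `(u₀, v₀)`, unit vectors with `s * cr u₀ v₀ < 0`. | last: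
  tip_dist, cr_sq_add_ip_sq, tip_zero, tendsto_tip_cross
* `R2.H659.Horn` (level 8, used by 2, 8 kB): P032: the horn rule `Irr.horn`: at a two-pair point `z = {a, b
  | c, d}` it is impossible that `c` is a near contact in the direction `n` and `b` is a near contact in the
  opposite direction (one colour of each pair). | last: Mx.pal_sides, Irr.absent_side, Irr.horn
* `R2.H659.Tie3` (level 9, used by 2, 15 kB): Words on a circle with exact contacts, T3 contacts allowed:
  the engine `RawT3` is `RawT` without the field `three`: three consecutive positions may carry the palettes
  `{f, C}`, `{e, f}`, `{e, A}`. | last: RawT3.const_Ioo, RawT3.seg, RawT3.mark_ne, RawT3.mark_mark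
* `R2.H659.Tie3J` (level 10, used by 1, 12 kB): Words on a circle with T3 contacts: passing an instant with
  marks The middle positions of T3 contacts (set `D`) get a letter `μ ∈ {e, f}`. | last: Inst.cp_left,
  Inst.cp_right, Inst.cp_left_one, Inst.upd
* `R2.H659.Tie3V` (level 11, used by 1, 18 kB): Words on a circle with T3 contacts: the jumps `jumpQ3`,
  `jumpV3` | last: rot_update, leg_rot, no_both, jumpV3
* `R2.H659.Tie3L` (level 12, used by 1, 29 kB): Words on a circle with T3 contacts: the facts L1, L2, L3 The
  same statements as in `Words/H349/TieL.lean`, `Words/H349/TieSym.lean`, for `RawT3`. | last: RawT3.L1e,
  RawT3.L1f, RawT3.L2, RawT3.L3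
* `R2.H659.Corner` (level 13, used by 3, 16 kB): P032: the corners of a two-pair point `z` a two-pair point
  `{a, b | c, d}`, `n` on `S(z)` such that the `c`-rays are on the side of `n` and the `b`-rays on the other
  side. Then in one of the two directions orthogonal to `n` the palettes are inside `{b, c}`, in the other
  one inside `{a, d}` (`Irr.corner_region`, `Irr.corner`). * `Irr.hub_two_sides`: on the two branches of any
  unit circle through a two-pair point the p | last: Irr.horn_locked, Irr.horn_near, sep_branch,
  Irr.hub_two_sides
* `R2.H659.Contact` (level 14, used by 6, 19 kB): P032: contacts of two-pair points, types S4 and S4r *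
  `Irr.contact_near`, `Irr.contact_far`: a common colour of `z` and of the two-pair point `y` is near (far)
  for `y` seen from `z` iff it is near (far) for `z` seen from `y`. * `branch_arc`: a branch with constant
  palette consists of exact arcs. * `Irr.s4r_kind_dpt`, `Irr.s4r_kind_harm`: `y` with colours `b` far, `c`
  near: the exact arcs of `y` inside `T y` are `{b,  | last: pair_not_sub, pair_not_sub', s4_flank,
  s4r_flank
* `R2.H659.Order` (level 14, used by 1, 17 kB): P032: the order rule at a corner of a two-pair point
  `Irr.order_rule`: `z = {a, b | c, d}`. The line (through `z`, normal `m`) of a contact of `c` is never
  strictly on the `c`-side of the line (normal `n`) of a contact of `b`. | last: ne_zero_of_off, ev_pair,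
  Irr.order_fin, Irr.order_aux
* `R2.H659.Cone` (level 15, used by 3, 23 kB): P032: the cones of a two-pair point `z = {a, b | c, d}`. *
  `Irr.cone_rule`: a direction `v` which is not a solid ray of `U c` is outside the polar of the contacts of
  `c`. * `Irr.cone_labels`: there is at most one line through `z` with all `c`-rays on one closed side and
  all `b`-rays on the other closed side (normal pointing to the `c`-side). | last: Irr.cone_aux,
  Irr.cone_labels, Irr.lock_unique, Irr.lock_never
* `R2.H659.Antip` (level 16, used by 2, 10 kB): P032: the antipode table of a two-pair point (wild) `z = {a,
  b | c, d}`, `n` on `S(z)`, `n' = 2 z - n`. `NrC U z n i` : the colour `i` is a near contact at `n` (in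
  `Pal U n`, absent outside `S(z)`), `FrC U z n i` : a far contact. * `Irr.nr_or_fr`, `Irr.fr_of_nr`,
  `Irr.nr_of_fr` : every colour of `T z` in `Pal U n` is near or far, the two colours of a pair are
  opposite. * `Irr.anti_nr`, `Irr.anti_fr` : a colour presen | last: anti_S1, anti_S2, anti_S4r, anti_outer
* `R2.H659.Axis` (level 17, used by 2, 7 kB): P032: the axis rule (wild) `Irr.axis` : at a point `m` the
  colours `A` are on one side of `S(w)` only and the colours `B` on one side of `S(w')` only. If `T m ⊆ A ∪
  B` then `w' = w` or `w' = 2 m - w`. * `Irr.same_or_lock` : a crossed pair of colours of a two-pair point
  `w` at `m` on `S(w)` is on one side of `S(w)` or exact arcs of `S(m)` with this pair accumulate at `w`. *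
  `Irr.axis_dpt` : the axis rule for two two-p | last: oneSide_nr, oneSide_fr, Irr.same_or_lock,
  Irr.axis_dpt
* `R2.H659.Ok3` (level 18, used by 3, 26 kB): P032: no two-pair centre, the circles may carry T3 and crossed
  harmless contacts `OkC3`: the letters of `S(z)` form a word with T3 contacts (`RawT3`), the closures of
  the exact arcs of `S(z)` have at most three colours. `no_D3`: if every two-pair centre is `OkC3` and the
  common points of two centres with ends and all six colours have at most three colours (`Com4`), there is
  no two-pair centre. `com4_of`: `Com4` from  | last: start_ok, no_D3, dpt_split, com4_of
* `R2.H659.Tri` (level 18, used by 1, 4 kB): P032: a point with a one-sided set of colours, seen from other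
  centres (wild) * `Irr.one_side_arc` : `B` is on one side of `S(z)` near `p`, `T p ⊆ B ∪ {e, f}`, `y` on
  `S(p)` not on the line of `z` and `p`, `e, f ∈ T y`: exact `{e, f}` arcs of `S(y)` accumulate at `p`. *
  `Irr.tri` : a two-pair point `z = {a, b | c, d}`, `p` on `S(z)` with `T p = {b, d, e, f}`, and a point `y`
  with `e, f ∈ T y` on `S(p)` off the line:  | last: Irr.one_side_arc, Irr.tri
* `R2.H659.FinW2` (level 26, used by 1, 17 kB): P032: the world `WT`, final assembly Two points of order at
  least four at distance one have at most two common colours (`WT`). * `WT.adm_or_mk`: if every contact `{a,
  b, e, f}` of a two-pair point `{a, b | c, d}` is harmless with the pair `{a, b}` (`Same`) and exact arcs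
  end in three-coloured points (`End3`), then every point of the circle of a two-pair point is admissible or
  mixed; * `WT.okC3`: the circle of a two-p | last: okC3, no_mixed, no_dpt_of, empty_of
* `R2.H659.Top4` (level 27, used by 2, 16 kB): P032: the world `WT`, orders at most four, from the two
  certificates `S1`, `S2` * `CertS1`: a four-coloured end `{a, b, e, f}` of an `ab`-arc of `z = {a, b | c,
  d}` gives a contact of `z` of type S4r; * `CertS2`: a contact `{a, e | b, f}` and a contact `{a, c | e,
  f}` of the same `z` do not occur together; * `WT.no_s4`, `WT.no_s4r`: no contacts of type S4, S4r; *
  `WT.end3`: exact arcs of two-pair points end in three- | last: fc_all, okC3', com4W, top4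
* `R2.H659.S2` (level 28, used by 1, 5 kB): P032: the second certificate from three roots `z = {a, b | c,
  d}`, `y = {a, e | b, f}` and `w = {a, c | e, f}` on the circle of `z`, `w = pt z u0`. * `BoxA`, `BoxC`:
  the points of the circle at `u0 + 2` and `u0 + 4` do not both have `a, b` and not both `c, d`; * `BoxN`:
  no such `z, y, w` if the two points have different pairs; * `WT.certS2_of`: `CertS2 T`. | last:
  pair_only659, certS2_of
* `R2.H659.S2X` (level 28, used by 1, 6 kB): P032: the clauses about the first instant of the roots `R2A`,
  `R2C`, `S2n` `exA`, `exC`: the points `(0, 2)`, `(0, 4)` have the colours `a, b` (`c, d`); `exN`: they do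
  not both have colours of the same pair. | last: sem_C4, sem_exA, sem_exC, sem_exN
* `R2.H659.S2F` (level 29, used by 1, 4 kB): P032: the world of the root `rdS2` `z = {a, b | c, d}` (ring
  `0`), `w = {a, c | e, f}` (ring `1`), `y = {a, e | b, f}` (letters only, ring `2`), `y` and `w` on the
  circle of `z`; the anchor time `u0` is the time of `y`. | last: xS_inj, sgS2_lt, sgS2_inj, wdS2
* `R2.H659.S2R` (level 32, used by 3, 3 kB): P032: the boxes of the second certificate from the certificates
  of `rdR2` and `rdS2n` `Crt G ex`: a certificate of the system `G` with the clauses `ex` about the first
  instant; `Fr U T G`: the system `G` describes the situation of the boxes; `boxA_of`, `boxC_of`, `boxN_of`.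
  | last: boxA_of, boxC_of, boxN_of, certS2_of_crt
* `R2.H659.S2H` (level 33, used by 4, 4 kB): P032: the halves of the box `S2n` `BoxH`: colours `a, b` at `u0
  + 2` and `c, d` at `u0 + 4`; `BoxH'`: the reverse; `exH`: the clauses about the first instant; `fr_R2`,
  `fr_S2n`: the systems `rdR2`, `rdS2n` describe the situation. | last: sem_exH, boxH_of, fr_R2, fr_S2n
* `R2.H659.S2A` (level 34, used by 1, 1 kB): P032: the box `R2A` At a contact `{a, c | e, f}` of `z = {a, b
  | c, d}` the two places beside it do not both have `a, b`. | last: crtA, boxA
* `R2.H659.S2C` (level 34, used by 1, 1 kB): P032: the box `R2C` At a contact `{a, c | e, f}` of `z = {a, b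
  | c, d}` the two places beside it do not both have `c, d`. | last: crtC, boxC
* `R2.H659.S2W` (level 34, used by 1, 5 kB): P032: roots split over the start words `no_rootL`: 264's
  `no_rootE` for a fixed limit `L0` at the anchor time; `no_words`: a cover of the start words and one
  certificate for every word; `boxH_of_words`, `boxN_of_words`, `boxC_of_words`. The clauses of a word are
  about the initial letters (`I r k l`). | last: no_words, boxH_of_words, boxN_of_words, boxC_of_words
* `R2.H659.S2K` (level 35, used by 1, 2 kB): P032: certificates for the start words, in the form of
  `no_words` `crt_mk`: the four parts of a word certificate; `lits`: a word as unit clauses. | last: crt_mk,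
  hd_lits
* `R2.H659.S2Z` (level 36, used by 1, 4 kB): P032: the second certificate `boxH`: the half box from the ten
  start words of the ring of `z` (`S2m.cover`) and one certificate for each word; `certS2`: the second
  certificate for every word triangulation. | last: wordsS_cover, wordsS_crt, boxH, certS2

## R2.H741

* `R2.H741.Cert` (level 1, used by 2, 28 kB): P032, W4.CERT: a verified checker for systems of letters
  Positions `0 .. n-1`, letters `0 .. m-1`. A palette is a bit mask of letters, a palette system is the
  number `pcode m σ n` with the base `2 ^ m` digits `σ p`, so bit `m * p + l` says that the letter `l`
  (*atom* `(p, l)`) is present at the position `p`. A selection `h` is coded by the palette system `2 ^ h p`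
  (`scode m h n`). `Spec`: for every position the list  | last: pair_sound', pair_sound, selAll_sound',
  selAll_sound
* `R2.H741.Clo` (level 2, used by 1, 26 kB): P032, W4.CERT: the closure form of the check Positions `0 ..
  n-1`, letters `0 .. m-1`, codes as in `Cert.lean`. `conf p l` is the mask of the atoms which are in
  conflict with the letter `l` at `p`; windows are lists of atoms which are never all present at one time. A
  *forced move* of a legal selection: take a new letter at one position, and then new letters exactly at the
  positions whose old letter is in conflict wit | last: leg_of, noWin_of, sound_text, check_split1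
* `R2.H741.Tp` (level 2, used by 1, 16 kB): P032: atoms at an instant and their numbers `Sem`: the truth
  values of all atoms at an instant (rings `r`, positions `k < 6`, letters `l < 4`, colours `i < 6`; `t =
  0`: just before, `t = 1`: just after the instant; `x = 3 k + s`: the direction `k`, `s = 0, 1, 2`: just
  before, at, just after the instant). `val S c`: the truth value of the atom with the number `c`. A literal
  is `2 c` or `2 c + 1` (negated), as in `H805 | last: hd_append, hd_ps, hd_ng, hd_map
* `R2.H741.Fst` (level 3, used by 1, 38 kB): P032, W4.CERT: the fast form of the closure check Same layout
  as `Clo.lean`, but everything is written with recursors and raw operations of `Nat`, all intermediate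
  numbers are forced to literals (`force`), and the conflicts and the windows with two atoms are one table:
  block `j = m * p + l` (width `W2 = 2 w`, `w = m * n`) of the table is the mask of the atoms in conflict
  with the atom `j`, plus `2 ^ w` times the mask | last: chain_induct, cls_sound, movN_rec, movN_step
* `R2.H741.TpF` (level 3, used by 6, 24 kB): P032: the facts at an instant `RD`: the rings of two-pair
  centres (`sg r j`: the colours `a, b, c, d, e, f` of the ring `r`; letters `0: e`, `1: f`, `2: ab`, `3:
  cd`). `SF`: facts about the state just before the instant (`t = 0`); `TF`: facts about the step; `IF`: the
  start, `BF`: the end. One field for every tag of `tp.py`. The directions are `x = 3 k + s`, `k < 6`, `s =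
  0, 1, 2` (just before, at, just after).
* `R2.H741.Fst2` (level 4, used by 1, 11 kB): P032, W4.CERT: the fast checks with lists of atoms `Fst.Text`:
  conflicts `C p l`, windows of two atoms `P p l` (partners), windows `W`. `Fst.Agree`: the numbers in the
  check are the numbers of the text (`decide +kernel`). `clsChk`, `namChk`, `legChk`: the three checks;
  `Agree.cls`, `Agree.nam`, `Agree.leg`: what they say. `fsel_node`, `fsel_root`: splitting of a check into
  several theorems. | last: Agree.leg, bits_complete, fsel_node, fsel_root
* `R2.H741.TpG` (level 4, used by 1, 11 kB): P032: the clauses of the facts `CS`: clauses about the state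
  before the instant, `CT`: about the step, `CI`: about the start, `CB`: about the end. `cl`: the clause,
  `ok`: the parameters are in range. `CS.sound`, `CT.sound`, ...: the clauses hold if the facts hold. |
  last: yk_iff, lc_lt, hd_four, CS.sound
* `R2.H741.Fst3` (level 5, used by 1, 6 kB): P032, W4.CERT: the fast check for the data of `Clo.lean`
  `Clo.Chk D L`: the leaf test holds for all generated moves (the conclusion of `Clo.gen_sound`). `Fst.Tbl`:
  a table for given data `D`, `D.wins` contains all windows (also those with two atoms); `Tbl.chk`: `Chk`
  from the fast check (all start positions); `Tbl.cls`: equal classes from the reduced check; `Tbl.all`: all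
  legal selections. | last: Tbl.noPair, Tbl.chk, Tbl.cls, Tbl.all
* `R2.H741.TpC` (level 5, used by 2, 30 kB): P032: the clauses about the step, the start and the end
* `R2.H741.TpH0` (level 6, used by 5, 7 kB): P032: auxiliary lemmas for the soundness of the clauses | last:
  pos_two, pos_three, one_pos, two_pos
* `R2.H741.TpH1` (level 7, used by 1, 15 kB): P032: soundness of the clauses, letters and palettes | last:
  h_flanksame, h_flank4, h_flankr, h_s4word
* `R2.H741.TpH2` (level 7, used by 2, 11 kB): P032: soundness of the clauses, points with at most three
  colours, faces | last: inD_iff', h_insubA, h_insubB, h_two
* `R2.H741.TpH3` (level 7, used by 1, 13 kB): P032: soundness of the clauses, directions | last: h_letlab,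
  h_gline, h_gset, h_gmono
* `R2.H741.TpH4` (level 7, used by 1, 14 kB): P032: soundness of the clauses, numbers of points | last:
  h_norz, h_first, h_anchor, h_done
* `R2.H741.TpH6` (level 7, used by 1, 11 kB): P032: soundness of the clauses, rings with letters only,
  types, anchor | last: h_anchD, h_nc, h_ncD, h_out2
* `R2.H741.TpH5` (level 8, used by 1, 8 kB): P032: soundness of the clauses, contacts | last: h_sameH,
  h_sameD, h_agree, h_tight
* `R2.H741.TpH` (level 9, used by 1, 10 kB): P032: soundness of the clauses about the step, the start and
  the end `CL.sound`, `CI.sound`, `CB.sound`: a clause whose parameters are in range holds if the facts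
  hold. | last: CL.sound, CI.sound, CB.sound
* `R2.H741.TpS` (level 10, used by 7, 1 kB): P032: the facts give the hypotheses of the certificate checks |
  last: ax_of, cs_of, ci_of, cb_of

## R2.H741.N5

* `R2.H741.N5.Base` (level 7, used by 2, 28 kB): P032: root S2m, word 5: the invariant | last: inv_st
* `R2.H741.N5.P0` (level 8, used by 1, 5089 kB): table. P032: root S2m, word 5: module 0 | last: blk8
* `R2.H741.N5.S0` (level 8, used by 1, 222 kB): P032: root S2m, word 5: module 0 | last: rd7, blk7, rd8,
  blk8
* `R2.H741.N5.Main` (level 9, used by 1, 8 kB): P032: root S2m, word 5: start, step, end | last: fin,
  startB, ini_ok, start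
* `R2.H741.N5.Top` (level 11, used by 1, 1 kB): P032: root S2m, word 5: the certificate from the facts |
  last: good, top_start, top_step, top_fin

## R2.H741.N7

* `R2.H741.N7.Base` (level 7, used by 2, 28 kB): P032: root S2m, word 7: the invariant | last: inv_st
* `R2.H741.N7.P0` (level 8, used by 1, 4851 kB): table. P032: root S2m, word 7: module 0 | last: blk8
* `R2.H741.N7.S0` (level 8, used by 1, 226 kB): P032: root S2m, word 7: module 0 | last: rd7, blk7, rd8,
  blk8
* `R2.H741.N7.Main` (level 9, used by 1, 8 kB): P032: root S2m, word 7: start, step, end | last: fin,
  startB, ini_ok, start
* `R2.H741.N7.Top` (level 11, used by 1, 1 kB): P032: root S2m, word 7: the certificate from the facts |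
  last: good, top_start, top_step, top_fin

## R2.H741.R2A

* `R2.H741.R2A.Base` (level 7, used by 2, 1 kB): P032: root R2A: the invariant | last: inv_st
* `R2.H741.R2A.P0` (level 8, used by 1, 47 kB): table. P032: root R2A: block 0 | last: blk
* `R2.H741.R2A.S0` (level 8, used by 1, 5 kB): P032: root R2A: block 0 | last: ld0, g0, rd, blk
* `R2.H741.R2A.Main` (level 9, used by 1, 1 kB): P032: root R2A: start, step, end | last: fin, startB,
  ini_ok, start
* `R2.H741.R2A.Top` (level 11, used by 1, 1 kB): P032: root R2A: the certificate from the facts | last:
  good, top_start, top_step, top_fin

## R2.H741.R2C

* `R2.H741.R2C.Base` (level 7, used by 3, 68 kB): P032: root R2C: the invariant | last: inv_st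
* `R2.H741.R2C.P0` (level 8, used by 1, 3825 kB): table. P032: root R2C: module 0 | last: blk18
* `R2.H741.R2C.S0` (level 8, used by 1, 212 kB): P032: root R2C: module 0 | last: rd14, blk14, rd15, blk15
* `R2.H741.R2C.S1` (level 8, used by 1, 47 kB): P032: root R2C: module 1 | last: rd17, blk17, rd18, blk18
* `R2.H741.R2C.Main` (level 9, used by 1, 20 kB): P032: root R2C: start, step, end | last: fin, startB,
  ini_ok, start
* `R2.H741.R2C.Top` (level 11, used by 1, 1 kB): P032: root R2C: the certificate from the facts | last:
  good, top_start, top_step, top_fin

## R2.H758

* `R2.H758.Five` (level 28, used by 1, 17 kB): P032 (T2*): near a clean six-coloured point with a silent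
  colour `s` no point has exactly the five other colours If `w` is close to `z` and `T w` consists of the
  five active colours, the two common neighbours of `w` and `z` are almost opposite and no colour is carried
  by `S(z)` near them, so both palettes are triangles of broken pairs; there is only one triangle, and its
  two neighbouring places then share two colours | last: pent_no_triangle, house_triangle, fin5_cases,
  ne_five

## R2.H784

* `R2.H784.Sys` (level 1, used by 2, 6 kB): P032: systems of letters at finitely many coupled positions, no
  tameness `X p l : Set ℝ` are the times at which `l` is a letter at the position `p` (closed sets which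
  cover the line). `C p l p' l'`: conflict. A letter at `p` on a neighbourhood of `t` excludes the
  conflicting letters at `t`. A selection is a choice of one letter for every position; it is legal if it
  has no conflict. `Sys.class_eq`: if on an interval a | last: Sys.good_open_dense, Sys.exists_legal,
  Sys.near, Sys.class_eq
* `R2.H784.ConvW` (level 3, used by 1, 10 kB): Words on a circle: the convexity fact, no assumption on the
  palettes `RawU X`: the word of a two-pair centre. Letters `0 = e`, `1 = f`, `2 = A`, `3 = C`; angles in
  units of 60 degrees. `r` is an order of the letters with `A` first and `C` last. `Jmp r X u`: two letters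
  at `u` which are not neighbours in the order; `Swp r X u`: the same two neighbours of the order are
  letters at `u` and at `u + 1`. Every open arc long | last: RawU.gen_three, RawU.anti', RawU.conv_amb,
  RawU.conv
* `R2.H784.ConvC` (level 8, used by 4, 7 kB): P032: the convexity fact for every two-pair centre, no
  assumption on the unit circle `Irr.conv_flip`: `z` a two-pair centre `ab | cd` with missing colours `e,
  f`. Every open arc of `S(z)` longer than 180 degrees contains an end `{a, b, e}` or `{c, d, f}` or a point
  with at least four colours which is a flip point of class one. | last: xs_col, Ctr.rawU, Ctr.swp_four,
  Irr.conv_flip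
* `R2.H784.Ring` (level 8, used by 3, 14 kB): P032: coupled rings Finitely many centres `c i`, letters `Λ`
  with colour sets `col i l`, closed sets `F i l`: the points of `S(c i)` with the letter `l` (then all
  colours of `col i l` are in the palette). Positions `(i, k)`, `k : Fin 6`: the point of `S(c i)` in the
  direction `t + k` (unit 60 degrees). Conflicts: letters with a common colour at neighbours of one ring,
  and at equal directions of two centres at distanc | last: sel_rot, nb_rot, legal_rot, Rings.no_path
* `R2.H784.Iso` (level 11, used by 3, 5 kB): P032: two-pair points are isolated `Irr.iso` : near a two-pair
  point `z = ab | cd` no other point has both `a` and `b` in its palette `Pal U`. No assumption on the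
  orders of other points. | last: Irr.iso_of_sd, Irr.iso, Irr.iso', Irr.iso_card
* `R2.H784.Lim` (level 12, used by 3, 4 kB): P032: limits of two-pair points World with at most four
  colours. A limit `z` of two-pair points `ab | cd` has the palette `{a, b, c, d}`, is not a two-pair point,
  and all its exact arcs have one and the same pair, `{a, b}` or `{c, d}`. | last: DPt.card, Irr.limit_pal,
  Irr.arc_near, Irr.limit_dpt
* `R2.H784.Hub` (level 17, used by 1, 1 kB): P032: interface between the ring analysis and the geometry of
  the hubs `HubW U T`: the frame `Hub` (helper479) and what the analysis of the classes of the two-pair
  centres has to deliver when all points have at most four colours.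

## R2.H805

* `R2.H805.Rup` (level 1, used by 2, 19 kB): A kernel checker for RUP / LRAT refutations (general purpose,
  about 0.1 ms per hint) For the user A literal is a number: `2 * i` is the variable `i`, `2 * i + 1` its
  negation (`Lit`). A clause is a list of literals. `chk_sound`: if `chk N w m q d ax codes a k = true` (by
  `decide +kernel`), then no valuation `v : ℕ → Prop` satisfies all clauses of `ax`. The data `N w m q d
  codes a k` come from the converter `rup.py` ( | last: ldRun_sound, ld_sound, end_sound, chk_sound
* `R2.H805.Step` (level 6, used by 16, 16 kB): P032: certificates of invariants `match_sound`: a refutation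
  (`H805/Rup.lean`) of clauses in local variables (the digits of `W`) refutes the clauses `cs` in the
  numbering of `H741/Tp.lean`. `isSt`: numbers of the state atoms (just before the instant), `nx`, `nxl`:
  the number of the successor (just after the instant). `stp`: check of one clause of the invariant after
  the instant, `ini`: start, `fns`: end. | last: hns_cons, hns_nil, hds_flat, hns_flat
* `R2.H805.Blk` (level 7, used by 28, 7 kB): P032: a block of clauses of an invariant with one table
  `blk_ax`: the facts and the invariant are loaded (`ldb`), `Rup.seg_sound`: the learned clauses, `blk_rd`:
  the clauses of the block after the instant are read from the table. | last: msk_holds, rd1_sound,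
  rds_sound, rdb_sound
* `R2.H805.Cov` (level 8, used by 9, 3 kB): P032: start words `stu`: a clause of the invariant from the
  facts about the start and extra clauses; `cvr`: one of the start words occurs. | last: stu_sound,
  cvr_sound

## R2.H805.S1a

* `R2.H805.S1a.Base` (level 7, used by 1, 21 kB): P032: root S1a: the invariant | last: inv_st
* `R2.H805.S1a.P0` (level 8, used by 1, 1278 kB): table. P032: root S1a: all blocks | last: Blk6.blk
* `R2.H805.S1a.Main` (level 9, used by 1, 120 kB): P032: root S1a: start, step, end | last: ini_ok, hE,
  start0, start
* `R2.H805.S1a.Top` (level 11, used by 1, 1 kB): P032: root S1a: the certificate from the facts | last: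
  good, top_start, top_step, top_fin

## R2.H805.S1b

* `R2.H805.S1b.Base` (level 7, used by 1, 51 kB): P032: root S1b: the invariant | last: inv_st
* `R2.H805.S1b.P0` (level 8, used by 1, 3266 kB): table. P032: root S1b: all blocks | last: Blk15.blk
* `R2.H805.S1b.Main` (level 9, used by 1, 284 kB): P032: root S1b: start, step, end | last: ini_ok, hE,
  start0, start
* `R2.H805.S1b.Top` (level 11, used by 1, 1 kB): P032: root S1b: the certificate from the facts | last:
  good, top_start, top_step, top_fin

## R2.H805.S2m

* `R2.H805.S2m.Cover` (level 9, used by 1, 20 kB): P032: root S2m: the start words of the ring of `z` |
  last: cov, cover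

## R2.H805.S2m.W0

* `R2.H805.S2m.W0.Base` (level 7, used by 1, 48 kB): P032: root S2m, start word 0: the invariant | last:
  inv_st
* `R2.H805.S2m.W0.P0` (level 8, used by 1, 7940 kB): table. P032: root S2m, start word 0: all blocks | last:
  Blk13.blk
* `R2.H805.S2m.W0.Main` (level 9, used by 1, 462 kB): table. P032: root S2m, start word 0: start, step, end
  | last: start

## R2.H805.S2m.W1

* `R2.H805.S2m.W1.Base` (level 7, used by 1, 36 kB): P032: root S2m, start word 1: the invariant | last:
  inv_st
* `R2.H805.S2m.W1.P0` (level 8, used by 1, 6931 kB): table. P032: root S2m, start word 1: all blocks | last:
  Blk10.blk
* `R2.H805.S2m.W1.Main` (level 9, used by 1, 336 kB): P032: root S2m, start word 1: start, step, end | last: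
  ini_ok, hE, start0, start

## R2.H805.S2m.W2

* `R2.H805.S2m.W2.Base` (level 7, used by 1, 15 kB): P032: root S2m, start word 2: the invariant | last:
  inv_st
* `R2.H805.S2m.W2.P0` (level 8, used by 1, 3360 kB): table. P032: root S2m, start word 2: all blocks | last:
  Blk5.blk
* `R2.H805.S2m.W2.Main` (level 9, used by 1, 192 kB): P032: root S2m, start word 2: start, step, end | last:
  ini_ok, hE, start0, start

## R2.H805.S2m.W3

* `R2.H805.S2m.W3.Base` (level 7, used by 3, 4 kB): P032: root S2m, start word 3: the invariant | last:
  inv_st
* `R2.H805.S2m.W3.P0` (level 8, used by 1, 1235 kB): table. P032: root S2m, start word 3: block 0 | last: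
  blk
* `R2.H805.S2m.W3.P1` (level 8, used by 1, 1152 kB): table. P032: root S2m, start word 3: block 1 | last:
  blk
* `R2.H805.S2m.W3.P2` (level 8, used by 1, 795 kB): table. P032: root S2m, start word 3: block 2 | last: blk
* `R2.H805.S2m.W3.Main` (level 9, used by 1, 34 kB): P032: root S2m, start word 3: start, step, end | last:
  ini_ok, hE, start0, start

## R2.H805.S2m.W4

* `R2.H805.S2m.W4.Base` (level 7, used by 3, 4 kB): P032: root S2m, start word 4: the invariant | last:
  inv_st
* `R2.H805.S2m.W4.P0` (level 8, used by 1, 1115 kB): table. P032: root S2m, start word 4: block 0 | last:
  blk
* `R2.H805.S2m.W4.P1` (level 8, used by 1, 919 kB): table. P032: root S2m, start word 4: block 1 | last: blk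
* `R2.H805.S2m.W4.P2` (level 8, used by 1, 60 kB): table. P032: root S2m, start word 4: block 2 | last: blk
* `R2.H805.S2m.W4.Main` (level 9, used by 1, 12 kB): P032: root S2m, start word 4: start, step, end | last:
  ini_ok, hE, start0, start

## R2.H805.S2m.W6

* `R2.H805.S2m.W6.Base` (level 7, used by 1, 16 kB): P032: root S2m, start word 6: the invariant | last:
  inv_st
* `R2.H805.S2m.W6.P0` (level 8, used by 1, 3708 kB): table. P032: root S2m, start word 6: all blocks | last:
  Blk5.blk
* `R2.H805.S2m.W6.Main` (level 9, used by 1, 208 kB): P032: root S2m, start word 6: start, step, end | last:
  ini_ok, hE, start0, start

## R2.H805.S2m.W8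

* `R2.H805.S2m.W8.Base` (level 7, used by 3, 4 kB): P032: root S2m, start word 8: the invariant | last:
  inv_st
* `R2.H805.S2m.W8.P0` (level 8, used by 1, 900 kB): table. P032: root S2m, start word 8: block 0 | last: blk
* `R2.H805.S2m.W8.P1` (level 8, used by 1, 1262 kB): table. P032: root S2m, start word 8: block 1 | last:
  blk
* `R2.H805.S2m.W8.P2` (level 8, used by 1, 922 kB): table. P032: root S2m, start word 8: block 2 | last: blk
* `R2.H805.S2m.W8.Main` (level 9, used by 1, 32 kB): P032: root S2m, start word 8: start, step, end | last:
  ini_ok, hE, start0, start

## R2.H805.S2m.W9

* `R2.H805.S2m.W9.Base` (level 7, used by 3, 5 kB): P032: root S2m, start word 9: the invariant | last: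
  inv_st
* `R2.H805.S2m.W9.P0` (level 8, used by 1, 1056 kB): table. P032: root S2m, start word 9: block 0 | last:
  blk
* `R2.H805.S2m.W9.P1` (level 8, used by 1, 1053 kB): table. P032: root S2m, start word 9: block 1 | last:
  blk
* `R2.H805.S2m.W9.P2` (level 8, used by 1, 563 kB): table. P032: root S2m, start word 9: block 2 | last: blk
* `R2.H805.S2m.W9.Main` (level 9, used by 1, 14 kB): P032: root S2m, start word 9: start, step, end | last:
  ini_ok, hE, start0, start

## R2.H833

* `R2.H833.Unico` (level 1, used by 1, 7 kB): P032, ROW A, part 1: plane topology `frontier_preconn` :
  unicoherence of the plane in the form: if `O` is closed and preconnected, `t` is preconnected and disjoint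
  from `O`, and `frontier O` is in the closure of `t`, then `frontier O` is preconnected. | last:
  exists_lift, frontier_preconn, preconn_out, exists_frontier
* `R2.H833.Skeleton` (level 5, used by 1, 10 kB): P032, ROW A: the skeleton theorem `Irr.skeleton` : let `G`
  be closed, nonempty, `G ⊆ XX U`, and near every point of `G` every point whose palette `T x` is not a
  singleton is in `G`. Then `XX U ⊆ G`. | last: exists_outer, isOpen_single, exists_tile, skeleton
* `R2.H833.M4` (level 9, used by 1, 11 kB): table. P032, W4.M4 (given local finiteness): the world of full
  ends is empty `Irr.m4_of_lf` : a nonempty locally finite set `E` | last: Irr.m4_of_lf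
* `R2.H833.Rule2Top` (level 9, used by 2, 9 kB): P032: RULE 2 for every two-pair point, without any bound on
  orders `Irr.rule2_top`: if `z = {ab|cd}` and the circle of `z` has a point with the palette `{c, d, f}`,
  then at most two points of the circle have the palette `{a, b, e}`. Nothing is assumed about the orders of
  the corners `x + q - z`. | last: Cfg.line833, Cfg.same833, Irr.rule2_top, Irr.rule2_ncard_top
* `R2.H833.VisTop` (level 10, used by 1, 11 kB): P032: visible ends without any bound on orders
  `Cfg.cend_top`: if `z = {ab|cd}` and the circle of `z` has a point `V` with the palette `{a, b, e}` and a
  point `Q` with the palette `{c, d, f}`, then `V` is a clean end of an exact `ab`-arc: on one side of `V`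
  all palettes are `{a, b}`, on the other side all palettes contain `e` and not both `a` and `b`. Nothing is
  assumed about the order of the corner `V + Q - z`. | last: Cfg.key833, Cfg.near833, Cfg.side833,
  Cfg.cend_top
* `R2.H833.M4W` (level 15, used by 1, 4 kB): P032, W4.M4 (given local finiteness) for the worlds of full
  ends `Wld T E` | last: Wld.orient, Wld.m4_of_lf
* `R2.H833.HubC` (level 18, used by 3, 5 kB): P032: the core interface between the ring analysis and the
  geometry of the hubs `HubC U T`: irredundant palettes with at most four colours; exact arcs of two-pair
  points stop at points of three colours (`stop`), all four kinds of full ends exist (`full`), no class with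
  one end of both types (`two`), no triangle of pairwise rhombic centres (`tri`). | last: Irr.third,
  Irr.ee_of_full, HubW.toC
* `R2.H833.NetW` (level 19, used by 1, 11 kB): P032, W4.NET: every full end sees three hubs `HubC.middle`:
  at every full end `v` there are a middle hub `M` and two side hubs `v + q - M`, `v + q' - M` (`q`, `q'`
  full ends of `M` with the complementary palette). | last: tripod, hub, hb_ee, rhomb
* `R2.H833.S3A` (level 19, used by 2, 19 kB): P032: the world with contacts of type S3 only, rule R `S3W U
  T`: at most four colours; the four-coloured points on the circle of a two-pair point are two-pair points
  of type S3 (`tie`), exact arcs of two-pair points end in three-coloured points (`end3`). `z = {ab|cd}`, `y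
  = {ab|ef}` at distance one (a lock pair): * `S3W.inside`: the points of `S(z)` with palette inside `T z`
  are exact; * `S3W.rule`: if `p` is on an e | last: exact_tr, const_tr, no_tie, rule
* `R2.H833.NetW2` (level 20, used by 1, 10 kB): P032, W4.NET: the world of full ends of `HubC U T`
  `HubC.wld` : the full ends form a world; `HubC.false` : there is no two-pair point. | last: shift, wld,
  false, HubW.false
* `R2.H833.S3B` (level 20, used by 3, 11 kB): P032: the flanks of a lock pair `z = {ab|cd}`, `y = {ab|ef}`
  at distance one, `p` a common point of the two circles (a flank), `p' = y + z - p` the other flank. If `e,
  f ∈ T p` then both flanks are ends of exact `ef`-arcs of `S(y)` and the translates `z + p - y`, `z + p' -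
  y` are limits of exact `ab`-arcs of `S(z)`. | last: S3W.lock, nd_cdab, no_t1, swapped
* `R2.H833.S3C` (level 21, used by 2, 13 kB): P032: a class with one end of each kind, contacts of type S3
  only `S3W.two`. | last: end_of, other, _root_.Vale.Agent.P032.Six.far_ends, core
* `R2.H833.S3D` (level 22, used by 1, 13 kB): P032: TWO in the world with contacts of type S3 only
  `S3W.two`: no class of a two-pair point has exactly one end of each kind. | last: exists_long, flip_nb,
  two_arcs, two

## R2.H838

* `R2.H838.Chord` (level 6, used by 1, 11 kB): P032: chords free of a colour, the covering half plane (wild)
  `z` is not in `U s`. Then there is a point `y` of `S(z)` in the closure of `U s` and points `g` of `U s`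
  tending to `y` on one side of `S(z)` (`σ = 1` inside, `σ = -1` outside): `Irr.exists_side`. The unit
  circle about `g` near `z` is free of `s` and meets every half line from `z` with `σ * ip u (y - z) < 0`
  near `z` (`ray_crossing`, `Irr.exists_chord`). H | last: shift_dist, Irr.near_half, Irr.far_half,
  Irr.half_plane
* `R2.H838.ChordPt` (level 8, used by 1, 10 kB): P032: the chord point as a function of the angle (wild)
  `cpt g q` : the intersection point of the unit circles about `q` and `g` which is near `z` if `g` is near
  `y = pt z t₀` and `q = pt z u`, `t₀ < u < t₀ + 3`. `Irr.exists_chord_pt` : if `z ∉ U s` there are `t₀`,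
  points `g m` of `U s` off `S(z)` tending to `y = pt z t₀`, and the functions `w m u = cpt (g m) (pt z u)`,
  continuous in `u`, at distance one from `pt z u | last: cpt_circle, cpt_pt, cpt_uniform,
  Irr.exists_chord_pt

## R2.H939

* `R2.H939.TieX` (level 8, used by 1, 21 kB): Words on a circle with crossed ends: the fact L1 `RawX` is
  `RawT3` without the field `two`: a point may have three letters. A crossed end is a point with the letters
  `e, f, A` (or `e, f, C`) whose two neighbours have the letter `C` (or `A`), not the letter `e`.
  `RawX.L1x`: a word in which every common point of `e` with `A` or `C` is a crossed end does not exist. |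
  last: nrm_nrm, RawX.mem_sub, RawX.px, RawX.L1x
* `R2.H939.Pairs` (level 12, used by 3, 18 kB): P032: the exact arcs of a two-pair point `Irr.dpt_pairs` :
  at a two-pair point `z = ab | cd` an exact arc of `S(z)` inside `T z` has the palette `{a, b}` or `{c,
  d}`. No assumption on the orders of other points. | last: Irr.d0', Irr.no_mixed_arc_aux, Irr.no_mixed_arc,
  Irr.dpt_pairs
* `R2.H939.S1` (level 13, used by 1, 19 kB): P032, contact S1: two points with the same four colours at
  distance one `z = ab | cd` a two-pair point, `y` on `S(z)` with `T y = T z`. No assumption on the orders
  of other points. Then `y` is a two-pair point with another pairing, one side of `S(z)` at `y` is exactly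
  `{a, b}`, the other side is exactly `{c, d}`. | last: Irr.oneside', Irr.s1_split, arc_of_ev, Irr.s1_aux
* `R2.H939.S1W` (level 14, used by 1, 10 kB): P032, contact S1: the words `S1W U T z u a b c d` : all local
  data of a contact of two points with the same four colours, with `a, c` inside both circles, `ab` before
  and `cd` after `y = pt z u` on `S(z)`. `Irr.s1` : every contact `T y = T z` of a two-pair point is of this
  kind, up to the symmetries. No assumption on the orders of other points. | last: Irr.s1, Irr.s1_words,
  Irr.s1_dpt, S1W.symm
* `R2.H939.HEnd` (level 15, used by 2, 3 kB): P032: translates at a limit of exact arcs * `Irr.close_prism`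
  : if exact `P`-arcs of `S(z)` accumulate at `y` and `m` is on `S(y)`, not on the line of `z` and `y`, then
  near `m` there are points without the colours of `P`; * `Irr.harm_not_end` : a harmless point `y` with the
  arc pair `A` is not a limit of exact `P`-arcs of `S(z)` if `A ⊆ P`. | last: Irr.close_prism,
  Irr.not_sub_end, Irr.harm_not_end, Irr.pure_side
* `R2.H939.S1Third` (level 15, used by 1, 9 kB): P032, contact S1: the antipode and the third vertices |
  last: Irr.s1_no_pair, Irr.s1_not_whole, whole_of_ctr, S1W.third_mixed
* `R2.H939.S2` (level 17, used by 1, 7 kB): P032, contact S2: `z = ab | cd`, `y` on `S(z)` with `T y = {a,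
  b, c, e}` | last: letter, only_d, not_whole_d, S2at.oneside
* `R2.H939.S2Flank` (level 18, used by 1, 12 kB): P032, contact S2: the word at `y`, and the third vertices
  | last: freq_of_closure, freq_sides, eq_ab, word
* `R2.H939.S2Kind` (level 19, used by 1, 5 kB): P032, contact S2: the kinds of `y` | last: Irr.dpt_of_arc,
  kinds
* `R2.H939.HLock` (level 20, used by 1, 15 kB): P032: harmless contacts of a two-pair point with one colour
  of each pair `z = {a, b | c, d}`, `y` on `S(z)` harmless with the palette `{a, c, e, f}`. * `Irr.hmix_ne`
  : the arc pair of `y` is not `{e, f}`; * `Irr.hmix_ac` : if the arc pair is `{a, c}`, then `z` and `y`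
  have no common neighbour with at most three colours; * `Irr.hmix_ae` : if the arc pair is `{a, e}`, the
  common neighbours with at most three colours ha | last: Irr.hmix_ne, Irr.hmix_ac, Irr.hmix_ae
* `R2.H939.HW2` (level 23, used by 3, 16 kB): P032: the world `WT`, harmless contacts with one colour of
  each pair In the world in which four-coloured points at distance one share at most two colours: *
  `WT.no_dstar` : there are no `D`-star pairs; * `WT.no_hmix_ac` : no harmless contact `{a, c, e, f}` of `z
  = {a, b | c, d}` has the arc pair `{a, c}`; * `WT.hmix` : the arc pair is one of `{a, e}`, `{a, f}`, `{c,
  e}`, `{c, f}`. | last: no_dstar, no_hmix_ac, hmix, tri_pal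
* `R2.H939.W2Tri` (level 25, used by 3, 23 kB): P032: the world `WT`, no two four-coloured points of a
  circle at distance one `z = {a, b | c, d}` in the world `WT`. * `WT.no_tri_same`, `WT.no_tri_mixed`,
  `WT.no_tri` : two four-coloured points of `S(z)` are not at distance one; * `WT.swap_s4r` : a neighbour of
  a contact `y` on `S(z)` which carries both missing colours `e, f` forces `y = {i, j | e, f}` with `i ∈ {a,
  b}`, `j ∈ {c, d}`; * `WT.conv_r` : every arc longe | last: swap_aux, swap_s4r, conv_r, conv_r'
* `R2.H939.TwoL3` (level 26, used by 1, 33 kB): P032: TWO and L3 for the centres without contacts `{i, j |
  e, f}`, in the world `WT` `NoR T z`: no point of `S(z)` is a two-pair point one pair of which consists of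
  the two missing colours of `z`. * `RawU.antip` : two antipodal clean ends of type `f | C` with nothing in
  between (words). * `WT.amb` : an ambiguous pair of `S(z)` contains a real end or a contact `{i, j | e,
  f}`. * `WT.twoR` : no class has exactly one en | last: mid, no_antip, twoR, l3R
* `R2.H939.RawN` (level 27, used by 1, 14 kB): P032: the word of a centre without contacts `{i, j | e, f}`,
  in the world `WT` * `WT.rawX` : the word is a `RawX`. * `WT.e_end` : there is a real end of a type with
  `e`. | last: dblN, rawX, flX, e_end
* `R2.H939.End3N` (level 28, used by 1, 20 kB): P032: exact arcs of a two-pair point without contacts S4,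
  S4r end in three-coloured points No bound for the orders of the points. * `WT.no_crossedH` : `z` without
  contacts S4r, the contacts `{c, d, e, f}` harmless: a harmless contact `{a, b, e, f}` with the arc pair
  `{a, e}` is not an end. * `WT.end3H` : `z` without contacts S4r, the contacts with a pair of `z` harmless:
  exact arcs of `z` end in three-coloured points | last: no_crossedH, end3H, end3N, raw3N
* `R2.H939.TopW` (level 29, used by 2, 6 kB): P032: the first certificate is needed for two-pair contacts
  only * `CertS1w`: a contact `{a, e | b, f}` of `z = {a, b | c, d}` gives a contact of `z` of type S4r. *
  `WT.certS1` : `CertS1w` and `CertS2` give `CertS1` (no order bound). | last: end3w, certS1, okC3w, top4w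
* `R2.H939.Final` (level 30, used by 1, 9 kB): P032: the world `WT` is empty The two hypotheses `H5`, `H6`
  of `resultW6` and `resultW7` from the certificates. * `WT.cl5` : the circles of points with five or six
  colours are clean. * `WT.l3pW`, `WT.no5W` : the convexity statement; there are no points with five
  colours. * `h5W`, `h6W` : the hypotheses `H5`, `H6`. * `actW` : with `Act5` the six-coloured points of the
  world are active. | last: rel8_of, exists_pairW8_of, resultW8, h4W
* `R2.H939.FinalC` (level 33, used by 1, 2 kB): P032: the world `WT` is empty, given the five certificates *
  `act` : clean points with six colours are active. * `allS1_of`, `allS2_of`, `allS2_of'` : the certificates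
  in all worlds `WT`. * `h5C`, `h6C` : the hypotheses of `resultW7`. | last: frR2, frS2n, allS2_of',
  allS2_of

## R2.H951

* `R2.H951.PlaneW2` (level 26, used by 1, 13 kB): P032, row A7: the worlds `WT` and `E3`, statements in the
  plane `MS U Q x` : `Q` is a minimal set of indices with `⋃ i ∈ Q, U i` sufficient near `x`. `WV U x x'` :
  `x`, `x'` at distance one have minimal sufficient sets `Q`, `Q'` with at least four elements and at least
  three common elements. `EV U x x'` : `x` is a two-pair point `ab | cd`, `x'` is a point at distance one
  with a minimal sufficient set of at least four | last: hEV, closure_transfer, exists_pairW_of,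
  exists_e3V_of
* `R2.H951.Rel6` (level 27, used by 2, 16 kB): P032, row A7: relations of pairs of points at distance one,
  without bound for the order `exists_frame_relQ` : the frame for a relation `R` without limits between
  points of order `> 3`, in which points with at least five colours have no points with four colours at
  distance one, with prescribed palettes at finitely many points. `rel5_of`, `rel6_of` : the statements in
  the plane for any such relation. `exists_pairW6_of` | last: WV_of_XU, exists_pairW6_of, exists_e3V5_of,
  exists_e3V6_of
* `R2.H951.FinalW` (level 28, used by 1, 10 kB): P032, row A7: the statements of the hand-ins for the worlds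
  `WT` and `E3`, written out `resultW6` : pairs of points of order `> 3` at distance one with three common
  indices. `resultE6` : limits of exact arcs of two-pair points. `resultW5`, `resultE5` : the same with a
  point of order `> 5` as the first alternative. | last: resultW6, resultE6, resultW5, resultE5

## R2.H962

* `R2.H962.SilDefs` (level 1, used by 2, 3 kB): P032: a silent colour: the finite system of an `s`-free
  chord The five active colours are `0, .., 4` (`Fin 5`), sets of colours are masks. Letters: `0, .., 4` are
  the diagonals `{m - 1, m + 1}` of the pentagon, `5` is the pair `{0, 4}`. A word is a function `w : Fin 6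
  → Fin 6` (six letters), the colours of the chord in three directions are `κ : Fin 3 → Fin 5`.
* `R2.H962.SilDefs2` (level 2, used by 2, 1 kB): P032: a silent colour: the finite system with two
  directions
* `R2.H962.SilLoc` (level 20, used by 1, 10 kB): P032: points near a clean six-coloured point with a silent
  colour `z` has six colours, the palettes of its unit circle have at most three colours, `s` is in no pair
  of the circle, the other colours are `c 0, .., c 4` and the pairs `{c (m - 1), c (m + 1)}` are broken. A
  point `w` near `z` without the colour `s` has one colour or a contact `{c i, c (i + 1)}`; at a contact the
  two common neighbours of `w` and `z` have l | last: ncard_range, Lab.small, carried, contact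
* `R2.H962.SilStep` (level 21, used by 1, 12 kB): P032: the colours on an `s`-free chord near one instant |
  last: mir2, mir3, contact_let, conn
* `R2.H962.SilEnd` (level 22, used by 1, 9 kB): P032: no silent colour at a clean six-coloured point: the
  induction | last: not_carA, not_carB, st_of, local_step
* `R2.H962.SilCore` (level 23, used by 1, 3 kB): P032: no silent colour at a clean six-coloured point: the
  contradiction | last: fin_shift, core
* `R2.H962.SilTop` (level 29, used by 1, 4 kB): P032: every colour of a clean six-coloured point is in a
  pair of its unit circle | last: lm_pent, lm_chord, lab_of, no_silent_of

## S5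

* `S5.Clopen` (level 1, used by 2, 4 kB): P032: clopen labels in a compact space Closed sets which are not
  joined by components of a compact Hausdorff space are separated by pairwise disjoint clopen sets. | last:
  exists_clopen_point, exists_clopen_closed, exists_clopen_family
* `S5.Mesh` (level 1, used by 2, 17 kB): P032, final argument: mod 2 chains of the simplex on the colours
  and labelled meshes `tau a b c` : the labelled triangle as a mod 2 chain (a function on sets of colours).
  `eps a b` : the labelled edge. `tet w x y z` : the boundary of the labelled tetrahedron. `prism` : two
  labelled triangles differ by the three sides of a prism and three tetrahedra. `Tot` : sum over the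
  triangles of a box of the grid `ℤ × ℤ`; `Tot_ed | last: bd_Ch, Ch_eq, sum_range_two, Ch_round
* `S5.State` (level 1, used by 4, 22 kB): P032: the state at a three-coloured point From the local functions
  `lam a x` (parities of the `abc`-triangles in the unit disc about `x`) to the mod 2 cycle `zz` at a point
  with three colours. | last: flat, flat_zz, rule_same, rule_diff
* `S5.Lam` (level 2, used by 3, 29 kB): P032, final argument: the state at one colour `K : ℂ → Set (Fin 6)`
  an upper semicontinuous palette with at most three colours on the closed unit disc about `x`, such that
  every point of the unit circle about `x` has a colour different from `a`. `lamS K a x s` : the number mod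
  2 of the triangles of type `s ∋ a` in a fine triangulation of the disc, labelled by the palettes, with
  labels different from `a` on the circle | last: lamS_agree, lamS_supp, setlem, lamS_wind
* `S5.LamK` (level 3, used by 2, 5 kB): P032: the state satisfies the interface `LamI` | last: lam3_eq,
  lam3_ne, exists_fourth, lamI_of
* `S5.No3` (level 9, used by 2, 10 kB): P032: no six-coloured maximal family with at most three colours at
  every point of a disc | last: exists_perm, Mx.lamI_Kst, Mx.no3_core, no3

## S5.H11

* `S5.H11.TabN` (level 1, used by 1, 3 kB): P032, block S5, (L-T): the finite table (numerical part)
  3-subsets of `{0,…,5}` are coded by their masks (`< 64`), a mod-2 chain is a function `B : ℕ → Bool` (its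
  values on the twenty masks `trips` matter). | last: chk_all, par_all
* `S5.H11.Mesh2` (level 2, used by 4, 15 kB): P032, block S5, (V): a locally constant mod-2 cocycle on a
  closed cover of the disc | last: pt_mem, dist_pt_radial, dist_pt_angular, mesh_even
* `S5.H11.Tab` (level 2, used by 1, 21 kB): P032, block S5, (L-T): the finite table (for chains `Finset (Fin
  6) → ZMod 2`) | last: IsCyc.add, z2mul, parity, parity'
* `S5.H11.End` (level 3, used by 2, 32 kB): P032, block S5, (V): final assembly The labels of the components
  of `F_i ∩ F_j` and the finite table give a locally constant mod-2 cocycle on the closed unit disc about a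
  three-coloured point whose ring sum is the parity of the winding: contradiction. | last: Phi_01, Phi_02,
  Phi_12, cech_end
* `S5.H11.CarrH` (level 16, used by 1, 11 kB): P032: harmless four-coloured points cannot be the only points
  with at least four colours `Reg.coreH` : the frame `Reg` with a point of `Z` whose virtual face is `{3, 4,
  5}` is contradictory. `Irr.carr_of` : in every disc of radius 11 there is a point with at least four
  colours which is not harmless, or two points with at least four colours at distance one. | last: ring_R1,
  _root_.Vale.Agent.P032.Carr.Reg.coreH, Irr.carr_of, Irr.carr_six
* `S5.H11.CarrU` (level 18, used by 1, 10 kB): P032: harmless four-coloured points with unit pairs, the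
  final argument The glue for the case in which harmless points at distance one are allowed. `InU` collects
  the inputs at the bases (lens, rings). | last: RegS.coreU, MinF.perm, Irr.carrU_of, Irr.hC_of
* `S5.H11.Core4` (level 18, used by 1, 2 kB): P032: at most four colours everywhere, unit pairs allowed
  `Irr.exists_dpair` : a two-pair point (`D`-point) with a four coloured point at distance one, from the
  theorems on `D`-stars (`hS`) and on carriers (`hC`). | last: Irr.good_three, Irr.no_D_three,
  Irr.exists_dpair
* `S5.H11.CarrV` (level 19, used by 1, 2 kB): P032: harmless four-coloured points with unit pairs, the lens
  input discharged | last: RegS.inU_of, Irr.hC_ring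
* `S5.H11.RingB` (level 20, used by 1, 5 kB): P032: the base of the ring when unit pairs of harmless points
  are allowed Facts at a base `(x, S)` of the frame `RegS`, for the glue of the odd ring. | last: RegS.ctr,
  RegS.f_eq, RegS.bs, RegS.hup
* `S5.H11.XC` (level 21, used by 1, 4 kB): P032, row XC: the carrier theorem with unit pairs of harmless
  points `RegS.ringIn`: the odd ring at the bases, from the hexagon count (helper180), the frozen states
  (helper175) and the dictionary (helper57). `Irr.hC`: the block `hC` of `core7_of`. | last: RegS.rbh,
  RegS.ringIn, Irr.carrU, Irr.hC
* `S5.H11.TopD` (level 22, used by 4, 1 kB): P032: the core theorem without hypotheses on carriers | last: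
  Irr.exists_dpair', Irr.coreD_four'
* `S5.H11.DiscD` (level 23, used by 1, 2 kB): P032: every disc of radius 20 contains a point of at least
  five colours or a two-pair point No assumption on unit pairs. | last: Irr.disc_D, Irr.exists_D_disc

## S5.H12

* `S5.H12.En` (level 6, used by 4, 11 kB): P032: ends of the circle of a centre `En T X z v`: `v` is an
  `X`-end of `S(z)`, `|T z| = 4`: `T v = X`, `T z ∩ X` is a pair, and the circle `S(z)` carries exactly this
  pair on an open arc starting at `v`. | last: exists_third, en_unique, en_three, en_four
* `S5.H12.Rh` (level 7, used by 1, 2 kB): P032: the rhombus for ends, palette part | last: En.swap_compl,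
  en_rh
* `S5.H12.Inn` (level 8, used by 1, 6 kB): P032: inner colours at the points of the circle about a two-pair
  centre | last: Irr.sd_sign, Irr.sd_iff, Irr.cr_ne_zero, Irr.sd_iff_acc
* `S5.H12.Fld` (level 9, used by 4, 8 kB): P032: the ends of the two-pair centres, definitions and first
  facts `EE T z v`: `v` is an end of an exact arc of `S(z)`, and `S(z)` has an exact arc with the two other
  colours of `T z`. `ore T z v` the orientation, `inn U T z v` the inner colour. | last: inn_iff, inn_mem,
  inn_eq_iff, lp2
* `S5.H12.Fld2` (level 10, used by 3, 8 kB): P032: rhombus, first line lemma, coverage and automatic ends
  for `EE` | last: rh', cov, anti, lp1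
* `S5.H12.NetE` (level 11, used by 2, 7 kB): P032: the network of the two-pair centres in a family without
  adjacent four-coloured points | last: EE.arc_compl', EE.cln, EE.pairs, net_EE
* `S5.H12.LP3E` (level 12, used by 1, 2 kB): P032: the third edge at a vertex, over `EE` | last:
  EE.unique_pair, EE.lp3, EE.lemX
* `S5.H12.Inst0` (level 13, used by 1, 2 kB): P032: no complementary ends in a clean family, with the arc
  relation as a parameter | last: dnet_EE
* `S5.H12.Inst` (level 14, used by 1, 1 kB): P032: no complementary ends on the circles of the two-pair
  centres of a clean family | last: arcFields, EE.no_compl
* `S5.H12.NoD` (level 15, used by 1, 2 kB): P032: no two-pair centres in a clean family | last: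
  DPt.false_of_clean, Irr.no_D

## S5.H122

* `S5.H122.Raw5` (level 10, used by 3, 23 kB): P032: the word of a clean five coloured centre (irredundant
  frame) `Cn U T z e`: `T z = {e 0, …, e 4}`, `e 5` is the missing colour, all points of `S(z)` have at most
  three colours, and the points of `S(z)` with two colours, both in `T z`, have a palette `{e j, e (j +
  1)}`. `X5 T z e l` is the closure of the set of angles where `T` is locally constant and has the letter
  `l`. All rules of the words of `Words5`. | last: swap3_key, swap3, anti_open, anti3
* `S5.H122.OneOneD` (level 12, used by 2, 10 kB): P032: the rule (1,1) of a five coloured centre, clean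
  circles of two-pair points only The theorem `one_one` of `H450.OneOne` with the hypothesis on unit pairs
  replaced by: the unit circle of a point with two complementary exact pairs (`DPt`) is clean. | last:
  dpt_of_light, one_oneD
* `S5.H122.Cnt5` (level 13, used by 1, 8 kB): P032: the counting rule of the word of a clean five coloured
  centre | last: Cn.ex_t, Cn.count, pt_eq_iff, Cn.cnt
* `S5.H122.Inst5` (level 14, used by 1, 3 kB): P032: the word of a clean five coloured centre as a `Word5` |
  last: oppN_iff, tgN_iff, Cn.word5, EL_eq

## S5.H138

* `S5.H138.PairV` (level 17, used by 2, 14 kB): P032: unit pairs, strong form of the two-pair points `DV U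
  x` : near `x` four of the sets suffice, and no three of these four, an arc of the unit circle about `x`
  consists of common boundary points of two of them near which these two suffice, and another arc consists
  of common boundary points of the other two. | last: hDV, hcDV, exists_pairV_of, exists_discV_of
* `S5.H138.DiscUV` (level 18, used by 1, 6 kB): P032: disc form with unit pairs, strong form of the two-pair
  points `exists_discUV_of` : every closed disc of radius `R` contains a point near which no `m` of the sets
  suffice, or a point near which no four of them suffice with a point at distance one near which no three
  suffice, or a point near which no three suffice and which is a limit of two-pair points. | last: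
  exists_T_discUV, exists_discUV_of

## S5.H172

* `S5.H172.Rhombus` (level 5, used by 7, 22 kB): P032: rhombus and weight lemmas for irredundant palettes
  `Irr.strip` : strip lemma; `Irr.rh_arc` : arcs of a rhombus centre accumulate at the vertex;
  `Irr.rh_unique` : one centre per edge; `Irr.rh_five` : [5]; `Irr.rhombus` : clean rhombus. | last:
  pair_of, rh_side, rh_geo, rhombus
* `S5.H172.LP3` (level 7, used by 1, 13 kB): P032: the third edge at a vertex (LP3) `v` has three colours
  and is an end of exact arcs of the circles about three centres `z`, `w`, `c` (with three different pairs).
  The three edges of `v` are in no open half plane: `o c (c - v) + a o z (z - v) + b o w (w - v) = 0` with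
  `a, b ≥ 0`. | last: OEnd.pair172, OEnd.missing172, edge_algebra172, Irr.lp3
* `S5.H172.Compl6` (level 12, used by 1, 8 kB): P032: complementary three coloured points on the circle of a
  six coloured point `N : Nd T X z v q` (`T v = X`, `T q = Xᶜ`, `|X| = 3`, `v + q ≠ 2 z`). If a colour of
  `X` is carried by `S(z)` near `v` and a colour of `Xᶜ` near `q`, then `w = v + q - z` is a two-pair point
  (`Nd.dpt_of_stay`). If moreover all colours occur at `z`, then `v` is the only `X`-point and `q` the only
  `Xᶜ`-point of `S(w)`, which is impossible i | last: iso_q, uniq_v, compl6, compl6_noD

## S5.H175

* `S5.H175.FZT` (level 12, used by 1, 27 kB): P032: frozen circles, irredundant palettes, part 1 Harmless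
  points with four colours, the half plane lemmas, the final contradiction for a three-coloured centre. |
  last: finA, finB, halfA, halfB
* `S5.H175.FrozenT` (level 13, used by 1, 19 kB): P032: frozen circles, irredundant palettes, part 2
  `not_Frz_real` : the circle about a three-coloured point, harmless four-coloured points allowed on the
  circle (no two of them at distance one). `not_Frz_virt` : the circle about a harmless four-coloured point,
  for a virtual face. | last: Hxs.ex, FD.arc, FD.caseA, FD.caseB
* `S5.H175.FrozenM` (level 14, used by 2, 29 kB): P032: frozen circles, irredundant palettes, part 3: main
  theorems | last: yy_six, frz_sigma, not_Frz_real, not_Frz_virt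
* `S5.H175.FrozenHH` (level 15, used by 1, 54 kB): P032: frozen circles with unit pairs of harmless points,
  final step for a three-coloured centre | last: Fin6.false, yy_mod, fin_all, not_Frz_realHH
* `S5.H175.FrozenVV` (level 16, used by 1, 38 kB): P032: frozen circles at a virtual face with harmless
  points on the circle | last: nab_of, virt_local, not_Frz_virtHH, real_local
* `S5.H175.HexD` (level 17, used by 1, 12 kB): P032: the hexagon of harmless points which carry all three
  colours off the face | last: near_left, arcA_genR, arcB_genR, near_right
* `S5.H175.NotFrozen` (level 18, used by 1, 25 kB): P032: the ring about a base is not frozen, arbitrary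
  unit pairs of harmless points | last: dist_pt_one, ex_pt, ex_pair, not_frozenZ

## S5.H180

* `S5.H180.HexZ` (level 5, used by 4, 27 kB): P032: the hexagon count with full times As `H180/Wind.lean`,
  but at some times `Q t` may be everything; at such a time the labels form a tree `r - 1, r, r + 1` with
  the apex `r = r t`, and the two labels different from the apex do not occur together near `t` outside the
  full times. | last: f2_comm, f2_self, f2_coc, HexZ.ring_odd
* `S5.H180.Odd` (level 7, used by 2, 9 kB): P032, block (L-6): the odd ring At a point `v` of `XX U` with
  three colours, every fine polar ring on the unit circle about `v`, labelled by colours of `K` outside `Pal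
  U v`, has an odd number of steps between two given colours `c`, `d` outside `Pal U v`. | last: f2_eps,
  odd_of_not_frz', odd_of_not_frz, odd_ring
* `S5.H180.Face` (level 8, used by 2, 8 kB): P032, carriers: bases `Face T v F`: `F` is a set of three
  colours of `T v` which contains no palette of the unit circle about `v`. At a point with three colours `F
  = T v` is a face. The first lemmas of the case of at most three colours hold at faces, and with at most
  three colours on the circle the ring is odd. | last: Q_ne_compl, R60, odd', odd
* `S5.H180.FzT` (level 9, used by 1, 26 kB): P032, carriers: frozen circles about a base The lemmas of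
  `H783/FZ`, `H783/Frozen` for the irredundant palettes `T`: colours of palettes of `T` at the points,
  partners with respect to `Pal U`. | last: fzA, fzB, finA, finB
* `S5.H180.FzN` (level 10, used by 1, 20 kB): P032, carriers: no frozen circle about a real three-point or a
  virtual face `v` has three colours, or four colours `insert b F` with the only pair `{a, b}`, `a ∈ F`; the
  points of the circle have at most three colours. | last: frz_data, not_frz_real, dist_polar,
  not_frz_virtual
* `S5.H180.Base` (level 11, used by 1, 6 kB): P032, carriers: the odd ring at a base with at most three
  colours on the circle | last: CBase.odd', CBase.odd, CBase.ring_pt, CBase.ring_cech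
* `S5.H180.RulesH` (level 16, used by 3, 26 kB): P032, block CARR: the sixty degree rules at a base with
  unit pairs of harmless points `x` is the base, `S` its face; `z`, `p` on the circle about `x` with `dist z
  p = 1` are harmless with the broken pairs `A`, `B`. | last: Bs.virt, Bs.ruleZZ, Bs.nbrZZ, Bs.ccZZ
* `S5.H180.BaseH` (level 17, used by 1, 25 kB): P032, block CARR: bases with unit pairs of harmless points,
  and their hexagon | last: eq_singleton_of, RBH.neQ, RBH.nbad_side, RBH.hex

## S5.H205

* `S5.H205.Contact` (level 14, used by 4, 17 kB): P032: contacts at harmless points, and the distance-two
  rule with unit pairs * `Harm.contact` : at a harmless point `x` with pair `B` in the minimal frame every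
  pair `{p, r}`, `p ∈ B`, `r ∈ T x \ B`, is the palette of points `w → x`. * `Irr.rh_arc'` : 678's rhombus
  lemma, the second point only carries a face. * `Fc.pair_sub` : `s` a face at `u`, `sᶜ` a face at `u'`, `q`
  a harmless common point of the two circles: the | last: Harm.contact, Irr.rh_arc', exists_cross,
  Fc.pair_sub
* `S5.H205.CompU` (level 15, used by 3, 3 kB): P032, carriers: the distance-two rule when harmless points
  may be at distance one `comp_U` : 678's `comp_T` with 223's `Up` (no `D`-star, no half pinched pair) and
  the minimal frame instead of the absence of unit pairs in `Z`. | last: Hml.harmU, comp_U

## S5.H220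

* `S5.H220.TwoHex` (level 11, used by 1, 10 kB): P032: times of two hexagons near a frozen event `X` :
  closed letter sets on the line, at a dense set of times exactly one letter. If at `u` the six palettes are
  `{x k, y k}` and only the hexagons `x`, `y` are legal inside them, then near `u` the times of the hexagon
  `x` and the times of the hexagon `y` are two open sets with dense union, and both accumulate at `u`. |
  last: pos_add, leg_of, X5_reg, two_hex5
* `S5.H220.NoFr` (level 12, used by 1, 9 kB): P032: the field `nofr` of the word of a clean five coloured
  centre `Fz i` : the geometric statement about the frozen event `i` (two open sets of times). From it the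
  field `nofr` of `Word5` and of `Pent` for the letters `X5`. | last: mapL_inj, mirror, nofr_false,
  nofr_word5
* `S5.H220.FrozIA` (level 13, used by 3, 14 kB): P032: the frozen events (I) and (A) of a clean five
  coloured centre do not exist | last: disj_AB, froz_I, sin_third_pos, froz_A
* `S5.H220.FrozII` (level 14, used by 1, 20 kB): P032: the frozen event (II) of a clean five coloured centre
  does not exist | last: cell_out, cell_in, cell_free, froz_II
* `S5.H220.NoFrozen` (level 15, used by 1, 1 kB): P032: a clean five coloured centre has no frozen events |
  last: froz_all, no_frozen

## S5.H225

* `S5.H225.Germ` (level 8, used by 1, 15 kB): P032: the germ of a unit circle at a two-pair centre `v` a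
  point with `DPt T v a b c d`, `z` any point at distance 1 from `v`. On each of the two half branches of
  `S(z)` at `v` exactly one colour of each pair is allowed, opposite colours on the two half branches
  (`Irr.germ_pair`, `Irr.germ_branch`). No tameness is assumed. | last: Irr.germ_beta, Irr.germ_beta_same,
  Irr.germ_flip, Irr.germ_cross

## S5.H229

* `S5.H229.K5` (level 24, used by 1, 5 kB): P032: no clean five coloured point | last: cn_pent, lets,
  no_five_gen, no_five

## S5.H25

* `S5.H25.Flip` (level 15, used by 1, 12 kB): P032: D-star pairs, flips and the triangle `DS T z y A B` :
  two harmless points `z`, `y` at distance one with `T z \ A = T y \ B` and `B` disjoint from `T z`.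
  `DS.meets` : the arcs of such a pair come to one of the two directions at angle `π / 3`, `2 π / 3` to `y -
  z`. | last: other, fl_rot, fl_mem, tri
* `S5.H25.Meet` (level 16, used by 1, 14 kB): P032: D-star pairs: the arcs come to a direction at angle `π /
  3` or `2 π / 3` | last: fl2, tip, next_rot, meets
* `S5.H25.MeetPsi` (level 17, used by 2, 5 kB): P032: D-star pairs: the directions of the arcs as angles |
  last: cis_sixth25, sqrt3_sq25, om_third25, meets_psi
* `S5.H25.Corner` (level 18, used by 2, 4 kB): P032: D-star pairs: the corner lemma in the frame without
  D-points | last: side25, harm4, corner25, meets_DO

## S5.H286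

* `S5.H286.Ctx` (level 12, used by 1, 7 kB): P032: harmless four-coloured points, the context of the final
  argument | last: le_three, le_four, rg, irr_av
* `S5.H286.Near` (level 12, used by 2, 9 kB): P032: two bases of a connected subset of `T_i ∩ T_j` | last:
  Irr.near_aux, third_of, Irr.near_one, Irr.near
* `S5.H286.SideC` (level 12, used by 1, 14 kB): P032: half branches of a circle at two harmless points at
  distance one `Irr.half_a` : `x`, `z`, `p` equilateral, `T z ⊆ {a, b, c, g}`, `g ∈ T x`. If the colour `c`
  lives on one half branch of the circle about `x` at `p`, then `a` lives on the same half branch at `z`. |
  last: side_lt, side_gt, side_geo, Irr.half_a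
* `S5.H286.NearZ` (level 13, used by 1, 9 kB): P032: two bases of a connected subset of `T_i ∩ T_j`, unit
  pairs of harmless points allowed | last: far_of_mid, arc_avoid, Irr.near_Z, Irr.near'

## S5.H287

* `S5.H287.DPtC` (level 6, used by 1, 1 kB): P032: two exact arcs with complementary pairs are a `DPt`
  Conversion between the point form of a `D`-point used at the top and the structure `DPt`. | last:
  exists_DPt
* `S5.H287.HMTop` (level 13, used by 3, 8 kB): P032: assembly of the exclusions at a four-coloured point
  Frame `Irr U T`. A point `z` with `|T z| = 4` is harmless (`Harm T z A`) as soon as * some point of the
  unit circle about `z` has its palette in `T z` (`M z ≠ ∅`), * no two pairs of `M z` have exactly one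
  common colour (matching lemma with `min`), * no two pairs of `M z` are disjoint (there is no `D`-point). |
  last: two_pairs, Irr.harm_of, Irr.suf_of_single, Irr.match_of
* `S5.H287.Top` (level 14, used by 1, 5 kB): P032: top of the order four theorem (global form), with the
  blocks as hypotheses Frame `Irr U T` with the Suf form of `min`. * `Irr.harm_all` : no palettes with more
  than four colours, no two four-coloured points at distance one, no `D`-points: all four-coloured points
  are harmless. * `Irr.no4_of`, `Irr.clean_of` : the contradictions from the carrier theorem (`hcarr`). |
  last: Irr.harm_one, Irr.harm_all, Irr.no4_of, Irr.clean_of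

## S5.H306

* `S5.H306.Defs` (level 15, used by 6, 3 kB): P032: D-star pairs, definitions `Fr U T` : the frame in which
  there is no `D`-point: at most four colours, every four-coloured point is harmless. `DP T z y A B` : a
  `D`-star pair. `Out`, `Inn` : a colour is near `v` only outside / inside the unit disc about `z`. | last:
  symm, disj, of
* `S5.H306.Ends` (level 16, used by 3, 15 kB): P032: the ends of the arcs of a D-star pair `DP.dirEq306` :
  the same directions at `z` and `y`. `DP.ends306` : an end `v = z + ξ`, in pointwise form (the hypotheses
  `at most four colours` and `harmless` only at `z + ξ`, `y + ξ`). | last: dirEq306, ne_A306, end_aux306,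
  ends306
* `S5.H306.Repro` (level 16, used by 3, 11 kB): P032: the end of a D-star pair is again a D-star pair
  `DP.repro` : `v = z + ξ`, `w = y + ξ` the two ends of the arcs of a D-star pair `z, y` in the same
  direction, with their palettes and broken pairs as given by the lemma on ends: `v, w` is a D-star pair. |
  last: cross_near306, repro_aux, repro
* `S5.H306.ReproL` (level 17, used by 1, 12 kB): P032: the end of a D-star pair is again a D-star pair,
  local form As `Repro.lean`, with the hypothesis `harmless` only near the two ends. | last: cross_near306L,
  repro_auxL, reproL
* `S5.H306.Disc` (level 18, used by 1, 17 kB): P032: no D-star pair in a disc without D-points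
  `Irr.noStar_disc` : if every point with at least four colours of a disc is harmless, then no two harmless
  points of the smaller disc (radius less eight) at distance one have the same unbroken pair. | last: Lc.le,
  end_all306, false_loc, Irr.noStar_disc
* `S5.H306.DiscCore` (level 24, used by 1, 6 kB): P032: two-pair points in discs, with points of five and
  six colours `Irr.disc_core` : if every point of a disc of radius `22` has at most five colours and the
  points with five colours have clean circles, then the disc contains a two-pair point, provided that clean
  points with five colours have a two-pair point within distance two. `Irr.disc_core6` : the same without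
  the bound on the number of colours. | last: Irr.disc_core, Irr.disc_core6, disc5, disc6
* `S5.H306.Disc6` (level 26, used by 1, 11 kB): P032: every disc, no order bound `disc6a` : in the plane,
  every closed disc of radius `26` contains a point near which no five of the sets suffice and which is
  silent for one index (`Sil`), or a point near which no four suffice with a point at distance one near
  which no three suffice, or a point near which no three suffice and which is a limit of two-pair points;
  from the local theorems on clean points of five and si | last: noSixA_of_loc, exists_T_discUVQ, disc6a

## S5.H315

* `S5.H315.Ex3` (level 4, used by 1, 13 kB): P032: existence of a point with three colours A closed cover of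
  the plane by finitely many sets whose connected subsets have diameter at most one has a point in three of
  the sets, in every disc of radius three. | last: dist_Pc, exists_three_of, Mx.diam_le, Mx.exists_three
* `S5.H315.Outer` (level 4, used by 1, 11 kB): P032: the outer lemma and the components of `F_i ∩ F_j` |
  last: Mx.outer, Mx.conn_lt, Mx.comp_lt, Mx.conn_lt_Ks

## S5.H349

* `S5.H349.Bridge` (level 9, used by 4, 21 kB): P032: the word facts L1, L2, L3 for the ends of the circle
  of a four coloured centre `Cln T z v`: `v` is a clean end of `S(z)`: on one side of `v` the circle carries
  exactly the pair `T z ∩ T v`, on the other side it does not carry this pair. | last: L2_of, tri_id, L3_of,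
  L1e_of
* `S5.H349.EnL` (level 10, used by 1, 8 kB): P032: L2 and L3 for the ends of a two-pair centre, final forms
  Hypotheses: `Irr U T`, minimality `hmin`, `|T| ≤ 4`, and `|T y| ≤ 3` on the circle `S(z)`. | last:
  en_auto, en_L2, en_L3, en_L3'

## S5.H358

* `S5.H358.Ok` (level 16, used by 1, 17 kB): P032: the circle of a two-pair centre without special ends `OkC
  U T z`: the letters of `S(z)` form a tie word (`RawT`), the points of the closures of the exact arcs have
  at most three colours. This is all that is used of the bound `|T y| ≤ 3` on `S(z)`. | last: marks_ok',
  L2_ok, L3_ok, L1e_ok
* `S5.H358.NoSpec` (level 17, used by 4, 22 kB): P032: no two-pair centre, the circles may carry harmless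
  four coloured points `no_D_of_ok`: if the circle of every two-pair centre is a tie word without special
  ends (`OkC`), there is no two-pair centre. `no_D_of_22`: it is enough that every two-pair centre is `OkC`
  or has two clean ends of each of two complementary types, when the latter is impossible (`WebF.no22`).
  `okC_of_adm`: a circle with the points `Adm` (help | last: hx_congr, word_of_adm, good_of_adm, no_D_of_adm

## S5.H360

* `S5.H360.Match` (level 5, used by 4, 14 kB): P032: the broken pairs of a four-coloured point are disjoint
  `Irr.sole` : if near `z` the colour `a` meets no colour except `d` (points with `d` allowed), and some arc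
  of the unit circle about `z` carries `a`, then near `z` every point with palette `{a}` lies in `U d`.
  `Irr.matching` : `T z = {a, b, c, d}` and `{a, b}`, `{a, c}` both palettes of points of the unit circle
  about `z`: then `{b, c, d}` is sufficient near | last: circle_join, sole_aux, sole, matching
* `S5.H360.Degree` (level 6, used by 7, 9 kB): P032: every colour of a point with at least four colours is
  unbroken with at least two others Frame: `Irr U T` together with minimality `hmin` : no proper subset of
  `T z` is sufficient near `z` when `4 ≤ |T z|`. A pair `{a, j}` is broken at `z` if `T q = {a, j}` for some
  `q` with `dist q z = 1`. | last: pair_of_sub, degree, two_contacts, pairs_disjoint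
* `S5.H360.Solid` (level 7, used by 1, 22 kB): P032: solid lines `Irr.solid` : if the letters at two
  antipodal points of the unit circle about `z` and the pair `{p, p'}` exhaust `T z`, and `{p, p'}` is the
  palette of some point of the circle, then both nappes perpendicular to the two points are solid, of colour
  `p` or `p'`. `Irr.solid_sign` : all solid rays of colour `p` are on the same side of the line
  perpendicular to `y - z`, for every `y` on the circle with ` | last: solid_in, solid_sign, tau_line,
  tau_sign

## S5.H394

* `S5.H394.Arc` (level 5, used by 5, 8 kB): P032: maximal exact arcs of a unit circle `z` with `P ⊆ T z`,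
  `P` two colours, `T = P` on an open arc of `S(z)` starting at an angle `θ`: the arc goes on up to a length
  at most `π / 3`, and ends at a point with a third colour. | last: pair_open, exists_arc, third_notMem,
  exists_arc_end
* `S5.H394.Ends` (level 6, used by 9, 12 kB): P032: ends of exact arcs `OEnd T z v o`: `v` has three colours
  and is an end of an exact arc of `S(z)`, `|T z| = 4`, the arc being `z + (v - z) cis (-(o t))`, `t > 0`
  small. `OEnd.far`: the other end; `OEnd.unique`: the sign `o` is unique when `S(z)` has a point with the
  complementary palette. | last: far, two_sides, acc, unique

## S5.H410

* `S5.H410.MinA` (level 1, used by 1, 26 kB): Minimal closed covers `exists_lab` : locally constant labels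
  on a locally closed totally disconnected set of the plane. `exists_pure` : a minimal closed subcover of a
  finite closed cover. `exists_min_cover` : a closed cover whose palettes with more than three colours are
  minimal among the locally sufficient palettes. | last: min_step', exists_min_cover', exists_min_cover,
  exists_order
* `S5.H410.Heavy` (level 7, used by 1, 37 kB): P032: a six coloured centre without light neighbours `z` with
  all six colours, `v`, `q` on its unit circle with complementary palettes of three colours, not opposite.
  Then some centre `v' + q' - z` (`v'`, `q'` with the palettes of `v`, `q`) misses a colour. No minimality,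
  no clean circles. | last: ends, five_pts, count, heavy_false
* `S5.H410.Min` (level 12, used by 1, 7 kB): P032: irredundant covers with minimal palettes `exists_irr_min`
  : a maximal family of six sets has an irredundant closed cover `Irr U T` in which every palette with at
  least four colours is a minimal sufficient palette: if `s ⊆ T z` and near `z` every point off `XX U` is in
  one of the `U i`, `i ∈ s`, and every point of `XX U` in one of their closures, then `s = T z`.
  `exists_irr_min_le` : moreover, if near every poin | last: exists_irr_min_le, exists_irr_min_of,
  suff_of_union, exists_irr_min
* `S5.H410.RStrong` (level 13, used by 1, 6 kB): P032: the complement rule at a six coloured centre `z` with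
  all six colours, `v`, `q` on its unit circle with complementary palettes of three colours: then `v`, `q`
  are opposite, if the two-pair points have clean circles and no point has five colours. No assumption on
  the circle of `z`. | last: Nd_dist, dpt_of_light', r_strong_loc, r_strong

## S5.H450

* `S5.H450.Node` (level 6, used by 2, 7 kB): P032: common neighbours of two complementary three coloured
  points `Nd T X c v q`: `T v = X`, `T q = Xᶜ`, `|X| = 3`, `c` a common neighbour of `v` and `q`, not their
  midpoint. `c` is light at `v` if a colour `r ∈ X` is missing at `c`, and heavy if `X ⊆ T c`. No bound on
  the number of colours of `c`. | last: unique, stay, heavy_line, four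
* `S5.H450.Tangent` (level 6, used by 1, 11 kB): P032: two unit discs touching at a point whose circles
  carry one colour `Mx.tangent` : the unit circles about `z` and `p = 2 q - z` carry the colour `d` near
  `q`, and `d` is a colour of `p`. Then a transversal unit circle through `q` does not carry `d` on its part
  inside the disc about `p`. | last: side_real, side_aux, Mx.tangent
* `S5.H450.Branch` (level 10, used by 2, 12 kB): P032: the two half branches of a circle at a three coloured
  point `Nd.branch` : if `v` is the only point with palette `X` on `S(c)` near `v`, both half branches of
  `S(c)` at `v` are pure: exactly `X \ {r}`, or `r` everywhere (`c` light, `r` missing). `Nd.cln` : then `v`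
  is a clean end. `Nd.no_tangent` : and there are no two heavy centres on a line through `v`. | last:
  branch, not_both, cln, no_tangent
* `S5.H450.OneOne` (level 11, used by 3, 20 kB): P032: the rule (1,1) of a five coloured centre `z` with
  five colours, `Xᶜ ⊆ T z`, `d ∈ Xᶜ`, the pair `Xᶜ \ {d}` not exact on `S(z)`. If `S(z)` has an `X`-end and
  a point with palette `Xᶜ`, then it has exactly one of each. | last: L3_node, one_one_gen, one_one_of,
  one_one
* `S5.H450.Sign` (level 11, used by 2, 12 kB): P032: sign lemma for curves, half branches, antipodal arcs
  `Mx.sign` : a colour `x` on two curves from `z`, one inside and one outside the unit circle about `y`, is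
  not a colour of `y`. `half_branch` : exact arcs at `u` on one side give such a curve. `gap_arcs` :
  antipodal exact arcs leave at least two colours. | last: hb_in, hb_out, two_branches, gap_arcs
* `S5.H450.Cnt5` (level 17, used by 1, 10 kB): P032: the contacts of a clean five coloured centre `cnt5`: a
  contact of the letter `E_j` with the missing colour and a contact of `E_(j+2)` with `E_(j+3)` on one
  circle are the only contacts of their types. `exists_cn`: a five coloured point of an irredundant frame
  without unit pairs is a clean centre `Cn` (pentagon of 555). | last: cnt5_cases_gen, cnt5_cases,
  cnt5_casesD, exists_cn
* `S5.H450.K5a` (level 18, used by 1, 3 kB): P032: no clean five coloured point, from the word lemma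
  `word5_of`: a five coloured point of an irredundant frame whose circle is clean gives a word with all
  rules of `Word5`; the rule on frozen events is used through `Fz (fx 1) (fy 1)` only. | last: cn_word5,
  no_five_word, no_five_hu, no_five_hD

## S5.H46

* `S5.H46.Win` (level 10, used by 1, 8 kB): P032: static signs in the window after an event `Ray T z u k τ
  x`: the colour `x` is carried by the half branch `τ` of `S(y)` at `z`, `y` the point of `S(z)` at the
  angle `u + k` (units of 60 degrees). `tow k1 τ k` says that the ray is towards all positions `u + s + k`,
  `0 < s < 1`. `Irr.win_eq`: two rays of one colour `x` have the same sign at a position with the colour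
  `x`. `Irr.win_ne`: rays of two colours `x`, `q | last: tow_sg, win_eq, win_ne, ray_of
* `S5.H46.G33` (level 11, used by 1, 11 kB): P032: two antipodal triples with one common colour at a point
  with six colours `g33` : if the palettes at two antipodal points of `S(z)` are triples with exactly one
  common colour `s`, then near these points the two antipodal letters `triple \ {s}` do not occur together.
  No assumption on the order or on the isolation of the changes is made. | last: tendsto_scale, tendsto_pt,
  isOpen_two, g33

## S5.H483

* `S5.H483.EssR` (level 1, used by 2, 10 kB): Shrinking a finite closed cover near a compact totally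
  disconnected set `exists_reduced` : if `Z` is compact and totally disconnected and for every `z ∈ Z` the
  sets `F i`, `i ∈ g z`, cover a neighbourhood of `z`, there are closed sets `F' i ⊆ F i` with the same
  union such that the palette of `F'` at every point of `Z` is contained in some `g z`. | last: ess_lab,
  ess_td_union, ess_td_biUnion, exists_reduced
* `S5.H483.EssA` (level 3, used by 1, 9 kB): P032: the points with at least four colours form a totally
  disconnected set `Mx.td_four` : for every four colours the set of points having all of them is totally
  disconnected. | last: ess_cis_im, ess_chord, ess_half, Mx.td_four
* `S5.H483.Lens` (level 3, used by 3, 13 kB): P032, block (L-2): distance-two rule for complementary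
  palettes and the lens lemma `Mx.five` gives: complementary 3-palettes at a distance `< 2` force points
  with at least four colours. The lens lemma deals with the borderline distance `2`. | last: Mx.lens0,
  l2_eq_antipode, Mx.lens, Mx.lens_ball
* `S5.H483.Comp` (level 4, used by 1, 9 kB): P032, block (L-2) for reduced palettes Everything is stated for
  an abstract reduced palette `K` (`Red U K`: equal to `Pal` on `XX`, contained in the free colours off
  `XX`), so it applies to every version of the reduced palette. * `Mx.comp_le` : points with complementary
  reduced palettes (at most three colours each) have distance at least two, if no point of `XX` on the unit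
  circle about `u` has more than three colour | last: Mx.comp_lt2, Mx.lens_half, Mx.lens_or, Mx.lens_or'
* `S5.H483.Irr` (level 4, used by 10, 15 kB): P032: irredundant palettes For a maximal family `U` there is a
  closed cover `{x | i ∈ T x}` with `T x ⊆ Kst U x` which is minimal: near every point of `{x | i ∈ T x}`
  there are points with `T w = {i}`. Structure `Irr U T`. | last: arcB, lemmaB, five, pure_closure
* `S5.H483.GeoK` (level 5, used by 1, 4 kB): P032: the geometric input `GeoI` of the state calculus for the
  closed cover `Ks` | last: Mx.geoI_of, Mx.geoI_Kst, Mx.geoI_Ks, Mx.geoI_ball
* `S5.H483.Ess` (level 10, used by 1, 4 kB): P032: essential points `Mx.exists_ess` : every disc of radius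
  six contains an essential point of the family, i.e. a point of `XX U` no neighbourhood of which is covered
  by three of the closures `closure (U i)`. | last: Mx.td_ball, Mx.exists_ess', Mx.exists_ess
* `S5.H483.IrrZ` (level 11, used by 11, 4 kB): P032: six colours, irredundant palettes: some point has at
  least four colours `Irr.exists_four` : every disc of radius six contains a point of `XX U` with `4 ≤ |T
  z|`. `Irr.td` : these points form a closed totally disconnected set. | last: three_off, isClosed_le_card,
  td, exists_four
* `S5.H483.NE` (level 12, used by 1, 6 kB): P032: `M z ≠ ∅` for a clean essential point Frame `Irr U T`, six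
  colours, `4 ≤ |T z|`, `|T y| ≤ 3` for every `y ∈ S(z)`: then some `y ∈ S(z)` has `T y ⊆ T z` (statement
  [8] in the clean case). | last: Irr.exists_sub_of_clean

## S5.H496

* `S5.H496.Start` (level 11, used by 2, 10 kB): P032: a two-pair centre has two complementary ends
  `DPt.start`: `T z = {a, b, c, d}` with exact `ab`- and `cd`-arcs on `S(z)`; then `S(z)` has ends `v`, `q`
  of exact arcs with `T q` the complement of `T v`. | last: DPt.start', DPt.start, DPt.start_of',
  DPt.start_of

## S5.H529

* `S5.H529.Ray` (level 9, used by 1, 16 kB): P032: curves of one colour leaving a point, and the branches of
  `S(y)` at an event `Irr.curve_sign` : an `x`-curve from `z` towards `p` and an `x`-curve from `z` away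
  from `p` exclude `x ∈ T p`, for `p` on the unit circle about `z`. `Irr.curve_pair` : `T p ⊆ {x, q}`
  excludes an `x`-curve and a `q`-curve on the same side. `Irr.ray_mem`, `Irr.branch_mem` : the half branch
  of `S(y)` at `z`, `T y` a triple, has the colou | last: hb_ev', branch_opp, gap3, gap33

## S5.H555

* `S5.H555.Graph` (level 7, used by 1, 7 kB): Graphs on five vertices with all degrees at most two Such a
  graph is contained in a pentagon, or it contains a four cycle, or it is contained in a triangle plus an
  edge. | last: chk3_true, graph5
* `S5.H555.Level` (level 8, used by 1, 15 kB): P032: a five-coloured point whose broken pairs lie in a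
  triangle and an edge `T z = A ∪ D`, `|A| = 3`, `|D| = 2`, all palettes of the unit circle about `z` have
  at most three colours and all pairs of colours of `z` among them lie in `A` or in `D`: impossible. Level
  of a palette: `0` if it has two colours of `A`, `1` if it has the sixth colour, `2` if it contains `D`. |
  last: level555, closed_mono555, no_level
* `S5.H555.Cross` (level 12, used by 1, 9 kB): P032: two colours of an exact pair are not opposite across
  the wedge `Irr.cross`: if `T q = {a, b}`, `dist q z = 1`, then for `w`, `w'` near `z` with `a ∈ T w`, `b ∈
  T w'` the vector `w' - w` is not nearly orthogonal to `q - z` (otherwise the unit circles about `w` and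
  `w'` meet near `q`). | last: bound555, common_near555, cross
* `S5.H555.TypeArc` (level 13, used by 2, 9 kB): P032: a cut colour: the two types of arcs `T z = {x} ∪ A ∪
  B`, all pairs `{a, b}`, `a ∈ A`, `b ∈ B`, broken at `z`, `|A| ≤ 2`. `Irr.split`: near `z` the points
  without `x` have colours in `A` only or in `B` only. `Irr.type_arc`: there is `v` with `dist v z = 1` and
  circles about points `g ∈ U x` near `v` which near `z` carry colours of `A` only. | last: split, type_arc,
  type_curve
* `S5.H555.Tangent` (level 14, used by 1, 10 kB): P032: two unit circles tangent to each other: estimates
  for the cut lemma | last: c_le_one555, small555, far555, ivt555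
* `S5.H555.Cut` (level 15, used by 3, 18 kB): P032: the contact graph of a point has no cut colour (wild)
  `Irr.no_cut`: `T z = {x} ∪ A ∪ B`, `A`, `B` nonempty and disjoint, `|A| ≤ 2`; not all pairs `{a, b}`, `a ∈
  A`, `b ∈ B`, are broken at `z`. | last: td_circle555, no_cut
* `S5.H555.PairCut` (level 16, used by 1, 15 kB): P032: the nappes of a broken pair which cuts the contact
  graph (wild) `T q = {a, b}`, `dist q z = 1`, the other colours of `z` are `X ∪ Y` and near `z` no point
  without `a`, `b` has colours of both. Then the two nappes orthogonal to `q - z` are not both of type `X`.
  | last: level_cross555, closed_seg555, pc_curve, pc_kill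
* `S5.H555.Penta` (level 16, used by 1, 10 kB): P032: the broken pairs of a five-coloured point are
  diagonals of a pentagon `Irr.penta`: `|T z| = 5`, all palettes of the unit circle about `z` with at most
  three colours: the colours of `z` have a cyclic order `c` such that every pair of colours of `z` on the
  unit circle is `{c i, c (i + 2)}`. | last: six_of_five555, penta, pent
* `S5.H555.PairCut2` (level 17, used by 1, 31 kB): P032: the nappes of a broken pair which cuts the contact
  graph have different types (wild) | last: pc_single555, good555, pc_all555, pair_cut
* `S5.H555.Chord` (level 18, used by 2, 15 kB): P032: the chord rule (wild, static) Antipodal points `q`,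
  `q'` of the unit circle about a six-coloured point `z` with two colours each: there are colours `l`, `m`
  outside both palettes which are separated, in the contact graph of `z`, by `T q` whenever `T q` is a cut,
  and by `T q'` whenever `T q'` is a cut. | last: ray_type555, nappes555, sp_ev555, chord
* `S5.H555.ChordT` (level 20, used by 1, 23 kB): P032: the chord rule in the presence of exact triple arcs
  `z` has six colours and a clean circle. If the palette of `q = pt z u` contains exactly one broken pair
  `P`, then the two nappes at `z` orthogonal to `q - z` are on different sides of every splitting of the
  complement of `P`, although `T q` may be a triple on a whole arc. | last: two_types, ray_free, only_ev,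
  chord_only

## S5.H57

* `S5.H57.Rules` (level 8, used by 2, 10 kB): P032, block CARR: the sixty degree rules on a circle which
  meets harmless four-coloured points | last: keyA, ruleTo, ruleFrom, nbrZ
* `S5.H57.RingZ` (level 9, used by 3, 26 kB): P032, block CARR: the odd ring at a base whose circle meets
  harmless four-coloured points | last: eps_pot, ladder, pt_cis, RB.odd
* `S5.H57.ApxH` (level 10, used by 1, 10 kB): P032, block CARR: the apex rings are odd, from the hexagon
  count with full times | last: exists_lab, lab_off, single_of, RC.ringZ
* `S5.H57.RingX` (level 15, used by 2, 7 kB): P032, block CARR: the input `hring` of `lamX_of` (no two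
  harmless points at distance one) | last: le_three, rb_of, not_frz_base, hring_of

## S5.H585

* `S5.H585.Pinch` (level 12, used by 5, 14 kB): P032: harmless four-coloured points and pinched
  three-coloured points `Harm T z A` : `T z` has four colours and every point of the unit circle about `z`
  with palette in `T z` has both colours of `A` (the pair which lives on arcs of the circle). `Harm.cd3` (CD
  lemma): if `v` is on the unit circle about such a `z` and has at most three colours, among them the two
  colours of `T z \ A`, then all points near `v` which hav | last: cd3, third_arc, pin_open, pin_closed
* `S5.H585.Exc` (level 13, used by 3, 18 kB): P032: the exceptional sets For helper223's `Ex T Z f`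
  (`Carr/LamT.lean`), in the frame `Irr U T`, `Zs T Z c R`, `Hml T f (ball c (R + 1))`, no two points of `Z`
  at distance one, and `x` in the disc of radius `R - 1` about `c`: `exc` : if `x` is exceptional for `i, j`
  then all points near `x` which have the colours `i, j` have the palette of `x` and are exceptional; `exo`
  : if `x` is not exceptional for `i, j` then no | last: ex_three, one_pair, face_four, palE
* `S5.H585.ExcS` (level 14, used by 1, 15 kB): P032: the exceptional sets, two harmless points at distance
  one allowed The same statements as in `H585/Exc.lean` and `H585/GeoX.lean` with the field `free` of `Reg`
  replaced by the weaker field `sep` of `RegS`. | last: one_pair, face_four, palE, RegS.geoX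
* `S5.H585.GeoX` (level 14, used by 1, 1 kB): P032: the geometric inputs `GeoX` in the frame `Reg` | last:
  Reg.geoX
* `S5.H585.R2` (level 14, used by 2, 9 kB): P032: pinched points on the unit circle about a base `Reg.R2` :
  (R2) of helper830's `ring_of`. | last: near_arc, R2
* `S5.H585.R2S` (level 15, used by 2, 7 kB): P032: pinched points on the unit circle about a base, two
  harmless points at distance one allowed | last: R2
* `S5.H585.RingW` (level 16, used by 1, 15 kB): P032: the ring of `cech_endH` at a face with harmless points
  on the circle `ring_ofH` : the ring of helper830's `cech_endH` (labels at nearby points) from the odd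
  rings of the apex cover and the local form of the palette at the exceptional points outside `Z'`. | last:
  near_circle, ring_ofW, ring_ofH
* `S5.H585.RingU` (level 17, used by 1, 3 kB): P032: the ring of `cech_endH` at a base, unit pairs of
  harmless points allowed | last: regS_of_up, RegS.up, RegS.ringU

## S5.H678

* `S5.H678.Face` (level 12, used by 2, 14 kB): P032, carriers: faces, the distance-two rule and the lens
  lemma for irredundant palettes `Fc T u s` : the colours of `s` are colours of `u` and no point of the unit
  circle about `u` has its palette inside `s`. For `|T u| ≤ 3` this holds for `s = T u` (`Irr.fc_three`);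
  for a harmless four-coloured point `u` it holds for the three-sets `s ⊆ T u` without the pair of `u`
  (`Irr.fc_harmless`). * `Fc.five`, `Fc.comp` : the  | last: Irr.rh_arcF, Fc.comp_harmless, Fc.lens,
  Fc.lens'
* `S5.H678.Comp` (level 13, used by 2, 2 kB): P032, carriers: the distance-two rule in the frame with
  harmless points | last: FaceT.fc, Zs.three, Zs.four_le, comp_T
* `S5.H678.Removal` (level 14, used by 1, 22 kB): P032, carriers: the removal lemma `v` a point, `u`, `u'`
  antipodal on the unit circle about `v`, the complement of `{t, b, e}` is a face at `u'`, the palette of
  `u` is inside `{t, b, e}`, and `e` is not a colour of `v`. The points of `S(u')` near `v` have the colour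
  `t` or the colour `b`; hence there are arbitrarily small neighbourhoods of `u` in the closed disc about
  `v` on whose boundary `t` and `b` are not togethe | last: u_far, region_ne, exists_side, rem_zero
* `S5.H678.Lens0` (level 15, used by 2, 9 kB): P032, carriers: the field `lens0` of the states at bases |
  last: Hm.scale_ball, lamH_rem, lens0_T
* `S5.H678.DEnds` (level 16, used by 2, 16 kB): P032: D-star pairs, the directions and the ends *
  `DP.dir_eq` : the two circles have the same directions; * `DP.not_axis` : the axis is not in the closure
  of the directions; * `DP.ends` : the palettes of the end points. | last: dir_eq, sub_cl, end_ne, ends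
* `S5.H678.RemU` (level 16, used by 1, 15 kB): P032, carriers: the removal lemma for general apex covers |
  last: Ap.sc, Ap.lam_eq, near_u, rem_zero2
* `S5.H678.LensU` (level 17, used by 1, 25 kB): P032, carriers: the field `lens0` when harmless points may
  be at distance one | last: lens_B12, lens_B3, lens_B, lens0_U

## S5.H767

* `S5.H767.Pts` (level 5, used by 3, 6 kB): P032: letters on the unit circle of a four coloured centre
  (irredundant frame), points `Ex T z P`: the points of `S(z)` near which `S(z)` has the constant palette
  `P`. | last: line_free, off_line, hand, anti
* `S5.H767.Five` (level 6, used by 3, 3 kB): P032: neighbours on the circle of a point with five or six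
  colours Points `y, y'` of `S(z)` at distance one with at most three colours have at most one common colour
  as soon as `T z` has at least five colours. | last: common_le_one, arc_free, two_contact, two_diff
* `S5.H767.Let` (level 6, used by 1, 17 kB): P032: the letters on the circle of a four coloured centre `Ctr
  U T z a b c d e f`: `T z = {a, b, c, d}`, the only constant palettes inside `T z` on `S(z)` are `{a, b}`
  and `{c, d}`. Letters: `0 = e`, `1 = f`, `2` = closure of the exact `ab`-arcs, `3` = closure of the exact
  `cd`-arcs. | last: int, noswap, dblPair, dbl
* `S5.H767.Raw` (level 7, used by 8, 11 kB): P032: the word of a four coloured centre (irredundant frame)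
  Angles in units of 60 degrees: `pt z u = z + cis (u π / 3)`. `Xs T z a b c d e f l` is the set of angles
  of the letter `l` (`0 = e`, `1 = f`, `2` = closed exact `ab`-arcs, `3` = closed exact `cd`-arcs). All
  rules for a circle whose points have at most three colours, and the clean ends as marks. | last: x_swap,
  x_dbl_aux, x_dbl, x_three
* `S5.H767.RawT` (level 9, used by 4, 10 kB): P032: a clean four coloured centre is a `RawT` word
  `Ctr.rawT`: if all points of `S(z)` have at most three colours then the letter sets form a `RawT`. | last:
  mem_closure_left, mem_closure_right, Ctr.mark_left, Ctr.mark_right
* `S5.H767.Exc` (level 10, used by 3, 19 kB): P032: the word of a four coloured centre with harmless four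
  coloured points on the circle `Hx T z p q e f y`: `T y = {p, q, e, f}`, the pair `{p, q}` is the only
  possible constant palette of `S(y)` inside `T y`, and no exact `pq`-arcs of `S(z)` accumulate at `y`. |
  last: noswap_adm, hx_noA, dbl_adm, rawT_exc

## S5.H783

* `S5.H783.Car` (level 3, used by 1, 8 kB): P032, block (L-6), part 1: carriers off `X`, the sixty degree
  rule (R60) `Car U K`: a carrier function `K` (palettes of a closed cover which equals `Pal U` on `XX U`
  and is subordinate to the open sets off `XX U`). | last: Car.Q_ne, Car.Q_ne_compl, ne_of_dist, Car.R60
* `S5.H783.FZ` (level 4, used by 1, 16 kB): P032, block (L-6), part 2: one sided lemmas at the six points of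
  a frozen circle | last: fzA, fzB, arcA, arcB
* `S5.H783.Frozen` (level 5, used by 1, 15 kB): P032, block (L-6), part 3: frozen circles do not exist |
  last: dist_move_sq, three_cover, finA, finB
* `S5.H783.Frozen2` (level 6, used by 3, 19 kB): P032, block (L-6), part 4: frozen circles do not exist
  (assembly) | last: third_colour, caseA, caseB, frozen
* `S5.H783.L6` (level 7, used by 2, 7 kB): P032, block (L-6): the odd winding number at a three-coloured
  point of `X` | last: ring_hyps, ringL6, polarL6, oddL6
* `S5.H783.OffX` (level 8, used by 2, 20 kB): P032, block (L-6): the odd winding number at three-coloured
  points off `X` | last: frz_perm, not_Frz_off, genL6, oddK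

## S5.H80

* `S5.H80.Ray` (level 5, used by 6, 19 kB): P032: solid rays at a centre with two pairs of double arcs `Ray
  V z u`: the points `z + r u`, `r > 0` small, are in `V`. At a point `z` with `T z = {a, b, c, d}`, an
  exact `ab`-arc and an exact `cd`-arc on `S(z)`, the two rays at `z` orthogonal to a direction of the
  `cd`-arc are one in `U a`, the other in `U b` (`Irr.d0`). | last: DPt.swap12, DPt.swap34, Irr.d0_one,
  Irr.d0
* `S5.H80.Anti` (level 6, used by 7, 18 kB): P032: sides at a point of the circle about a two-pair centre;
  `A` and `C` are never antipodal | last: branch_out, Irr.branch, Irr.anti_aux, Irr.anti
* `S5.H80.Clean` (level 7, used by 7, 7 kB): P032: the rhombus at a two-pair centre; ends are clean `z` with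
  `T z = {a, b, c, d}`, `V, Q ∈ S(z)` with `T V = {a, b, e}`, `T Q = {c, d, f}`, `w = V + Q - z`. | last:
  tendsto_arc, dist_arc, sq_pos_of_ne, circle_two
* `S5.H80.Rh` (level 8, used by 2, 11 kB): P032: the rhombus at a two-pair centre `Cfg`: `T z = {a, b, c,
  d}` with both pairs, `V, Q ∈ S(z)`, `T V = {a, b, e}`, `T Q = {c, d, f}`. | last: two_V, V_XX, e_mem,
  f_mem
* `S5.H80.Ends` (level 9, used by 4, 13 kB): P032: the two centres of a rhombus, exact arcs, clean ends
  `NCfg`: a `Cfg` with `T w = {e, a, f, c}` for `w = V + Q - z`. | last: clean_in, clean_out, NCfg.lp1,
  CEnd.unique

## S5.H813

* `S5.H813.ArcF` (level 10, used by 1, 12 kB): P032: the arc fields of the network of two-pair centres `AA T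
  z v v'`: `v`, `v'` are the two ends of one exact arc of `S(z)`. The fields `arc_*` of `DNet` for `EE`,
  `AA`, `ore`, `inn`. | last: fld_uniq, fld_symm, fld_ori, fld_inn

## S5.H824

* `S5.H824.Common` (level 5, used by 2, 17 kB): P032: the common point lemma (960 (3)) Two points `w = {e,x
  | f,y}`, `w' = {e,x' | f,y'}` of an irredundant frame whose palettes cover all six colours and whose
  circles carry only the two pairs; a common point `m` of the two circles with at most three colours has
  palette `{e,x,x'}` or `{f,y,y'}` and is a limit of arcs of both circles. | last: common_pair, common,
  end_vec, second_point
* `S5.H824.Pairs` (level 6, used by 1, 8 kB): P032: the common point lemma, set form | last: TwoPairs.symm,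
  pair_split, Irr.common_pairs
* `S5.H824.Two` (level 7, used by 8, 14 kB): P032: only the two pairs occur on the circle about a two-pair
  centre `Irr.twoPairs`: at a point `z` with `T z = {a, b, c, d}`, an exact `ab`-arc and an exact `cd`-arc
  on `S(z)`, every locally constant palette of `S(z)` inside `T z` is `{a, b}` or `{c, d}`. | last: ip_smul,
  cr_swap, Irr.no_cross, Irr.twoPairs
* `S5.H824.ComF` (level 10, used by 1, 3 kB): P032: the field `common` of `DNet` for the ends `EE` of an
  irredundant frame | last: twoPairs, common, common_clean

## S5.H825

* `S5.H825.Base` (level 6, used by 1, 12 kB): P032: a centre whose unit circle carries one of two colours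
  everywhere, basic lemmas | last: dist_gt, conf_far, conf_near, fin_contra
* `S5.H825.Alt` (level 7, used by 1, 12 kB): P032: a centre whose unit circle carries one of two colours
  everywhere: the palettes alternate | last: not_sub3, exists_pair, card4, share
* `S5.H825.Share` (level 8, used by 1, 20 kB): P032: neighbouring palettes of the hexagon have no common
  colour of the centre | last: no_layer', opp, noshare1, noshare
* `S5.H825.Mo` (level 9, used by 1, 18 kB): P032: the alternating hexagon, regions without the two letters |
  last: G4, G2, pur_next, mo
* `S5.H825.End` (level 10, used by 2, 34 kB): P032: on the unit circle of a point with four colours some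
  palette is inside | last: false_of_pur, exists_both, Ctx.false, Irr.exists_inside

## S5.H827

* `S5.H827.Edge` (level 14, used by 7, 9 kB): P032: unit pairs of harmless four-coloured points `Harm.edge`
  : `z`, `x` harmless, `|x - z| = 1`, both colours of `T z \ A` are colours of `x`: the two colours are both
  in the broken pair `B` of `x` or both outside. `Harm.far_pair` : if `T z \ A = T x \ B` then `B` and `T z`
  are disjoint. `Harm.unit_pair` : so `B = T z \ A` or `z, x` is a `D`-star pair. | last: layerE, edge,
  far_pair, unit_pair

## S5.H830

* `S5.H830.StateF` (level 2, used by 2, 14 kB): P032, carriers: the state at a three-coloured point of an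
  auxiliary cover `V` : a closed cover with at most three colours at each point (real palettes outside small
  holes about the harmless points, faces of the carriers on the boundaries of the holes), `rho` : the
  representatives, `F u s` : the three-set `s` is a face at `u`. | last: rule_same, LamF.zz_supp,
  LamF.zz_near, LamF.rule_diff
* `S5.H830.MeshX` (level 3, used by 1, 12 kB): P032, carriers: ring sum of a locally constant cocycle,
  evaluated near the ring | last: glob2, mesh_even2
* `S5.H830.StateX` (level 3, used by 8, 13 kB): P032, carriers: states at bases (286's interface) `T` :
  palettes of a closed cover of the plane by six sets, any order. A *face* at `x` is a three-set `s ⊆ T x`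
  containing no palette of a point of the unit circle about `x`. `Ex i j` : exceptional points of `T_i ∩
  T_j` (the forbidden pair of a harmless point; the pinched pair of a three-coloured point). A *base* is a
  face without exceptional pair. | last: LamX.zb_eq_of_mem, LamX.flat_zb, LamX.rule_same, LamX.rule_diff
* `S5.H830.EndF` (level 4, used by 1, 27 kB): P032, carriers: final assembly for an auxiliary cover with
  representatives and faces The same argument as in `H11/End.lean`, with the support and the geometric
  inputs in the form of `LamF` and `GeoF`. | last: zc_loc, zc_rule, exists_label, cech_endF
* `S5.H830.RingX` (level 4, used by 1, 6 kB): P032, carriers: the ring hypothesis of `cech_endX` from the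
  odd rings about a face (all labellings off the face) and the local form of the palette at the exceptional
  points of the circle. | last: ring_of
* `S5.H830.EndX` (level 5, used by 1, 25 kB): P032, carriers: final assembly on the original cover (order up
  to four) | last: zcb_rule, face_closed, base_closed, exists_label
* `S5.H830.FinX` (level 6, used by 2, 21 kB): P032, carriers: final assembly on the original cover
  `cech_endX`: no states with a face `{3,4,5}` at `v` and an odd ring about `v`. `ring_of`: the ring
  hypothesis from odd rings and the local form at pinched points. | last: exk, exists_cocycle, sum_eps_eq,
  cech_endX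
* `S5.H830.FinH` (level 7, used by 1, 10 kB): P032, carriers: final assembly with ring labels taken at
  nearby points (needed when the unit circle about the final vertex carries four-coloured points) | last:
  mesh_even3, cech_endH

## S5.H843

* `S5.H843.Core7` (level 15, used by 6, 5 kB): P032: the top of the theorem on six colours, with the blocks
  as hypotheses Frame `Irr U T` with the Suf form of `min` (notation `Mn U T`). | last: Irr.harm_of_noD,
  Irr.core7_of, Irr.core7_of'
* `S5.H843.FrameN` (level 15, used by 1, 6 kB): P032: minimal palettes with a semicontinuous bound for the
  order `exists_frameN` : `N` is a lower semicontinuous function with values at least three, near every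
  point `z` at most `N z` of the sets of the maximal family suffice; then there is an irredundant cover `Irr
  U T` with minimal palettes and at most `N z` colours at `z`. `exists_open_free₂` : two closed sets without
  unit distance between them have open neighbou | last: exists_frameN, exists_open_free₂
* `S5.H843.PairD` (level 16, used by 4, 10 kB): P032: unit pairs with a two-pair point or a point near which
  no four of the sets suffice `exists_pairD_of` : the statement in the plane for maximal families, from a
  theorem on irredundant covers `Irr V T`. | last: isClosed_XU, XU_anti, exists_T_pairD, exists_pairD_of
* `S5.H843.DiscU` (level 17, used by 1, 7 kB): P032: disc form with unit pairs `exists_discU_of` : the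
  statement in the plane for maximal families, from a theorem on irredundant covers `Irr V T` in a disc:
  every closed disc of radius `R` contains a point near which no `m` of the sets suffice, or a point near
  which no four of them suffice with a point at distance one near which no three suffice, or a two-pair
  point. | last: exists_T_discU, exists_discU_of
* `S5.H843.CoreD` (level 20, used by 2, 2 kB): P032: the core theorem with clean points of more than four
  colours and clean two-pair points Frame `Irr U T` with the Suf form of `min`. `Irr.coreD_of` : points with
  at least five colours and two-pair points have clean unit circles; there are no clean points with five and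
  six colours; the carrier theorem `hC`; then the frame is impossible. | last: Irr.coreD_four, Irr.coreD_of
* `S5.H843.Hand5` (level 23, used by 3, 4 kB): P032: the statements in the plane with the theorems on clean
  points of five and six colours as hypotheses | last: core5, core6, pair5, pair6
* `S5.H843.FrameQ` (level 24, used by 1, 12 kB): P032: frames with prescribed palettes at finitely many
  points `exists_frameQ` : as `exists_frameN`; moreover at finitely many given points the colours are in
  given locally sufficient sets. `pair6a` : the statement in the plane from the theorem on clean points of
  six colours each of which is in a pair of the unit circle. | last: min_stepZ, exists_min_coverZ,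
  td_union_finite, exists_frameQ
* `S5.H843.Hand6` (level 25, used by 4, 12 kB): P032: the statement in the plane from the theorem on clean
  points of six colours each of which is in a pair of the unit circle | last: two_le6, infinite_circle,
  exists_distinct, pair6a

## S5.H913

* `S5.H913.DEnd` (level 1, used by 2, 14 kB): P032: the end of the D-star argument Abstract form: `O z` is
  the open set of directions of the arcs at `z`, read on the real line. | last: mem_closure_Ioo, dint_of,
  dstar_end
* `S5.H913.Sides` (level 15, used by 1, 13 kB): P032: sweeping by continua and the sides of a D-star pair
  `Irr.sweep_in`, `Irr.sweep_out` : a connected set of `i`-coloured points from `z` to a point inside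
  (outside) the unit circle about `v` keeps the colour `i` near `v` inside (outside) the unit circle about
  `z`. `Harm.solid` : `|y - z| = 1`, the same two colours of `z` and `y` outside the broken pairs: the
  circle about an interior point of an arc of `S(y)` is of | last: Harm.solid_one, Harm.solid, Harm.sides,
  Harm.side
* `S5.H913.Hull` (level 16, used by 3, 13 kB): P032: the hull lemma for a D-star pair `z`, `y` with the same
  two colours outside the broken pairs. If a point `v` of `S(z)` has one of these two colours, the lines of
  the arcs of `S(z)` are on one side of the line `z v`. | last: dist_In, Harm.arc_DO, cr_In, Harm.hull_psi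

## S5.H920

* `S5.H920.Arcs` (level 16, used by 1, 5 kB): P032: D-star pairs, the two arcs (topological part) | last:
  two_arcs, cis_add_pi, closure_cis, isOpen_sub
* `S5.H920.Disj` (level 17, used by 1, 4 kB): P032: D-star pairs, the directions of an end and of the centre
  are disjoint | last: disj920
* `S5.H920.Final` (level 17, used by 1, 8 kB): P032: no D-star pair (glue) | last: corner1, corner2,
  false_of_loc, noStar_of_loc
* `S5.H920.NoDStar` (level 19, used by 1, 1 kB): P032: no D-star pair | last: H920.loc, DP.false, Fr.noStar,
  Irr.noStar

## S5.H926

* `S5.H926.Rel` (level 2, used by 1, 7 kB): P032: relatively maximal families from closed covers of order at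
  most `n` Let `F i` be finitely many closed sets covering the plane, such that every point of the closed
  set `D` lies in at most `n` of them and the interior of `F i` contains no two points at distance one. Then
  there is a family `V` of open sets with `Mx V`, `interior (F i) ⊆ V i` and every point of `D` is in at
  most `n` of the closures of the `V i`. | last: exists_swelling, exists_maximal_rel, exists_Mx_rel
* `S5.H926.MinD` (level 13, used by 1, 26 kB): P032: minimal palettes with control of the order
  `exists_irr_min_le_of` : if near every point of a closed set `D` at most `m` of the sets of a maximal
  family suffice, then there is an irredundant cover `Irr U T` with minimal palettes and at most `m` colours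
  at all points of `D`. `exists_frame` : the same, and all points with at least four colours are in a given
  open set `V` such that near all points off `V` three of  | last: suf_iff_PU, exists_frame,
  exists_irr_min_le_of, exists_open_free
* `S5.H926.Top` (level 14, used by 1, 11 kB): P032: from the frame to the plane `exists_five_of` : the
  statement about points near which no four of the sets suffice, from the exclusion of irredundant covers
  with at most four colours at every point. `exists_pair_of` : the same with points near which no three of
  the sets suffice at distance one. | last: maximal_preimage, exists_maximal_ge, exists_pair_of,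
  exists_five_of

## Six

* `Six.Geo` (level 1, used by 2, 9 kB): P032: crossing unit circles | last: circle_signs, crossing, cr_zero,
  cr_ne
* `Six.Max` (level 1, used by 2, 10 kB): P032: maximal families of open sets without unit distance `Mx U`:
  the `U i` are open, without unit distance, their union is dense, and they cannot be enlarged near the
  points of `XX U` by colours of the core of the palette. | last: Mx.notMem', Mx.mem_of_pal, Mx.two,
  Mx.wlemma
* `Six.Gap` (level 2, used by 4, 21 kB): P032: the gap lemma and its consequences | last: Mx.partner_line,
  Mx.lemmaX, Mx.lemmaB, Mx.five
* `Six.Star` (level 3, used by 5, 12 kB): P032: the reduced palettes For a maximal family the sets `U i` may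
  overlap. `Kst U x` is the palette `Pal U x` at the points of `XX U`; at the other points it consists of
  the `i` for which `U i` contains the largest disc about `x`. The sets `{x | i ∈ Kst U x}` are a closed
  cover. | last: Ks_nhd, Mx.Ks_nonempty, Mx.Ks_three, Mx.Ks_le_three

## T

* `T.Defs` (level 3, used by 11, 10 kB): P032, transfer principle (arbitrary colourings -> measurable
  colourings): shared definitions and block statements. Each block `XxxStmt : Prop` is proved in its own
  file as `theorem xxx : XxxStmt`.
* `T.A1a` (level 4, used by 1, 14 kB): P032 transfer, block A1 part a: sections, the operator `Q`. | last:
  Qc_zero, Qn_ev_zero, Qn_ev_of_ne, Qc_sum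
* `T.Arith` (level 4, used by 2, 11 kB): P032, block ARITH: the local ring of the Gaussian integers at the
  prime `2 + i`. | last: kp_mul_km, not_dvd_kp_km, ph_cross, arith
* `T.Boch` (level 4, used by 1, 25 kB): P032, block BOCH: Bochner's theorem for countable additive subgroups
  of `ℂ`. | last: KF_nonneg_zero, integral_nuM, nuM_univ, boch
* `T.Gauss` (level 4, used by 2, 6 kB): P032, transfer principle: arithmetic of Gaussian integers at `2 + i`
  and elementary facts about `ex`. | last: two_sub_I_ne, two_add_I_ne, norm_two_sub_I, norm_two_add_I
* `T.Inv` (level 4, used by 1, 6 kB): P032, transfer principle, block INV: a finite measure on characters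
  which has the same Fourier coefficients as its image under the dual of an endomorphism is invariant under
  that dual map. | last: trig_coord, Trig.star', Trig.integral, inv
* `T.Lim` (level 4, used by 1, 15 kB): P032, transfer principle: block LIM (limit lemma for asymptotically
  proper colourings). | last: mul_avg_zero', asym_tendsto, lim, lim
* `T.MaxIneq` (level 4, used by 1, 7 kB): P032, block MAX: the maximal ergodic inequality for indicator
  functions (`helper321`). | last: sum_le_MM, integrable_MM, garsia, maxIneq
* `T.Mean` (level 4, used by 1, 8 kB): P032, transfer principle: block MEAN (invariant means on countable
  abelian groups). | last: avg1_shift, avgL_shift, avgL_near, mean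
* `T.Name` (level 4, used by 2, 16 kB): P032, block NAME: the deterministic part of the covering argument
  (`helper321`). | last: I_aC_pow_div_mem, step, base, name
* `T.ThDefs` (level 4, used by 4, 4 kB): P032 transfer, block THMA: the sub-block statements.
* `T.ThmA1` (level 4, used by 1, 10 kB): P032 transfer, block THMA part 1: general lemmas (labels,
  approximation, uniform continuity, counting of names). | last: exists_unif, measurable_coeC, exists_cont,
  count_names
* `T.A1b` (level 5, used by 1, 11 kB): P032 transfer, block A1 part b: the density `w` and the dichotomy. |
  last: Sg_U, Good.w_U, Good.wn_U, Good.Xc_U
* `T.Cell` (level 5, used by 1, 4 kB): P032, Theorem A, the deterministic cell lemma (`helper321`). | last: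
  dist_div_one, isChar_div, exists_denom, cell
* `T.Corr` (level 5, used by 2, 11 kB): P032, transfer principle: block CORR (averaged correlations of a
  colouring). | last: cind1_abs_le, cind_abs_le, cind_congr, corr
* `T.Rig` (level 5, used by 1, 16 kB): P032, transfer principle: block RIG. | last: growth1, growth2,
  coprime_aux, rig
* `T.Ring` (level 5, used by 2, 3 kB): P032, block RING: `RRset` is the image of a countable subring of the
  algebraic numbers. | last: countable_KK, isAlg_I, isAlg_G, ring
* `T.TT` (level 5, used by 1, 42 kB): P032, block T (decay of the correlation function) from Theorem A,
  Bochner and invariance. The integer `o` of Theorem A is removed by the square root step and the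
  two-unit-vector lemma. | last: G0_sub_RRset, integral_compl, exists_QI_unit, tStmt_of
* `T.Th2` (level 5, used by 1, 4 kB): P032, Theorem A, part S2: measurable functions on the dual depend
  approximately on finitely many coordinates (`helper321`). | last: unif_pi, approx_aux, approx
* `T.ThBC` (level 5, used by 1, 2 kB): P032 transfer, block THMA, S3: Borel-Cantelli for names. | last: bc
* `T.A1c` (level 6, used by 1, 16 kB): P032 transfer, block A1 part c: prediction on the dissipative part,
  Host's argument on the conservative part, and the block statement. | last: ev_mul_conj, Good.lintegral_sq,
  Good.host, a1
* `T.Disc` (level 6, used by 1, 15 kB): P032, transfer principle: block DISC (discretisation). | last: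
  sum_cell, sum_cind, key, disc
* `T.ThmA` (level 6, used by 1, 10 kB): P032 transfer, block THMA: assembly. | last: shf_iter,
  measurable_shf, thmA_of
* `T.Th1` (level 7, used by 2, 5 kB): P032, part S1 of block THMA: the units `u_{5i}` used in the large
  sieve (Host's argument). | last: norm_u, iter_mul, host_family, host
* `T.Th4` (level 8, used by 1, 10 kB): P032, part S4 of block THMA: growth. A cell of measure `≥ exp (-2 κ
  n)` all of whose members differ by small linear characters on `LL D 0 n` gives the hypothesis of `RigStmt`
  at level `n`. | last: norm_natAdd, growth_det, growth, growth
* `T.ThmAll` (level 9, used by 1, 1 kB): P032 transfer: Theorem A. | last: thmA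
* `T.ChiFinal` (level 10, used by 1, 1 kB): P032: the transfer principle and the bound `6 ≤ k` for arbitrary
  colourings of the plane. | last: tStmt, transfer, chi_six

## Words

* `Words.Engine` (level 1, used by 3, 8 kB): Words on a circle: the engine Angles are measured in units of
  60 degrees, so a circle is `ℝ` modulo `6`. A word on the circle is a family `X : Λ → Set ℝ` of closed sets
  of period `6` which cover the line (`u ∈ X l` : the letter `l` is available at `u`). For every `u` the six
  positions `u, u + 1, .., u + 5` carry letters; a function `h : Fin 6 → Λ` is a hexagon. `Leg` is the set
  of legal hexagons; all selections from  | last: Word.ev, Word.ev_nhds, Word.const_Ioo, Word.seg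
* `Words.Jump` (level 2, used by 5, 7 kB): Words on a circle: marks A mark is a point of the circle with
  exactly two letters `a`, `b`, `a` on the left side and `b` on the right side. | last: tendsto_add_left,
  tendsto_add_right, Word.mem_add, Word.jump
* `Words.Tab` (level 2, used by 1, 16 kB): Words on a circle: the hexagons of a four coloured centre
  Letters: `0 = e`, `1 = f` (the two colours which are missing at the centre), `2 = A`, `3 = C` (the two
  double pairs). Legal hexagons: neighbours differ, `A` and `C` are never opposite. The tables list the
  components of the legal hexagons under the free moves (20 components for both kinds of free moves). |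
  last: chkQ_true, chkV_true, chkPat_true, chkLt_true
* `Words.L12` (level 3, used by 1, 8 kB): Words on a circle: the facts L1 and L2 Letters `0 = e`, `1 = f`,
  `2 = A`, `3 = C`; angles in units of 60 degrees. | last: step_of_chk, rot_of_chk, word_of, L1
* `Words.TEngine` (level 3, used by 2, 15 kB): Words on a circle with exact contacts: the engine As in
  `Engine`, but two neighbouring palettes (at distance one) may have a common letter. Only selections which
  are legal are compared. `lam` is a legal choice of a letter at every point such that it also stays legal
  if the letters at marks are changed inside the palette of the mark. | last: TW.ev_nhds, TW.const_Ioo,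
  TW.seg, TW.jump
* `Words.L23` (level 4, used by 2, 16 kB): Words on a circle: the facts L2 and L3 Letters `0 = e`, `1 = f`,
  `2 = A`, `3 = C`; angles in units of 60 degrees. | last: no_one, nonfree, eq_of_mod, L2
* `Words.L3` (level 5, used by 1, 13 kB): Words on a circle: the fact L3 Letters `0 = e`, `1 = f`, `2 = A`,
  `3 = C`; angles in units of 60 degrees. | last: left_of_right, L3aux, pat_cases, L3
* `Words.Sym` (level 6, used by 1, 8 kB): Words on a circle: user level forms of L1, L2, L3 `Raw X`: the
  word of a four coloured centre. Letters `0 = e`, `1 = f` (missing colours), `2 = A`, `3 = C` (double
  pairs); angles in units of 60 degrees. The roles of `e, f` and of `A, C` can be exchanged (`Raw.perm`). An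
  *end* of type `(x, y)` is a clean transition between the letters `x` and `y`. | last: Raw.L1e, Raw.L1f,
  Raw.L2, Raw.L3

## Words.H151

* `Words.H151.Bits` (level 1, used by 1, 25 kB): Sets of words as big natural numbers A word with `D`
  letters `h 0, .., h (D-1) < B` has the code `∑ h k * B ^ k`; a set of words is a natural number whose bits
  are the codes. Everything below is evaluated by the kernel with its fast operations on natural numbers. |
  last: rotH_lt, sw_sw, rotAux_mem, labOf_rot
* `Words.H151.Trie` (level 1, used by 1, 13 kB): Decision diagrams of packed potentials A diagram over words
  of letters carries in every leaf one natural number whose digits in base `64` are the values of several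
  potentials. The kernel checks that all potentials change by at most the weight along every move.
  Everything is written with the recursors (fast for the kernel). | last: allM_aux, allM_spec, cov_spec,
  enum_spec
* `Words.H151.Bits2` (level 2, used by 1, 7 kB): Moves at several positions, weights and potentials A move
  `m : GM` changes the letters at the positions `m.ch` (position, old letter, new letter) and requires
  letters in given lists at the positions `m.ctx`. | last: labOf_back, GM.dom_mem, GM.chk0_spec,
  GM.chkR_spec
* `Words.H151.Pal` (level 2, used by 7, 17 kB): Words with six letters which are constant below every
  palette tuple Letters `0 .. A-1` (`A ≤ 10`), palettes `0 .. N-1`; everything is given by lists of masks: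
  `nb`, `op` for the letters (neighbours, antipodes), `nbT`, `opT` for the palettes, `PL` the letters of the
  palettes. | last: same_spec, cst_spec, bt_pow, pal_table
* `Words.H151.Bits3` (level 3, used by 1, 4 kB): Labels for general moves, closed words | last: chkAll_spec,
  agr_spec, rotP_length, lab_rot_ne
* `Words.H151.Box1` (level 3, used by 1, 14 kB): Hexagons around a centre with six colours | last: chk
* `Words.H151.Box2` (level 3, used by 1, 43 kB): Hexagons around a centre with six colours | last: chk, chk,
  chk, chk
* `Words.H151.Box3` (level 3, used by 1, 20 kB): Hexagons around a centre with six colours | last: chk, chk,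
  chk, chk
* `Words.H151.Box4` (level 3, used by 1, 88 kB): Hexagons around a centre with six colours | last: chk, chk,
  chk, chk
* `Words.H151.Box5` (level 3, used by 1, 23 kB): Hexagons around a centre with six colours | last: chk, chk,
  chk, chk
* `Words.H151.Pal2` (level 3, used by 1, 16 kB): Box tables with ties As `Pal`, with three additions: a
  condition `flt q p b a` on antipodal positions of a palette tuple (palettes `q`, `p`) and of a word below
  it (letters `b`, `a`), an exclusion `exc` of palette tuples, and tie classes: a palette tuple with a tie
  may change the value, every class is used at most once. | last: sam1_spec, sam_spec, cs2_spec, rwR_spec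
* `Words.H151.Pal3` (level 4, used by 2, 10 kB): Box tables with ties: the theorem | last: cond_tt, tmk_lt,
  Blw.bel, box_table
* `Words.H151.Six6` (level 4, used by 5, 8 kB): Words of a six-coloured centre: the generic table `L` is a
  list of pairs of colours (bit masks). Legal words: neighbouring letters are disjoint. Moves: one letter is
  replaced by a letter with one common colour such that the three colours of the two letters meet the
  antipodal letter. | last: leg6_rot, mem_up6, inv6_lt, six_table
* `Words.H151.K6D1` (level 5, used by 1, 4 kB): Words of a six-coloured centre: the graph ad ae af bc bd be
  cd ce | last: chk, table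
* `Words.H151.K6D22` (level 5, used by 1, 5 kB): Words of a six-coloured centre: the graph ad ae af bc bf cd
  ce de | last: chk, table
* `Words.H151.K6K33m` (level 5, used by 1, 3 kB): Words of a six-coloured centre: the graph ad ae af bd be
  bf cd ce | last: chk, table
* `Words.H151.K6K42` (level 5, used by 1, 5 kB): Words of a six-coloured centre: the graph af bc bd be cd ce
  de | last: chk, table
* `Words.H151.K6Prism` (level 5, used by 1, 6 kB): Words of a six-coloured centre: the graph ab bc ca de ef
  fd ad be cf | last: chk, table
* `Words.H151.Pal4` (level 5, used by 4, 1 kB): The interface of the box tables | last: boxTab_of_chkQ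

## Words.H349

* `Words.H349.Tie` (level 5, used by 1, 29 kB): Words on a circle with exact contacts: the engine Letters `0
  = e`, `1 = f`, `2 = A`, `3 = C`; angles in units of 60 degrees. In `RawT` two neighbouring positions may
  share one letter, if each of the two positions has a second letter (an exact contact). | last: RawT.seg,
  RawT.mark_ne, RawT.mark_mark, RawT.jump
* `Words.H349.TieL` (level 7, used by 2, 23 kB): Words on a circle with exact contacts: the facts L1, L2, L3
  Letters `0 = e`, `1 = f`, `2 = A`, `3 = C`; angles in units of 60 degrees. | last: L2, left_of_right,
  L3aux, L3
* `Words.H349.TieSym` (level 8, used by 3, 7 kB): Words on a circle with exact contacts: user level forms of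
  L1, L2, L3 The same statements as in `Words/Sym.lean`, for `RawT` in place of `Raw`. The ends `End X x y
  V` are the same as there. | last: RawT.L1e, RawT.L1f, RawT.L2, RawT.L3

## Words.H670

* `Words.H670.Split` (level 6, used by 42, 2 kB): The check of a box table, one piece per first palette |
  last: allR_of, chkQ_of, boxTab_of
* `Words.H670.M22` (level 7, used by 1, 97 kB): table. Hexagons around a centre with six colours: box tables
  | last: tab
* `Words.H670.M28` (level 7, used by 1, 40 kB): table. Hexagons around a centre with six colours: box tables
  | last: tab
* `Words.H670.M30` (level 7, used by 1, 122 kB): table. Hexagons around a centre with six colours: box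
  tables | last: tab
* `Words.H670.M32` (level 7, used by 1, 80 kB): table. Hexagons around a centre with six colours: box tables
  | last: tab
* `Words.H670.M33` (level 7, used by 1, 77 kB): table. Hexagons around a centre with six colours: box tables
  | last: tab
* `Words.H670.M34` (level 7, used by 1, 56 kB): table. Hexagons around a centre with six colours: box tables
  | last: tab
* `Words.H670.P1` (level 7, used by 1, 32 kB): table. Hexagons around a centre with six colours: box tables
  | last: tab
* `Words.H670.P10` (level 7, used by 1, 61 kB): table. Hexagons around a centre with six colours: box tables
  | last: tab
* `Words.H670.P11` (level 7, used by 1, 47 kB): table. Hexagons around a centre with six colours: box tables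
  | last: tab
* `Words.H670.P12` (level 7, used by 1, 36 kB): table. Hexagons around a centre with six colours: box tables
  | last: tab
* `Words.H670.P13` (level 7, used by 1, 42 kB): table. Hexagons around a centre with six colours: box tables
  | last: tab
* `Words.H670.P14` (level 7, used by 1, 38 kB): table. Hexagons around a centre with six colours: box tables
  | last: tab
* `Words.H670.P15` (level 7, used by 1, 34 kB): table. Hexagons around a centre with six colours: box tables
  | last: tab
* `Words.H670.P16` (level 7, used by 1, 32 kB): table. Hexagons around a centre with six colours: box tables
  | last: tab
* `Words.H670.P17` (level 7, used by 1, 40 kB): table. Hexagons around a centre with six colours: box tables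
  | last: tab
* `Words.H670.P18` (level 7, used by 1, 42 kB): table. Hexagons around a centre with six colours: box tables
  | last: tab
* `Words.H670.P19` (level 7, used by 1, 61 kB): table. Hexagons around a centre with six colours: box tables
  | last: tab
* `Words.H670.P2` (level 7, used by 1, 36 kB): table. Hexagons around a centre with six colours: box tables
  | last: tab
* `Words.H670.P20` (level 7, used by 1, 43 kB): table. Hexagons around a centre with six colours: box tables
  | last: tab
* `Words.H670.P21` (level 7, used by 1, 42 kB): table. Hexagons around a centre with six colours: box tables
  | last: tab
* `Words.H670.P22` (level 7, used by 1, 68 kB): table. Hexagons around a centre with six colours: box tables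
  | last: tab
* `Words.H670.P23` (level 7, used by 1, 47 kB): table. Hexagons around a centre with six colours: box tables
  | last: tab
* `Words.H670.P24` (level 7, used by 1, 36 kB): table. Hexagons around a centre with six colours: box tables
  | last: tab
* `Words.H670.P25` (level 7, used by 1, 42 kB): table. Hexagons around a centre with six colours: box tables
  | last: tab
* `Words.H670.P26` (level 7, used by 1, 38 kB): table. Hexagons around a centre with six colours: box tables
  | last: tab
* `Words.H670.P27` (level 7, used by 1, 32 kB): table. Hexagons around a centre with six colours: box tables
  | last: tab
* `Words.H670.P28` (level 7, used by 1, 36 kB): table. Hexagons around a centre with six colours: box tables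
  | last: tab
* `Words.H670.P29` (level 7, used by 1, 50 kB): table. Hexagons around a centre with six colours: box tables
  | last: tab
* `Words.H670.P3` (level 7, used by 1, 50 kB): table. Hexagons around a centre with six colours: box tables
  | last: tab
* `Words.H670.P30` (level 7, used by 1, 34 kB): table. Hexagons around a centre with six colours: box tables
  | last: tab
* `Words.H670.P31` (level 7, used by 1, 53 kB): table. Hexagons around a centre with six colours: box tables
  | last: tab
* `Words.H670.P32` (level 7, used by 1, 53 kB): table. Hexagons around a centre with six colours: box tables
  | last: tab
* `Words.H670.P33` (level 7, used by 1, 87 kB): table. Hexagons around a centre with six colours: box tables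
  | last: tab
* `Words.H670.P4` (level 7, used by 1, 32 kB): table. Hexagons around a centre with six colours: box tables
  | last: tab
* `Words.H670.P5` (level 7, used by 1, 43 kB): table. Hexagons around a centre with six colours: box tables
  | last: tab
* `Words.H670.P6` (level 7, used by 1, 42 kB): table. Hexagons around a centre with six colours: box tables
  | last: tab
* `Words.H670.P7` (level 7, used by 1, 68 kB): table. Hexagons around a centre with six colours: box tables
  | last: tab
* `Words.H670.P8` (level 7, used by 1, 39 kB): table. Hexagons around a centre with six colours: box tables
  | last: tab
* `Words.H670.P9` (level 7, used by 1, 42 kB): table. Hexagons around a centre with six colours: box tables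
  | last: tab
* `Words.H670.S13` (level 7, used by 2, 14 kB): Hexagons around a centre with six colours: box tables |
  last: c11, c12, cs, tab
* `Words.H670.S17` (level 7, used by 2, 9 kB): Hexagons around a centre with six colours: box tables | last:
  c12, c13, cs, tab
* `Words.H670.S26` (level 7, used by 2, 25 kB): Hexagons around a centre with six colours: box tables |
  last: c14, c15, cs, tab

## Words5

* `Words5.Marks` (level 3, used by 2, 12 kB): Words on a circle with finitely many marks Between two letters
  either everything is free (any number of changes, also Cantor sets), or the common points of the two
  letter sets are marks of a type `τ`, and every type occurs at most once on the circle. Then the component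
  of the hexagon at `p` and the component of its rotation are joined by a chain of marks, every type being
  used at most once. | last: bad_finite, jump_reach, walk, Word.exists_reach
* `Words5.Cert` (level 4, used by 1, 11 kB): Pentagon words: certificates Letters `0..4` are the five
  diagonals `E_j` of a five coloured centre, in the order in which the lines order them, `5 = f` is the
  missing colour. Legal hexagons: neighbours are `E_a, E_(a±2)` or `E_a, f`; opposite letters `E_a, E_b`
  have `a - b = 0, ±1` modulo 5. There are 820 legal hexagons. A certificate is a table `T` of components,
  matrices `A` of the marks and matrices `R` of the cha | last: step_of_chk5, lt_of_row, reach_of_chk,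
  noReach
* `Words5.Gen` (level 4, used by 1, 24 kB): Words on a circle with ties Only generic times (one letter at
  each of the six positions) are used. Near every time `u` two generic hexagons `h, h'` are legal and are
  selections of the palettes at `u`; `Rel` relates the components of such hexagons. Changes of letters are
  free or have a type which occurs at most once on the circle. | last: GW.st_add_one, GW.mem_add,
  GW.gen_add, GW.exists_rel
* `Words5.Cert2` (level 5, used by 8, 17 kB): Pentagon words with ties: certificates `R` is a table of rows:
  row `N * n + c` is the set of components from which `c` can be reached by a chain with the marks `n`.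
  Single changes and the forward frozen pairs of legal hexagons are checked. | last: maskN_lt, RelN.zero,
  RelN.comp, noRelN
* `Words5.Pent` (level 6, used by 1, 22 kB): The word of a clean five coloured centre `X 0, .., X 4` are the
  closures of the exact arcs of the five diagonals `E_0, .., E_4` (`E_j` and `E_(j+1)` have a common
  colour), `X 5` is the closure of the arcs with the missing colour `f`. Angles are measured in units of 60
  degrees. | last: cnt_le, Pent.rel, Pent.gw, Pent.false_of
* `Words5.Pt0` (level 6, used by 1, 20 kB): Pentagon words with ties: the certificate for the pattern CCCCC
  Status of the types t_j (change between E_j and f) and c_j (change between E_(j+2) and E_(j+3)): C = no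
  t_j; T = no c_j; P = at most one c_j; B = at most one t_j and at most one c_j; F = no condition. | last:
  hP, hS, hD, hF
* `Words5.Pt1` (level 6, used by 1, 20 kB): Pentagon words with ties: the certificate for the pattern CCFPF
  Status of the types t_j (change between E_j and f) and c_j (change between E_(j+2) and E_(j+3)): C = no
  t_j; T = no c_j; P = at most one c_j; B = at most one t_j and at most one c_j; F = no condition. | last:
  hP, hS, hD, hF
* `Words5.Pt2` (level 6, used by 1, 22 kB): Pentagon words with ties: the certificate for the pattern CCPFT
  Status of the types t_j (change between E_j and f) and c_j (change between E_(j+2) and E_(j+3)): C = no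
  t_j; T = no c_j; P = at most one c_j; B = at most one t_j and at most one c_j; F = no condition. | last:
  hP, hS, hD, hF
* `Words5.Pt3` (level 6, used by 1, 117 kB): Pentagon words with ties: the certificate for the pattern BFPPF
  Status of the types t_j (change between E_j and f) and c_j (change between E_(j+2) and E_(j+3)): C = no
  t_j; T = no c_j; P = at most one c_j; B = at most one t_j and at most one c_j; F = no condition. | last:
  hP, hS, hD, hF
* `Words5.Pt4` (level 6, used by 1, 26 kB): Pentagon words with ties: the certificate for the pattern BCCFC
  Status of the types t_j (change between E_j and f) and c_j (change between E_(j+2) and E_(j+3)): C = no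
  t_j; T = no c_j; P = at most one c_j; B = at most one t_j and at most one c_j; F = no condition. | last:
  hP, hS, hD, hF
* `Words5.Pt5` (level 6, used by 1, 21 kB): Pentagon words with ties: the certificate for the pattern FPTFT
  Status of the types t_j (change between E_j and f) and c_j (change between E_(j+2) and E_(j+3)): C = no
  t_j; T = no c_j; P = at most one c_j; B = at most one t_j and at most one c_j; F = no condition. | last:
  hP, hS, hD, hF
* `Words5.Pt6` (level 6, used by 1, 22 kB): Pentagon words with ties: the certificate for the pattern BFFTF
  Status of the types t_j (change between E_j and f) and c_j (change between E_(j+2) and E_(j+3)): C = no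
  t_j; T = no c_j; P = at most one c_j; B = at most one t_j and at most one c_j; F = no condition. | last:
  hP, hS, hD, hF
* `Words5.PentSym` (level 7, used by 1, 10 kB): The dihedral symmetry of the pentagram words, and the list
  of patterns | last: Pts_re5, Dead.ro, Dead.re, Dead.of
* `Words5.PentFin` (level 8, used by 1, 8 kB): No clean five coloured centre: the word part `Pent.elim`: a
  pentagram word in which for every `j` there is no point of type `t_j`, or no point of type `c_j`, or at
  most one point of each of these two types, does not exist. | last: dead_of_covR, cov_all, dead_all,
  Pent.elim

## Words5.H227

* `Words5.H227.TabG` (level 4, used by 1, 23 kB): Words on a circle: the hexagons of a five coloured centre,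
  graphs without a pentagon Letters: `0` is the colour which is missing at the centre, `1, .., 4` are four
  pairs of colours of the centre. Legal hexagons: neighbours are disjoint (and not both `0`), opposite pairs
  intersect. Three lists of pairs: the four cycle, triangle plus edge, the path on five vertices. A change
  of letter is free if it is not a change betw | last: chk_C4, chk_TK, chk_P5
* `Words5.H227.Graph5` (level 5, used by 1, 6 kB): Words on a circle: only the pentagon `X0` is the letter
  of the colour which is missing at the centre, `Y i j` is the letter of the pair `{i, j}` of colours of the
  centre (`i, j : Fin 5`), `P i j` says that this letter is used. If every colour is in at most two pairs,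
  the pairs are the sides of a pentagon. | last: step_of_chk, rot_of_chk, no_word, no_tw
* `Words5.H227.Penta` (level 6, used by 1, 18 kB): Words on a circle: only the pentagon `X0` is the letter
  of the colour which is missing at the centre, `Y i j` is the letter of the pair `{i, j}` of colours of the
  centre (`i, j : Fin 5`), `P i j` says that this letter is used. If every colour is in at most two pairs,
  the pairs are the sides of a pentagon. | last: okB_C4, okB_TK, okB_P5, W5.pentagon

## Words5.H819

* `Words5.H819.Path` (level 4, used by 1, 12 kB): Words on a circle: the path lemma for any number of marks
  A word with exact contacts (`TW`) whose non-free contacts are `n` marks (modulo the period). Then the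
  value of `cmp` passes, during one step of length one, from `cmp h₀` to `cmp (rot h₀)` through single
  marks, every mark used at most once. | last: Mark.shift, fract_of_pos, TW.pass, TW.path
* `Words5.H819.Defs` (level 5, used by 1, 4 kB): Pentagon words: letters, legal hexagons, codes Letters `0,
  .., 4` are the five diagonals `E_0, .., E_4` of a pentagon in the order of their lines, the letter `5` is
  the colour `f` which is missing at the centre. Neighbours (at distance one) are disjoint: `E_a` and `E_b`
  with `a - b = ± 2` or exactly one `f`. Antipodal diagonals have difference `0, ± 1`. | last: code_update,
  code_rot, legN_code, all_range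
* `Words5.H819.Word5` (level 6, used by 2, 3 kB): Pentagon words: the axioms `X l` are the angles (unit 60
  degrees) of the letter `l`: `l = 0, .., 4` the diagonals `E_0, .., E_4`, `l = 5` the colour `f` which is
  missing at the centre.

## Words6.H122

* `Words6.H122.ClassD` (level 8, used by 1, 67 kB): The graphs on six colours without cut, data `Ls`:
  thirty-five graphs on the labels `0, .., 5`, edges as masks. `Cs`: relabellings (digits in base eight).
  `chkCls`: every graph on six colours has an isolated vertex, or a vertex joined to all but one of the
  others, or all pairs between two disjoint sets with five elements together, or it is one of the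
  thirty-five graphs after a relabelling. | last: chkCls_eq, inj_LC
* `Words6.H122.Class` (level 9, used by 1, 7 kB): Graphs on six colours without cut: the classification A
  symmetric irreflexive relation on six colours in which every colour has a partner, no colour is joined to
  all but one of the others, and which does not contain all pairs between two disjoint sets with at least
  five elements together, is exactly one of the thirty-five graphs of `LC` after a relabelling. | last:
  cutA_spec, isoA_spec, eA_spec, classify
* `Words6.H122.Lists` (level 10, used by 2, 4 kB): The thirty-five lists of letters, literally | last:
  map_LC, classify35, forall35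
* `Words6.H122.All35` (level 11, used by 1, 4 kB): P032: the thirty-five graphs on six colours without cut:
  every list of letters has a tree of tables | last: lets27, lets29, lets31, all35_of

## Words6.H172

* `Words6.H172.OneTie` (level 1, used by 1, 5 kB): Words on a circle, ties at one time modulo one `H v h`:
  `h` is a legal selection at the generic time `v`; `B u g`: the word `g` is below the palettes at the time
  `u`. The label is constant below the palettes of every time which is no tie; ties happen only at one time
  modulo one, and there no label of a word is the label of the rotation of a word. | last: tie_false
* `Words6.H172.Modes` (level 14, used by 1, 5 kB): The modes of the complementary classes on the circle of a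
  six coloured point `rs_of`: over the hypotheses of `NoSixA` every class `{X, Xᶜ}` satisfies the complement
  rule; `Mode T z X m`: `m = 0`: `X` is no palette of the circle, `m = 1`: `Xᶜ` is none, `m = 2`: `X` and
  `Xᶜ` are palettes only of two opposite points; `exists_modes`: a mode for every class. | last: tie_fin,
  once, once_fin, uniq_fin

## Words6.H220

* `Words6.H220.Sys` (level 23, used by 1, 2 kB): P032: the rules of the tables hold for the accumulating
  selections `sys_of`: if all selected words are legal, then the accumulating words and palettes at a time
  satisfy the rules `Sys`. | last: sys_gen, sys_of
* `Words6.H220.Md` (level 24, used by 1, 5 kB): P032: the mode rules of the tables hold for the accumulating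
  palettes `md_of`: if all occurring triples with two letters are palettes of `D` and every tie palette of
  `D` occurs at one point only, with its complement at the antipode only, then `Md D f (Lam H u)`. | last:
  opp_of_tie, pt_inj_fin, one_of_tie, md_of

## Words6.H227

* `Words6.H227.Dats` (level 6, used by 1, 7 kB): P032: the box tables without ties in the common form |
  last: tab29, ok29, tab31, ok31

## Words6.H229

* `Words6.H229.TreesP` (level 10, used by 1, 8 kB): P032: the tree of modes of the prism | last: leaf31,
  leaf32, leaf33, tree35
* `Words6.H229.Comp` (level 27, used by 2, 3 kB): P032: six colours from the mode trees | last: tri_eq,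
  okL_bridge, mem_dats, no_six_of
* `Words6.H229.Act` (level 28, used by 1, 1 kB): P032: there is no clean point of six colours each of which
  is in a pair of the unit circle | last: no_six_active

## Words6.H306

* `Words6.H306.SixLoc` (level 28, used by 1, 2 kB): P032: six colours from the mode trees, local form |
  last: rs_loc, no_six_loc_of

## Words6.H343

* `Words6.H343.Rot2` (level 21, used by 1, 20 kB): P032: no rotation of two triples at a six-coloured centre
  `rot2` : the six palettes of the circle of a six-coloured centre are never `A, B, A, B, A, B` with `A`,
  `B` triples with exactly one common colour. | last: ev_sub, ev_g33, rot2_int, rot2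
* `Words6.H343.LamAlt` (level 22, used by 2, 3 kB): P032: the rules ALT and SPAN for the accumulating
  selections of a six-coloured centre `lam_alt` : the palettes `Lam H u` are not `A, B, A, B, A, B` with two
  triples with exactly one common colour. `lam_span`, `lam_span2` : the palette `Lam H u k` is spanned by
  the accumulating words. | last: lam_alt', lam_alt_per, lam_span, lam_span2
* `Words6.H343.SysOf` (level 23, used by 1, 4 kB): P032: the accumulating selections of a six-coloured
  centre obey the rules `Sys` `sys_of` : the structure `Sys` (input of the encoding into the tables) from a
  family `SelH` of legal words. `HL` : the family of all legal words at generic times; `HL.sel`, `HL.rot`. |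
  last: leg_rot, leg_rot', hl_rot, acc_rot

## Words6.H358

* `Words6.H358.TreeD` (level 9, used by 4, 10 kB): P032: the trees of modes `LeafOK lets l`: there is a box
  table with the letters `lets` under the modes `l`. `TreeOK lets`: the modes `l` of finitely many such
  tables cover all assignments of modes. | last: treeOK_of_three, exists_mu, cover35, treeOK_35
* `Words6.H358.TreesM` (level 10, used by 1, 3 kB): P032: the ten trees of modes over the box tables, one
  class or none | last: tree30, tree32, tree33, tree34

## Words6.H46

* `Words6.H46.EncD` (level 5, used by 5, 7 kB): P032: from sets of colours to the tables with ties,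
  definitions `code f s`: the mask of the set `s`, the colour `i` is the bit `f i`. `Enc D f M`: the letters
  of `D` are the pairs of `M`. `okD D`: the lists of `D` are consistent with the masks. `Leg M h`: legal
  words of pairs (`OpM` is the chord condition in the component form). `Sys M A Λ`: the rules for the
  palettes `Λ` and the words `A` accumulating at a time. `wd
* `Words6.H46.Code` (level 6, used by 3, 7 kB): P032: masks of sets of colours | last: mask_of, sub_add,
  code_add, twoB_code
* `Words6.H46.Enc` (level 7, used by 2, 12 kB): P032: from sets of colours to the tables with ties | last:
  wd_spec, ofNat_add, enc_word, wd_rot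
* `Words6.H46.Enc2` (level 8, used by 1, 14 kB): P032: from sets of colours to the tables with ties, the
  palettes | last: dup_false, ties_bit, sing_spec, enc_tuple
* `Words6.H46.Rules` (level 20, used by 3, 7 kB): P032: static palette rules on the circle of a six-coloured
  centre, at every time `T_u = T (pt z u)`. At every `u`: `2 ≤ |T_u|`; neighbours `T_u`, `T_(u+1)` have at
  most one common colour and none if one of them is a pair; a pair and an antipodal triple meet (all colours
  occur on the circle); two antipodal triples with one common colour `s` obey `G33`. | last: gap3_pt,
  pt_add3, gap3_fin, g33_fin
* `Words6.H46.Sel` (level 21, used by 1, 13 kB): P032: the accumulating selections on the circle of a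
  six-coloured centre `H v h`: at the generic time `v` the word `h` of pairs is selected, `h k ⊆ T (pt z (v
  + k))`. `Acc H u h`: `h` is selected at times accumulating at `u`; `Lam H u k`: the union of the `h k`.
  The palettes `Lam H u` obey the static rules: two or three colours, neighbours disjoint if one is a pair,
  at most one common colour, a pair and an antipodal  | last: act_off, SelH.lam_gap3, SelH.lam_gap3',
  SelH.lam_g33

## Words6.H503

* `Words6.H503.Mark` (level 1, used by 2, 6 kB): Words on a circle with marks (ties) which are passed at
  most once in a window of length one `H v h`: `h` is a legal selection at the (generic) time `v`; `B u g`: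
  the word `g` is below the palettes at the time `u`; `Tie c u`: a tie of the class `c` at the time `u`; `φ
  h g S`: the word `g` can be reached from `h` by moves below palettes and by ties of classes in `S`, every
  class at most once. | last: mark_false, box_false
* `Words6.H503.Tie` (level 8, used by 3, 4 kB): Complementary classes on a circle: the three modes, ties
  have period one | last: tie_int, tie_symm, modes, tie_of

## Words6.H571

* `Words6.H571.Num` (level 6, used by 1, 3 kB): P032: a box table with ties and words which accumulate: the
  contradiction in numbers | last: num_false
* `Words6.H571.LeafD` (level 7, used by 1, 2 kB): P032: leaves of the mode trees, definitions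
* `Words6.H571.LeafM` (level 25, used by 1, 6 kB): P032: leaves of the mode trees: the mode rules | last:
  tri_code, okL_tie, okL_mem, okL_tieP
* `Words6.H571.Leaf` (level 26, used by 1, 7 kB): P032: a leaf of a mode tree: the contradiction over the
  circle | last: tcode_uniq, leaf_core, leg_of, leaf_false

## Words6.H704

* `Words6.H704.F2Data` (level 1, used by 1, 6 kB): P032: words of broken pairs which satisfy the chord rule
  exist at every generic time The finite part: for each of the graphs of `dats` (letters as masks, with all
  splittings of their complements), and two antipodal palettes `t`, `t2` with at most four colours together,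
  there are letters `P` below `t` and `Q` below `t2` which satisfy the chord rule. | last: dats_ok, dats_f2,
  pals_ok
* `Words6.H704.Cover` (level 6, used by 1, 8 kB): Graphs on six colours Every graph on six colours such that
  no vertex is joined to all but one of the other vertices is, after a relabelling of the colours, contained
  in one of the five graphs of the tables, or it contains all nine edges between two triples of colours. The
  sets of graphs are big natural numbers as in `Bits`. | last: un_testBit, chkCov_eq, inj_all
* `Words6.H704.Relabel` (level 7, used by 2, 16 kB): The table of a six-coloured centre for an arbitrary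
  contact graph `M` is a symmetric relation on the six colours such that no colour is joined to all but one
  of the other colours, and which does not contain all nine pairs between two triples of colours. Words: six
  letters `{a, b}` with `M a b`, neighbours disjoint. There is an invariant of the moves of `Six6` which is
  not invariant under the rotation. | last: transport, tri_card, vu_spec, k6_table
* `Words6.H704.NoK33` (level 17, used by 1, 8 kB): P032: the colours of a point are not two triples with all
  nine pairs broken `Irr.no_k33`: if `T z = A ∪ B`, `|A| = |B| = 3`, then some pair `{a, b}`, `a ∈ A`, `b ∈
  B`, is not the palette of a point of `S(z)`. | last: k33_split, no_k33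
* `Words6.H704.K6Tab` (level 18, used by 2, 2 kB): P032: the table of a six-coloured centre over `Irr` `MC T
  z a b`: the pair `{a, b}` is the palette of a point of `S(z)`. For a point with six colours the words over
  `MC T z` have the invariant of `Words6.H704.TabM`. | last: tab6
* `Words6.H704.Gen6` (level 19, used by 5, 21 kB): P032: a six-coloured centre with a clean circle: generic
  times `P u = T (pt z u)`. Every palette of the circle contains a broken pair; at a generic time (the six
  palettes at `u, u + 1, .., u + 5` are locally constant) neighbouring palettes are disjoint and antipodal
  ones have at most four colours together, so all selections of broken pairs have the same value of the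
  invariant of `tab6`. This value is locally constant | last: Six6.val_eq, Six6.val_const, Six6.val_rot,
  Six6.exists_break
* `Words6.H704.Fact2` (level 20, used by 1, 23 kB): P032: words of broken pairs which satisfy the chord rule
  exist at every generic time | last: Six6.exists_word, Six6.sp_letter, Six6.not_dead, Six6.f2_of
* `Words6.H704.Hd` (level 21, used by 1, 6 kB): P032: at every generic time there is a legal word of broken
  pairs below the palettes The graph of broken pairs is one of the graphs of `dats` (35 lists of letters,
  the same as in `Words/H151`). `Six6.hd`: the form of `Words6/H46/EncD`, `Six6.hdC`: the form of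
  `Words6/H724/SetTab`. | last: Six6.chd_at, Six6.hd0, Six6.hd, Six6.hdC
* `Words6.H704.Start` (level 26, used by 2, 6 kB): P032: a clean point with six colours: the properties of
  the graph of broken pairs | last: Six6.mc_deg, Six6.mc_cut, mc_act, start

## Words6.H724

* `Words6.H724.SetTab` (level 3, used by 1, 26 kB): P032: the tables of palettes as statements about sets of
  colours `M`: a graph on the six colours. `LegC M h`: the six sets `h k` are pairs of `M`, neighbours are
  disjoint, antipodes satisfy the chord rule. `AllowT M T`: the six palettes are pairs of `M` or triples
  with at least two pairs of `M`. `setTab`: a table of `Words/H151/Pal.lean` gives an invariant of the words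
  which is constant below every palette tuple. | last: legC_leg, pcB_eq, allowT_leg, setTab

## Words6.H926

* `Words6.H926.Tab35` (level 29, used by 2, 1 kB): P032: the table of all graphs | last: tab35

-/
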