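import Mathlib.Logic.Basic

/-
# P032: points with six colours, notes and programs of helper519 (stored by helper19), comments only

Search results, not proved in Lean; see section 6 of O6.md for what is assumed.
In the programs below four pairs of characters are written as @Q (the double quote), @D (two minus signs),
@A (slash minus) and @B (minus slash); put them back before running.  Data files are not stored, they are made by
the programs (prod.py, prodx.py, dumpcnf.py).

== message 05:44 ==
helper519 (O6), 05:44. ORDER 6 CLOSED BY MACHINE IN THE SIDED FRAME, GENERAL CASE: no point z with six colours whose exact arcs are sided (one inner, one outer letter), clean OR unclean circle, any accumulation of events, no assumption on the hulls. Notes: origin/helper519:notes/H519/O6.md (chain, rules, order of the kills, raw results h519_res.tsv; self-contained programs in notes/H519/farmR, all code in notes/H519/ws).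
(1) NS (all six colours are letters, hulls < 180, covers M = 3..6): J = 2 anchored closed paths (49 points z + V_k(t) + V_l(t')) with the three-point rule N3a: M=6 205 -> 35 -> 0, M=5 292 -> 37 -> 0, M=4 844 -> 123 -> 0, M=3 1013 -> 157 -> 0.
(2) S (a colour c is never a letter; partner rule: some y in S(z) in cl U_c). C = closed set of times where the word is not locally constant. Each side of t in C is a gap (constant word, A-facts: the arcs on this side are in the closures) or carries an accumulating pair: isolated instants (a|b), or a MINIMAL INTERVAL (word set B = W(I) minimal, then all b in B are gap words everywhere at C cap I and all closed conditions, e.g. c in T(V_m(t)), are CONSTANT on C cap I; so a minimal interval is all clean or all unclean). Chain lemma with states gap / isolated pair / perfect pair; 332 types (X|Y).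
   - perfect pair {012301321032, 032103123012}: clean dead, the 15 possible extra colours (m,e) of T(V_m) all dead (tag W1);
   - UNCLEAN anchors: all 332 types + 28 (X|X) dead (split on T(V_m) for 40 of them), so every instant of C is clean;
   - partner in the interior of a gap: 13 words dead, so the partner of the silent colour is at a clean instant of C;
   - CLEAN anchors: 332 -> 24 (tag C1) -> 0 (tag C2). So C is empty: contradiction.
NEW TOOLS others can use: minimal intervals (constant profile T(V_m) on a perfect piece, clean / unclean dichotomy), multi-word sides, the split on T(V_m), one-sided A-facts, the three-point rule.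
ASSUMED: sidedness of exact arcs at a 6-point (open wild lemma of 962 / 161), static rules as clauses (N3a, hidden presence, A-facts: proofs sketched, not typed), windows = closed half planes of the letters (194's weaker rotated-ray windows not rerun here). Nothing in Lean; T2 / CommonColours untouched. O5 frame: same engine compiled (notes/H519/w5: 76 words, 60483 static pairs, NS 16285), elimination not run. Thanks to the 600 boxes of the job farm.

== file notes/H519/O6.md ==
# P032, order 6 (helper519, chief O6): elimination of a six-coloured point, general circle (unclean allowed)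

Frame: WT world (maximal U, T), z with T z = all six colours; SIDED: every exact arc of S(z) has one inner
colour (solid inside S(z)) and one outer colour.  Time t mod 60 deg: the six points V_m(t) = z + e(t + 60 m).
An exact time: all V_m(t) are exact points; letter at V_m = (inner, outer).  Word = 12 letters.  Exact times
are open and dense; the word is locally constant there.

## 1. Static facts used (variables per lattice point p, slot q of the 24 J slots around p)
K(p,c,q) c in T near p in slot q; s solid; T(p,c); H(p,c,q) p in the closure of U_c through the slot q.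
F solid/hidden exclusion at unit distance; windows of a letter (inner letter c at V_m: c only inside D(V_m),
outer letter: only outside); N1 germ/cusp; N3a three-point rule: c in T near u, t near w, v common neighbour:
the slot at v adjacent to S(u) carries a colour outside {c,t}; gap rule |T| >= ... (T of a neighbour of an exact
point); A-facts: if the letter at V_m is constant on one side of the instant, the arc on this side lies in the
closures (so no solid / hidden conflict across it).
Programs: prod.py (PL), prodx.py (extend), khat.py (H), star.py, onesided.py/afact.py, multi.py.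

## 2. Instants and the chain lemma
C = set of times at which the word is not locally constant (on exact times).  C is closed.  Two-sided A-facts kill
all types (gap word a | gap word b), a <> b: C is perfect.  Gap = component of the complement of C, gap word.
MINIMAL INTERVALS.  W(I) = set of words in the interval I.  Take I meeting C with W(I) minimal: then every point of
C in I has all words of B := W(I) accumulating on each side on which it is not a gap end, |B| >= 2, and every
b in B is a gap word of gaps accumulating everywhere at C cap I.  Hence for b, b' in B:  types (b | B) and (B | b)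
occur, in particular E-(b; {b,b'}), E+({b,b'}; b) are consistent (symmetric pairs).
By shrinking I every closed condition (c in T(V_m(t)), V_m(t) in cl U_c) holds at all or at no point of C cap I
(the profile T(V_m) is CONSTANT on C cap I).
Minimal intervals are dense in C.  So at every t in C each side is of one of two kinds: a gap (word a, A-facts) or a
minimal set B (all its words accumulate).
CHAIN LEMMA (states = gap words and minimal sets; in the programs a symmetric pair {b,b'} stands for B): if a state
occurs arbitrarily near t on the right and a state arbitrarily near t+60 on the left, then they are joined by a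
finite chain of types (X | Y) of instants, each consistent with the anchor t (product test J = 2: two centres times
t, t' with all sums z + V_k(t) + V_l(t')).

## 3. Cases
NS: all six colours are letters somewhere: hulls < 180, covers M = 3..6; J=2 anchored closed path elimination with
'all six colours used': M=6 205 -> 35 -> 0, M=5 292 -> 37 -> 0, M=4 844 -> 123 -> 0, M=3 1013 -> 157 -> 0
(elimns.cpp, files noW.txt, ns*.0, L*.out, loop.sh).
S: a colour c is never a letter (silent). Partner rule: some y in S(z) with y in cl U_c (instant with H(V_m,c)).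
static pairs 34909 (p38_2_b.txt), partner anchored: 152 types, 199 transitions (sa1.txt, wtr1.txt); one-sided
anchored: E- 99 -> 36, E+ 99 -> 36 (em.*, ep.*), gap words 13, transitions 139 (g1.allow) stable.

## 4. Case S, perfect C (no isolated word change)
symmetric pairs 25 -> J=2 anchored elimination with states (elimL/elimM/elimN/elimO.cpp), E-(a;{a,b}), E+({a,b};a):
25 -> 17; types (a;{b,b'}) 78 -> 20 (E-), 17 (E+), gap words 13 -> 9.  Clean / unclean dichotomy of a minimal interval
(the set of unclean instants is closed): clean anchors: the pair {W1,W1'} (W1 = 012301321032, W1' = colours 1,3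
exchanged) is dead, 16 other pairs alive; unclean anchors: only {W1,W1'} can be a minimal set.  Splitting T(V_m):
all 15 possible extra colours (m,e) are dead for the unclean {W1,W1'} anchor.  So no minimal interval has
{W1,W1'}; without this state all 18 clean anchor types are DEAD (Q4.*).  Hence case S with perfect C is closed.

## 5. Case S, general C (isolated points of C = types (gap a | gap b) with two-sided A-facts: 28-30 static types)
States: gap words; isolated pairs {a,b} (isolated instants (a|b) accumulate); perfect pairs.  Free moves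
gap a <-> isolated pair {a,b}.  (elimS.cpp = farmR/elimR; job farm, table h519_res.)
{W1,W1'}: c0 and the 15 splits dead in the general frame too (tag W1).
332 instant types (X | Y) (ty1.0).  UNCLEAN anchors: tag U2: 286 dead; T-splits (tag U3, U4, U5, U6): see below.
CLEAN anchors: tag C*.
Refined states (elimT.cpp): gap g, perfect pair P, isolated pair seen from the left L (limit state before an instant)
and from the right R.  Moves: type (X | Y) of an instant; gap a -> L{a,b}, R{a,b} -> gap a, gap b free.
UNCLEAN anchors (tag U2, U3, U4, U7, U8): all 332 types (X|Y) dead (T-splits for 40 of them, then dead already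
unsplit in the refined states except one type, dead in its 33 splits), the 28 types (X|X) dead, so EVERY instant
of C is clean.  Partner instants in the interior of a gap: all 13 gap words dead (modes u0,h0 and c0,h0).
So every partner instant of the silent colour is a clean instant of C.
CLEAN anchors: tags C1, C2, ... (all types, transitions clean).

## 6. What is assumed
(a) sidedness of the exact arcs of S(z); (b) the static rules of section 1 (N3a, H and A-facts need a written proof);
(c) windows: for accumulating words only limits of rotated rays (remark of helper194): the windows used are those of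
the letters at exact times, in the limit closed half planes; his re-run of the pinwheel pairs with the weaker windows
gave the same result, the runs here have not been repeated with them; (d) no Lean.

## 5b. RESULT of the general case S (05:41 UTC)
C1 (all 332 types, clean anchor, clean transitions, partner only at instants of C): 308 dead, 24 alive.
C2 (24 + 1 pending types, transitions restricted to the 25 alive types, 8 pairs, 8 isolated types): ALL DEAD (2 s each).
So C is empty: the word is constant in time, which is impossible (V_m and V_{m+1} would carry the same pair).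
Together with NS: IN THE SIDED FRAME THERE IS NO POINT WITH SIX COLOURS (clean or unclean, with accumulating
events, no assumption on the hulls).
Order of the kills: W1 (elimS, ps0.sym) -> U2 (elimS, ps1.sym, no dead list) -> U3 (T-splits) -> U4 (with n4.dead)
-> U7 (elimT, ps2.sym, n5.dead) -> U8 (n7.dead; (X|X) unclean, partner in gaps) -> C1 (gapdead.txt, du8.txt)
-> C2 (d2.sym, d2.tt, d2.dead, du8.txt).  Raw results: h519_res.tsv (tag, type 'L1 L2 R1 R2 label', mode, status, path);
U1, U5, U6 are not used (U1: faulty free moves; U5, U6: coarser states).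
Modes: c0/u0 anchor clean/unclean; Tme / Nme: e in / not in T(V_m); h0: silent colour hidden at some V_m.
Files: farmR/ (self-contained: run.py, elimS = elimR.cpp, elimT.cpp, CNFs estar (13 points) and efull2 (49 points)).

## 7. Reading guide for a checker
1. Static rules: prod.py (PL: solid, arcs, windows), prodx.py (extend: N1, N3a), khat.py (H), wst.py (addh), multi.py (dup:
   several words accumulating on one side).  Every CNF variable is a statement on T, closures and germs at a lattice
   point; every clause is a local lemma.
2. Chain lemma and minimal intervals: section 2, 5.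
3. Machine part: two-tier SAT (13 points, then 49 points z + V_k(t) + V_l(t')), lazy closed path search.


== file notes/H519/ws/README.md ==
# wild engine (helper519)
wsol.py  lattice anchors at one instant, regions/germs/cusps, rules F, A, GAP, W1, W2
e2.py    out-word relation at an open instant (facts_open), e0.py at the pinwheel instant (facts_pin)
up.py    re-test with larger radius; E_2_2.txt, e0_2_2.txt = alive pairs (mod rotation) at radius 2
g1.py    generic words compatible with a pinwheel pair
prod.py  product lattice engine; pr2.py pin x instant tests; path3.py directed paths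
full1.py, full2.py, full3.py general ordered words of a 6-point, relation E_full at radius 1


== file notes/H519/ws/prod.py ==
# product-lattice wild engine. anchors = subset of (Z[w])^J ; regions/germs; solid rule F; arcs; GAP; infinitesimal moving lattices (j,+-) for each lattice j; generic lattices optional
import subprocess,itertools,sys,os,time
CAD='/opt/elan/bin/cadical'
DIRS=[(1,0),(0,1),(-1,1),(-1,0),(0,-1),(1,-1)]
Z=(0,0)
def hexdist(a): return max(abs(a[0]),abs(a[1]),abs(a[0]+a[1]))
def ball(R): return [(a,b) for a in range(-R,R+1) for b in range(-R,R+1) if hexdist((a,b))<=R]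
def add2(u,v): return (u[0]+v[0],u[1]+v[1])
def shift(u,j,w): return u[:j]+(add2(u[j],w),)+u[j+1:]
class PL:
    def __init__(self,anchors,J,inf,nc=6,gen=0):
        # J slot lattices (order of offsets). inf: list of (j,s), s=+1@A1. gen: lattices j in slots that are generic times (no anchors in them): pass as list in gen
        self.nc=nc; self.J=J; self.R=6*J; self.N=24*J
        self.n=0; self.v={}; self.cl=[]
        self.A=list(anchors); self.S=set(self.A); self.inf=inf
        N=self.N
        for u in self.A:
            T=[self.var(('T',u,c)) for c in range(nc)]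
            for q in range(N):
                K=[self.var(('K',u,c,q)) for c in range(nc)]
                self.add(*K)
                for c in range(nc):
                    self.add(-K[c],T[c])
                    self.add(self.var(('s',u,c,q)),*[K[d] for d in range(nc) if d!=c])
            for c in range(nc): self.add(-T[c],*[self.v[('K',u,c,q)] for q in range(N)])
        self.nb=[]  # (u,m,j,v) unit pairs
        for u in self.A:
            for j in range(J):
                for m in range(6):
                    v=shift(u,j,DIRS[m])
                    if v in self.S: self.nb.append((u,m,j,v))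
        self.solid(); self.arcs()
        for (j,s) in inf: self.moving(j,s)
        for g in (gen or []): self.moving(g,0)
    def var(self,k):
        if k not in self.v: self.n+=1; self.v[k]=self.n
        return self.v[k]
    def add(self,*l): self.cl.append(l)
    def K(self,u,c,q): return self.v[('K',u,c,q%self.N)]
    def lo(self,m,j): return ((m-2)*self.J+j)%self.R
    def inside(self,m,j):
        a=4*self.lo(m,j); return [(a+i)%self.N for i in range(1,12*self.J)]
    def outside(self,m,j):
        a=4*self.lo(m,j); return [(a+i)%self.N for i in range(12*self.J,24*self.J+1)]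
    def solid(self):
        nc=self.nc
        for (u,m,j,v) in self.nb:
            ins=self.inside(m,j); out=self.outside(m,j)
            for c in range(nc):
                si=self.var(('si',u,m,j,c)); so=self.var(('so',u,m,j,c)); pi=self.var(('pi',u,m,j,c)); po=self.var(('po',u,m,j,c))
                for q in ins: self.add(-self.v[('s',u,c,q)],si); self.add(-self.K(u,c,q),pi)
                for q in out: self.add(-self.v[('s',u,c,q)],so); self.add(-self.K(u,c,q),po)
        for (u,m,j,v) in self.nb:
            b=(m+3)%6
            for c in range(nc):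
                self.add(-self.v[('si',u,m,j,c)],-self.v[('po',v,b,j,c)])
                self.add(-self.v[('so',u,m,j,c)],-self.v[('pi',v,b,j,c)])
    def arcs(self):
        nc=self.nc; N=self.N; J=self.J
        # for every anchor x and every lattice direction (m,j) (neighbour y possibly not an anchor)
        self.arc=set()
        for x in self.A:
            for j in range(J):
                for m in range(6):
                    y=shift(x,j,DIRS[m])
                    if y not in self.S: continue
                    lo=self.lo(m,j)
                    for s in (1,-1):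
                        ray=(lo+3*J)%self.R if s>0 else lo
                        cusp=4*ray; germ=(4*ray-1)%N if s>0 else (4*ray+1)%N
                        A=[self.var(('A',x,m,j,s,c)) for c in range(nc)]
                        for c in range(nc):
                            for q in (cusp,germ): self.add(A[c],-self.v[('s',x,c,q)])
                            self.add(-A[c],self.K(x,c,cusp),self.K(x,c,germ))
                            for j2 in range(J):
                                for m2 in range(6):
                                    if j2==j and (m2==m or m2==(m+3)%6): continue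
                                    v=shift(x,j2,DIRS[m2])
                                    if v not in self.S: continue
                                    ins=cusp in self.inside(m2,j2); b=(m2+3)%6
                                    if ('pi',v,b,j2,c) not in self.v: continue
                                    self.add(-A[c],-self.v[('po' if ins else 'pi',v,b,j2,c)])
                            back=(m+3)%6; l2=self.lo(back,j)
                            for ray2 in (l2,(l2+3*J)%self.R):
                                g=(4*ray2-1)%N if s>0 else (4*ray2+1)%N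
                                self.add(-A[c],-self.K(y,c,g))
                            cus=4*((l2+3*J)%self.R) if s<0 else 4*l2
                            self.add(-A[c],-self.K(y,c,cus))
                            for d in range(nc):
                                if d==c: continue
                                oth=[self.K(x,e,q) for e in range(nc) if e not in (c,d) for q in (cusp,germ)]
                                self.add(-self.v[('T',y,c)],A[d],*oth)
    def windows(self,m,j,s):
        a=4*self.lo(m,j); H=12*self.J; N=self.N
        if s>0: i_=range(a+2,a+H+1); o_=range(a+H+2,a+N+1)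
        elif s<0: i_=range(a,a+H-1); o_=range(a+H,a+N-1)
        else: i_=range(a+2,a+H-1); o_=range(a+H+2,a+N-1)
        return set(q%N for q in i_),set(q%N for q in o_)
    def moving(self,j,s):
        nc=self.nc; N=self.N; t=(j,s)
        for u in self.A:
            for m in range(6):
                I=[self.var(('I',t,u,m,c)) for c in range(nc)]; O=[self.var(('O',t,u,m,c)) for c in range(nc)]; Sg=[self.var(('G',t,u,m,c)) for c in range(nc)]
                X=[self.var(('X',t,u,m,c)) for c in range(nc)]
                self.add(*(I+Sg))
                for L in (I,O,Sg):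
                    for a,b in itertools.combinations(L,2): self.add(-a,-b)
                wi,wo=self.windows(m,j,s)
                for c in range(nc):
                    for d in range(nc): self.add(-I[c],-Sg[d]); self.add(-O[c],-Sg[d])
                    self.add(-I[c],*O); self.add(-O[c],*I)
                    self.add(-I[c],-O[c])
                    T=self.v[('T',u,c)]
                    self.add(-I[c],T); self.add(-O[c],T); self.add(-Sg[c],-T)
                    self.add(-I[c],X[c]); self.add(-O[c],X[c]); self.add(-Sg[c],X[c]); self.add(-X[c],I[c],O[c],Sg[c])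
                    for q in range(N):
                        if q not in wi: self.add(-I[c],-self.K(u,c,q))
                        if q not in wo: self.add(-O[c],-self.K(u,c,q))
        for u in self.A:
            for m in range(6):
                for c in range(nc): self.add(-self.v[('X',t,u,m,c)],-self.v[('X',t,u,(m+1)%6,c)])
        for (u,m2,j2,v) in self.nb:
            if (u>v): continue
            for m in range(6):
                for c in range(nc): self.add(-self.v[('X',t,u,m,c)],-self.v[('X',t,v,m,c)])
        if s!=0:
            for u in self.A: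
                for m in range(6):
                    p=shift(u,j,DIRS[m])
                    if p not in self.S: continue
                    lo=self.lo(m,j)
                    ray=(lo+3*self.J)%self.R if s>0 else lo
                    cusp=4*ray; germ=(4*ray+1)%N if s>0 else (4*ray-1)%N
                    for c in range(nc):
                        self.add(-self.v[('I',t,u,m,c)],self.K(p,c,germ))
                        self.add(-self.v[('O',t,u,m,c)],self.K(p,c,cusp))
                        self.add(-self.v[('G',t,u,m,c)],self.K(p,c,germ)); self.add(-self.v[('G',t,u,m,c)],self.K(p,c,cusp))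
    def solve(self,extra=[],tl=600,tag='',want=False):
        if not hasattr(self,'base'): self.base=''.join(' '.join(map(str,c))+' 0\n' for c in self.cl)
        fn='/tmp/pl_%d%s.cnf'%(os.getpid(),tag)
        with open(fn,'w') as f:
            f.write('p cnf %d %d\n'%(self.n,len(self.cl)+len(extra))); f.write(self.base); f.write(''.join(' '.join(map(str,c))+' 0\n' for c in extra))
        r=subprocess.run([CAD,'-q','-t',str(tl),fn],capture_output=True,text=True)
        if r.returncode==20: return None if want else False
        if r.returncode!=10: return 'TO'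
        if not want: return True
        return set(int(x) for l in r.stdout.split('\n') if l.startswith('v') for x in l.split()[1:] if int(x)>0)
# @D@D facts for a pinwheel 6-point at z = origin: lattice 0 at the pinwheel instant, lattices 1.. at open instants
def ZZ(J): return tuple([Z]*J)
def facts(W,pin=True):
    J=W.J; N=W.N; z=ZZ(J); ex=[]
    if pin:
        for a in range(6):
            base=4*(a*J)
            for i in range(4*J):
                q=(base+i)%N; al={a} if i==0 else {a,(a+1)%6}
                for c in range(6):
                    if c not in al: ex.append((-W.K(z,c,q),))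
        for k in range(6):
            p=shift(z,0,DIRS[k])
            if p in W.S:
                ins=set(W.inside((k+3)%6,0)); inn=set(W.inside((k+2)%6,0)); inp=set(W.inside((k+4)%6,0))
                for q in range(N):
                    for c in range(6):
                        if q in ins:
                            if c==k and q in inn: continue
                            if c==(k-1)%6 and q in inp: continue
                            ex.append((-W.K(p,c,q),))
                        else:
                            if c in (k,(k-1)%6): ex.append((-W.K(p,c,q),))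
                            if c==(k+1)%6 and q in inn: ex.append((-W.K(p,c,q),))
                            if c==(k-2)%6 and q in inp: ex.append((-W.K(p,c,q),))
                ex.append((W.v[('A',p,(k+3)%6,0,-1,k)],)); ex.append((W.v[('A',p,(k+3)%6,0,1,(k-1)%6)],))
            if ('I',(0,1),z,k,k) in W.v: ex.append((W.v[('I',(0,1),z,k,k)],))
            if ('I',(0,-1),z,k,k) in W.v: ex.append((W.v[('I',(0,-1),z,k,(k-1)%6)],))
    for j in range(1 if pin else 0,J):
        if not pin:
            pass
        for k in range(6):
            p=shift(z,j,DIRS[k])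
            if p in W.S:
                ins=set(W.inside((k+3)%6,j))
                for q in range(N):
                    for c in range(6):
                        if q in ins:
                            if c!=k: ex.append((-W.K(p,c,q),))
                        else:
                            if c in (k,(k+1)%6,(k-1)%6): ex.append((-W.K(p,c,q),))
                for s in (1,-1): ex.append((W.v[('A',p,(k+3)%6,j,s,k)],))
            for s in (1,-1,0):
                if ('I',(j,s),z,k,k) in W.v: ex.append((W.v[('I',(j,s),z,k,k)],))
    return ex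
def outs(h): return [(j+3+h[j])%6 for j in range(6)]
def outsm(h): return [(k+2+h[(k-1)%6])%6 for k in range(6)]
sh=lambda h:''.join('-0+'[x+1] for x in h)
un=lambda s:tuple('-0+'.index(x)-1 for x in s)
def ringfix(W,t,w):
    z=ZZ(W.J); return [(W.v[('O',t,z,m,w[m])],) for m in range(6)]


== file notes/H519/ws/prodx.py ==
# extra rules: N1 opposite germs / equal cusps, N2 mixed slots (<=3-points, not_sub), N3 three-point rule (pure or <=3 point at u, colour t at w, middle v)
from prod import *
def tang(W,m,j):
    @Q@Q@Qrays at u for direction (m,j): ray index plus (dir+90), minus (dir-90); slots cusp, germ inside D(v), germ mirror@Q@Q@Q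
    J=W.J; N=W.N; lo=W.lo(m,j); rp=(lo+3*J)%W.R; rm=lo
    # inside half plane is from rm (angle dir-90) to rp (dir+90)
    return {1:dict(ray=rp,cusp=4*rp,gin=(4*rp-1)%N,gmir=(4*rp+1)%N),-1:dict(ray=rm,cusp=4*rm,gin=(4*rm+1)%N,gmir=(4*rm-1)%N)}
def extend(W,N1=True,N2=True,N3a=True,N3b=True,PV=True):
    nc=W.nc; N=W.N; J=W.J
    pairs=list(itertools.combinations(range(nc),2))
    if N2 or N3b:
        for u in W.A:
            for q in range(N):
                P={}
                for (a,b) in pairs:
                    v=W.var(('P',u,a,b,q)); P[(a,b)]=v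
                    W.add(-v,W.K(u,a,q)); W.add(-v,W.K(u,b,q))
                for r in range(1,nc//2+1):
                    for Y in itertools.combinations(range(nc),r):
                        if r==nc//2 and 0 not in Y: continue
                        Yc=[c for c in range(nc) if c not in Y]
                        big=[P[(min(a,b),max(a,b))] for a in Y for b in Yc]
                        for a in Y:
                            for b in Yc: W.add(-W.K(u,a,q),-W.K(u,b,q),*big)
    info={}
    for (u,m,j,v) in W.nb:
        info[(u,v)]=(m,j)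
    # aggregated presence by effective side. For neighbour v of u (direction (m,j) at u): 
    #  near side ('n'): outer if slot inside D(v), inner otherwise
    #  far side at ray s (tangential direction +-): slots tangential in direction +: at ray + -> outer(cusp), at ray - -> inner germ ; sector slots: as near
    def cls(u,v):
        m,j=info[(u,v)]; t=tang(W,m,j); ins=set(W.inside(m,j)); 
        tp={t[1]['cusp'],t[1]['gin'],t[1]['gmir']}; tm={t[-1]['cusp'],t[-1]['gin'],t[-1]['gmir']}
        near={q:('o' if q in ins else 'i') for q in range(N)}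
        far={1:{},-1:{}}
        for q in range(N):
            for s in (1,-1):
                if q in tp: far[s][q]='o' if s==1 else 'i'
                elif q in tm: far[s][q]='o' if s==-1 else 'i'
                else: far[s][q]=near[q]
        return m,j,t,near,far
    # orientation: tangential + at u (dir(m)+90) corresponds at v: direction to u is m+3; the same spatial direction dir(m)+90 = dir(m+3)-90 -> s=-1 in v's frame
    def agg(u,v,kind,s,side,c):
        key=('ag',u,v,kind,s,side,c)
        if key in W.v: return W.v[key]
        x=W.var(key); m,j,t,near,far=cls(u,v); mp=near if kind=='n' else far[s]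
        for q in range(N):
            if mp[q]==side:
                if isinstance(c,tuple): W.add(-W.v[('P',u,c[0],c[1],q)],x)
                else: W.add(-W.K(u,c,q),x)
        return x
    if N1:
        for (u,v) in info:
            m,j,t,near,far=cls(u,v); back=(m+3)%6; tb=tang(W,back,j)
            # spatial + direction at u: t[1]; at v: tb[-1]
            for s in (1,-1):
                same=tb[-s]; opp=tb[s]
                for c in range(nc):
                    for q in (t[s]['cusp'],t[s]['gin'],t[s]['gmir']):
                        # passes at v: cusp at same side, inner germ at opposite side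
                        W.add(-W.K(u,c,q),-W.v[('s',v,c,same['cusp'])]) if ('s',v,c,same['cusp']) in W.v else None
                        W.add(-W.K(u,c,q),-W.v[('s',v,c,opp['gin'])])
    if N2:
        for (u,v) in info:
            m,j,t,near,far=cls(u,v); back=(m+3)%6; tb=tang(W,back,j)
            inn=W.inside(back,j); out=W.outside(back,j)
            for (a,b) in pairs:
                oth=[e for e in range(nc) if e not in (a,b)]
                xo=agg(u,v,'n',0,'o',(a,b)); xi=agg(u,v,'n',0,'i',(a,b))
                for b2 in set(out): W.add(-xo,*[W.K(v,e,b2) for e in oth])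
                for b2 in set(inn): W.add(-xi,*[W.K(v,e,b2) for e in oth])
                for s in (1,-1):
                    same=tb[-s]; opp=tb[s]
                    for q in (t[s]['cusp'],t[s]['gin'],t[s]['gmir']):
                        W.add(-W.v[('P',u,a,b,q)],*[W.K(v,e,same['cusp']) for e in oth])
                        W.add(-W.v[('P',u,a,b,q)],*[W.K(v,e,opp['gin']) for e in oth])
    if N3a or N3b:
        nbs={}
        for (u,v) in info: nbs.setdefault(v,[]).append(u)
        for v in nbs:
            for u in nbs[v]:
                m,j=info[(u,v)]; back=(m+3)%6; tb=tang(W,back,j)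
                for w in nbs[v]:
                    if w==u: continue
                    mw,jw=info[(w,v)]; backw=(mw+3)%6
                    if jw==j and (backw==back or (backw+3)%6==back): continue
                    insw=set(W.inside(backw,jw))  # slots at v inside D(w)
                    for sv in (1,-1):  # ray of S(u) at v, in v's frame
                        ray=tb[sv]['ray']; cusp=tb[sv]['cusp']; gin=tb[sv]['gin']
                        # S(y), y near w, passes v at small distance: crosses ray iff side matches: y inside D(v) ('o') -> passes outside D(w) near v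
                        sidew='i' if cusp in insw else 'o'
                        # far side label at u for spatial ray: s in u's frame = -sv
                        for su in ('o','i'):
                            slot=cusp if su=='o' else gin
                            for t_ in range(nc):
                                y=agg(w,v,'n',0,sidew,t_)
                                if N3a:
                                    for c in range(nc):
                                        if c==t_: continue
                                        x=agg(u,v,'f',-sv,su,c)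
                                        W.add(-x,-y,*[W.K(v,e,slot) for e in range(nc) if e not in (c,t_)])
                                if N3b:
                                    for (a,b) in pairs:
                                        if t_ in (a,b): continue
                                        x=agg(u,v,'f',-sv,su,(a,b))
                                        W.add(-x,-y,*[W.K(v,e,slot) for e in range(nc) if e not in (a,b,t_)])
                            if N3b:
                                # <=3 point at w (near side), pure colour c at u (far side)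
                                for (a,b) in pairs:
                                    y=agg(w,v,'n',0,sidew,(a,b))
                                    for c in range(nc):
                                        if c in (a,b): continue
                                        x=agg(u,v,'f',-sv,su,c)
                                        W.add(-x,-y,*[W.K(v,e,slot) for e in range(nc) if e not in (a,b,c)])
    return W


== file notes/H519/ws/khat.py ==
# hidden presence H(u,c,q): u in closure of U_c through slot q (Pal sense). K -> H. F: T-solid c excludes H on relevant side; N1,N3a with H; N2 unchanged.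
from prodx import *
def extendH(W,N2=False):
    nc=W.nc; N=W.N; J=W.J
    for u in W.A:
        for q in range(N):
            for c in range(nc):
                h=W.var(('H',u,c,q)); W.add(-W.K(u,c,q),h)
                # T-single slots (solid c) means all points in U_c : fine
    H=lambda u,c,q: W.v[('H',u,c,q%N)]
    W.H=H
    # solid exclusion
    for (u,m,j,v) in W.nb:
        ins=set(W.inside(m,j)); out=set(W.outside(m,j)); b=(m+3)%6; insb=set(W.inside(b,j)); outb=set(W.outside(b,j))
        for c in range(nc):
            # si(u): solid somewhere inside D(v) at u -> no H(v,c,q) q outside D(u)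
            for q in outb: W.add(-W.v[('si',u,m,j,c)],-H(v,c,q))
            for q in insb: W.add(-W.v[('so',u,m,j,c)],-H(v,c,q))
    info={}
    for (u,m,j,v) in W.nb: info[(u,v)]=(m,j)
    def cls(u,v):
        m,j=info[(u,v)]; t=tang(W,m,j); ins=set(W.inside(m,j))
        tp={t[1]['cusp'],t[1]['gin'],t[1]['gmir']}; tm={t[-1]['cusp'],t[-1]['gin'],t[-1]['gmir']}
        near={q:('o' if q in ins else 'i') for q in range(N)}
        far={1:{},-1:{}}
        for q in range(N):
            for s in (1,-1):
                if q in tp: far[s][q]='o' if s==1 else 'i'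
                elif q in tm: far[s][q]='o' if s==-1 else 'i'
                else: far[s][q]=near[q]
        return m,j,t,near,far
    def agg(u,v,kind,s,side,c):
        key=('hg',u,v,kind,s,side,c)
        if key in W.v: return W.v[key]
        x=W.var(key); m,j,t,near,far=cls(u,v); mp=near if kind=='n' else far[s]
        for q in range(N):
            if mp[q]==side: W.add(-H(u,c,q),x)
        return x
    for (u,v) in info:
        m,j,t,near,far=cls(u,v); back=(m+3)%6; tb=tang(W,back,j)
        for s in (1,-1):
            same=tb[-s]; opp=tb[s]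
            for c in range(nc):
                for q in (t[s]['cusp'],t[s]['gin'],t[s]['gmir']):
                    W.add(-H(u,c,q),-W.v[('s',v,c,same['cusp'])])
                    W.add(-H(u,c,q),-W.v[('s',v,c,opp['gin'])])
    nbs={}
    for (u,v) in info: nbs.setdefault(v,[]).append(u)
    for v in nbs:
        for u in nbs[v]:
            m,j=info[(u,v)]; back=(m+3)%6; tb=tang(W,back,j)
            for w in nbs[v]:
                if w==u: continue
                mw,jw=info[(w,v)]; backw=(mw+3)%6
                if jw==j and (backw==back or (backw+3)%6==back): continue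
                insw=set(W.inside(backw,jw))
                for sv in (1,-1):
                    cusp=tb[sv]['cusp']; gin=tb[sv]['gin']; sidew='i' if cusp in insw else 'o'
                    for su in ('o','i'):
                        slot=cusp if su=='o' else gin
                        for t_ in range(nc):
                            y=agg(w,v,'n',0,sidew,t_)
                            for c in range(nc):
                                if c==t_: continue
                                x=agg(u,v,'f',-sv,su,c)
                                W.add(-x,-y,*[W.K(v,e,slot) for e in range(nc) if e not in (c,t_)])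
    # moving lattices: letters at unit distance: X colour c at u+e (moving) is a T-point with c; H(u,c,q) with q outside window: excluded? letter c at moving point v' of S(u) (arc of T-points with colour c, exact): U_c point x near u in slot q: S(x) passes v' arc..
    return W
def winH(W):
    nc=W.nc; N=W.N; J=W.J
    for (j,s) in W.inf:
        t=(j,s)
        for u in W.A:
            for m in range(6):
                wi,wo=W.windows(m,j,s)
                for c in range(nc):
                    I=W.v[('I',t,u,m,c)]; O=W.v[('O',t,u,m,c)]; G=W.v[('G',t,u,m,c)]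
                    for q in range(N):
                        if q not in wi: W.add(-I,-W.v[('H',u,c,q)])
                        if q not in wo: W.add(-O,-W.v[('H',u,c,q)])
                        W.add(-G,-W.v[('H',u,c,q)])
    # arcs
    for x in W.A:
        for j in range(J):
            for m in range(6):
                y=shift(x,j,DIRS[m])
                if y not in W.S: continue
                lo=W.lo(m,j)
                for s in (1,-1):
                    ray=(lo+3*J)%W.R if s>0 else lo
                    cusp=4*ray
                    for c in range(nc):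
                        A=W.v[('A',x,m,j,s,c)]
                        for j2 in range(J):
                            for m2 in range(6):
                                if j2==j and (m2==m or m2==(m+3)%6): continue
                                v=shift(x,j2,DIRS[m2])
                                if v not in W.S: continue
                                ins=cusp in W.inside(m2,j2); b=(m2+3)%6
                                bad=W.outside(b,j2) if ins else W.inside(b,j2)
                                for q in set(bad): W.add(-A,-W.v[('H',v,c,q)])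
    return W


== file notes/H519/ws/star.py ==
from prodx import *
from isat import ISat
from gen import *
import sys,time
def star(J,extra=0):
    z=ZZ(J); A=[z]
    for j in range(J):
        for m in range(6): A.append(shift(z,j,DIRS[m]))
    return A
def mkS(anch,J,inf,kw,gap=True):
    W=PL(anch,J,inf); z=ZZ(J); W.z=z
    for c in range(6): W.cl.append((W.v[('T',z,c)],))
    if gap:
        for u in W.A:
            T=[W.v[('T',u,c)] for c in range(6)]
            for t in W.inf:
                for m in range(6):
                    for i in range(6):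
                        for o in range(6):
                            if i==o: continue
                            oth=[c for c in range(6) if c not in (i,o)]
                            for x in oth: W.cl.append((-W.v[('I',t,u,m,i)],-W.v[('O',t,u,m,o)])+tuple(T[c] for c in oth if c!=x))
    extend(W,**kw)
    return W
def fixw(W,t,w):
    ex=[]
    for m in range(6):
        ex.append(W.v[('I',t,W.z,m,w[2*m])]); ex.append(W.v[('O',t,W.z,m,w[2*m+1])])
    return ex
def Afacts(W,ts):
    out=[]
    for (j,s) in ts:
        for m in range(6):
            p=shift(W.z,j,DIRS[m])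
            for c in range(6):
                a=W.v[('A',p,(m+3)%6,j,-s,c)]
                for L in ('I','O','G'): out.append((-W.v[(L,(j,s),W.z,m,c)],a))
    return out
class QStar:
    def __init__(self,tag,anch,kw,side=None):
        W=mkS(anch,2,[(0,1),(0,-1),(1,1),(1,-1)],kw)
        if side: W.cl+=Afacts(W,[(0,side)])
        self.W=W; self.S=ISat(W,tag); self.memo={}; self.n=0
    def q(self,e,s,s2):
        k=(e,s,s2)
        if k not in self.memo:
            self.n+=1; W=self.W
            self.memo[k]=(self.S.q(fixw(W,(0,-1),e[0])+fixw(W,(0,1),e[1])+fixw(W,(1,-1),s)+fixw(W,(1,1),s2)) is not False)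
        return self.memo[k]
if __name__=='__main__':
    from anchall import anchored,instances
    fin=sys.argv[1]; mode=sys.argv[2]; kw=eval(sys.argv[3])
    anch=star(2) if mode=='star' else [(a,b) for a in ball(1) for b in ball(1)]
    PAIRS=load_pairs(fin); I=instances(PAIRS); Qo=QStar('z',anch,kw); print('anchors',len(anch),'vars',Qo.W.n,'cl',len(Qo.W.cl))
    t=time.time(); k=0
    for p in sorted(I):
        path=None
        for ins in I[p]:
            path=anchored(Qo,ins,PAIRS)
            if path: break
        Qo.memo={}
        if path: k+=1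
        print(''.join(map(str,p[:12])),''.join(map(str,p[12:])),'PATH' if path else 'DEAD')
    print(k,'of',len(I),Qo.n,'queries',time.time()-t)


== file notes/H519/ws/onesided.py ==
from afact import *
def addA1(W,side,only=None):
    nc=W.nc; ex=[]
    for (j,s) in W.inf:
        if s!=side: continue
        t=(j,s)
        for u in (only or W.A):
            for m in range(6):
                p=shift(u,j,DIRS[m])
                if p not in W.S: continue
                for c in range(nc):
                    a=W.v[('A',p,(m+3)%6,j,-s,c)]
                    for L in ('I','O','G'): ex.append((-W.v[(L,t,u,m,c)],a))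
    return ex
if __name__=='__main__':
    RA=int(sys.argv[1]); fin=sys.argv[2]
    P=[]
    for ln in open(fin):
        a,b=ln.split()[:2]; P.append((tuple(map(int,a)),tuple(map(int,b))))
    ws={canw(x) for p in P for x in p}
    for side in (-1,1):
        W=mkH([(a,) for a in ball(RA)],1,[(0,1),(0,-1)],N2=True); W.cl+=addA1(W,side,[W.z]); S=ISat(W,'k')
        print('side',side,'const words:',[''.join(map(str,w)) for w in sorted(ws) if S.q(fix(W,(0,-1),w)+fix(W,(0,1),w))])
        k=0
        for a,b in P:
            r=S.q(fix(W,(0,-1),a)+fix(W,(0,1),b))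
            if r: k+=1; print('  ',''.join(map(str,a)),''.join(map(str,b)))
        print('pairs alive',k,'of',len(P),flush=True)


== file notes/H519/ws/afact.py ==
from kt import *
from gen import canw
def addA(W,only=None):
    nc=W.nc; ex=[]
    for (j,s) in W.inf:
        t=(j,s)
        for u in (only or W.A):
            for m in range(6):
                p=shift(u,j,DIRS[m])
                if p not in W.S: continue
                for c in range(nc):
                    a=W.v[('A',p,(m+3)%6,j,-s,c)]
                    for L in ('I','O','G'): ex.append((-W.v[(L,t,u,m,c)],a))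
    return ex
if __name__=='__main__':
    RA=int(sys.argv[1]); fin=sys.argv[2]
    W=mkH([(a,) for a in ball(RA)],1,[(0,1),(0,-1)],N2=False); W.cl+=addA(W,[W.z] if len(sys.argv)>3 else None); S=ISat(W,'k'); n=k=0
    for ln in open(fin):
        a,b=ln.split()[:2]; a=tuple(map(int,a)); b=tuple(map(int,b)); n+=1
        r=S.q(fix(W,(0,-1),a)+fix(W,(0,1),b))
        if r: k+=1; print(ln.strip())
    print(n,k)


== file notes/H519/ws/multi.py ==
import sys
sys.path.insert(0,'/home/model/p32/ws')
from onesided import *
from wst import addW,addh
def dup(W,t,tag='b'):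
    mp={}
    for k in list(W.v):
        if k[0] in ('I','O','G','X') and k[1]==t:
            mp[W.v[k]]=W.var((k[0],t+(tag,))+k[2:])
    new=[]
    for c in W.cl:
        if any(abs(x) in mp for x in c):
            new.append(tuple((mp[abs(x)] if x>0 else -mp[abs(x)]) if abs(x) in mp else x for x in c))
    W.cl+=new
    return t+(tag,)
if __name__=='__main__':
    from gapw import canl,load
    RA=int(sys.argv[1])
    em=load('em2.0')+load('em2.1'); ep=load('ep2.0')+load('ep2.1')
    for side,L in ((-1,em),(1,ep)):
        A=[(a,b,c) for a,b,c,s in L if s=='PATH']; SS={canl((a,b),c) for a,b,c in A}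
        sym=[x for x in A if canl((x[1],x[0]),x[2]) in SS]
        W=mkH([(a,) for a in ball(RA)],1,[(0,1),(0,-1)],N2=True); sel=addW(W); W.cl+=addA1(W,side,[W.z]); t2=dup(W,(0,-side)); S=ISat(W,'mu')
        print('side',side,'vars',W.n,'cl',len(W.cl),'sym',len(sym),flush=True)
        k=0
        for a,b,c in sym:
            r=S.q(fix(W,(0,side),a)+fix(W,(0,-side),a)+fix(W,t2,b)+[sel[c]])
            print('  ',''.join(map(str,a)),''.join(map(str,b)),c,r,flush=True); k+=bool(r)
        print('alive',k)
        S.p.kill()


== file notes/H519/ws/wst.py ==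
from kt import *
from gen import canp,load_pairs,canw
import sys,time
def addW(W):
    @Q@Q@Qselector wc[c] -> for every lattice j and m: colour c present at z outside the open window of V_m (closed complement side)@Q@Q@Q
    z=W.z; sel={}
    for c in range(6):
        x=W.var(('wide',c)); sel[c]=x
        for j in range(W.J):
            for m in range(6):
                ins=set(W.inside(m,j))
                # hull >=180: not all directions strictly within the open half plane: some slot outside (cusps at the two rays count as outside)
                W.add(-x,*[W.K(z,c,q) for q in range(W.N) if q not in ins])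
    return sel
def addh(W):
    h={}
    for j in range(W.J):
        for m in range(6):
            p=shift(W.z,j,DIRS[m])
            for c in range(6):
                x=W.var(('hh',j,m,c)); W.add(-x,*[W.v[('H',p,c,q)] for q in range(W.N)]); h[(j,m,c)]=x
    return h
if __name__=='__main__':
    RA=int(sys.argv[1]); fin=sys.argv[2]; part,np_=int(sys.argv[3]),int(sys.argv[4])
    W=mkH([(a,) for a in ball(RA)],1,[(0,1),(0,-1)],N2=True); sel=addW(W); h=addh(W); S=ISat(W,'w%d'%part)
    t=time.time(); out=open('wst.%d'%part,'w')
    L=[]
    for ln in open(fin):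
        a,b=ln.split()[:2]; L.append((tuple(map(int,a)),tuple(map(int,b))))
    if part==0:
        ws=sorted({canw(x) for p in L for x in p})
        for w in ws:
            f=fix(W,(0,-1),w)+fix(W,(0,1),w)
            for c in range(6):
                if c in w: continue
                r=S.q(f+[sel[c]]); ms=[m for m in range(6) if r and S.q(f+[sel[c],h[(0,m,c)]])]
                out.write('C %s %s %d %d %s\n'%(''.join(map(str,w)),''.join(map(str,w)),c,r,ms))
    n=k=kk=0
    for i,(a,b) in enumerate(L):
        if i%np_!=part: continue
        n+=1; f=fix(W,(0,-1),a)+fix(W,(0,1),b)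
        for c in range(6):
            if c in a or c in b: continue
            r=S.q(f+[sel[c]])
            if not r: continue
            k+=1; ms=[m for m in range(6) if S.q(f+[sel[c],h[(0,m,c)]])]
            if ms: kk+=1
            out.write('P %s %s %d 1 %s\n'%(''.join(map(str,a)),''.join(map(str,b)),c,ms))
        if n%1000==0: print(part,n,k,kk,round(time.time()-t),flush=True)
    print('done',part,n,k,kk,time.time()-t)


== file notes/H519/ws/silent.py ==
# anchored at the partner instant of a silent colour
from usedH import *
def canpc(a,b): 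
    # canonical form of pair incl. order, returns (pair, r, map)
    return transf(a,b)
def words_at(PAIRS):
    @Q@Q@Qall (s0,w,s1,w2) with w2==w (s1==s0) or pair in PAIRS, up to canonical (rotation+colour)@Q@Q@Q
    out={}
    for s0 in SIG:
        for w in legal(s0):
            for s1 in allups(s0):
                for w2 in legal(s1):
                    if w2!=w and canp(w,w2) not in PAIRS: continue
                    out.setdefault(canp(w,w2),[]).append((s0,w,s1,w2))
    return out
if __name__=='__main__':
    fin=sys.argv[1]; N2=int(sys.argv[2]); anc=sys.argv[3]; part,np_=int(sys.argv[4]),int(sys.argv[5])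
    PAIRS=load_pairs(fin)
    # words that can occur
    WS_={canw(x[:12]) for x in PAIRS}|{canw(x[12:]) for x in PAIRS}
    import gen
    anch=[(a,b) for a in ball(1) for b in ball(1)] if anc=='full' else star(2)
    t=time.time(); Qo=QH('x%d'%part,anch,dict(N1=1,N2=N2,N3a=1,N3b=N2)); print('vars',Qo.W.n,'cl',len(Qo.W.cl),time.time()-t,flush=True)
    A={}
    for s0 in SIG:
        for w in legal(s0):
            if canw(w) not in WS_: continue
            for s1 in allups(s0):
                for w2 in legal(s1):
                    if canw(w2) not in WS_: continue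
                    if w2!=w and canp(w,w2) not in PAIRS: continue
                    A.setdefault(canp(w,w2),[]).append((s0,w,s1,w2))
    L=sorted(A); print('anchor classes',len(L),'instances',sum(len(v) for v in A.values()),flush=True)
    n=alive=0
    for i,p in enumerate(L):
        if i%np_!=part: continue
        n+=1; found=None; t1=time.time(); cnt=0
        for (s0,w,s1,w2) in A[p]:
            pp,r,mp=transf(w,w2); e=(pp[:12],pp[12:]); T=lambda v: tuple(mp[c] for c in rot(v,r))
            tgt=tuple(sg(s0,k+1) for k in range(6)); wt=rot(w,1)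
            if any(s1[k]>tgt[k] for k in range(6)): continue
            for c in range(6):
                if c in w or c in w2: continue
                cc=mp[c]
                for m in range(6):
                    ex=((0,m,cc),)
                    if not Qo.q(e,T(w2),T(w2),ex): continue
                    cnt+=1
                    st=(s1,w2); seen={st:None}; q=[st]; ok=False
                    while q and not ok:
                        x=q.pop()
                        for t_ in ups(x[0],tgt):
                            for v in legal(t_):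
                                if c in v or canw(v) not in WS_: continue
                                y=(t_,v)
                                if y in seen: continue
                                if v!=x[1] and canp(x[1],v) not in PAIRS: continue
                                if not Qo.q(e,T(v),T(v),ex): continue
                                if v!=x[1] and not Qo.q(e,T(x[1]),T(v),ex): continue
                                seen[y]=x; q.append(y)
                                if t_==tgt and v==wt: ok=True; break
                            if ok: break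
                    if ok:
                        path=[]; y=(tgt,wt)
                        while y: path.append(y); y=seen[y]
                        found=(s0,w,c,m,path[::-1]); break
                if found: break
            if found: break
        Qo.memo={}
        if found:
            alive+=1; s0,w,c,m,path=found
            print(''.join(map(str,p[:12])),''.join(map(str,p[12:])),'ALIVE silent',c,'m',m,''.join(map(str,s0))+':'+''.join(map(str,w))+' | '+' '.join(''.join(map(str,a))+':'+''.join(map(str,b)) for a,b in path),Qo.n,round(time.time()-t1,1),flush=True)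
        else: print(''.join(map(str,p[:12])),''.join(map(str,p[12:])),'DEAD',cnt,Qo.n,round(time.time()-t1,1),flush=True)
    print('alive',alive,'of',n)


== file notes/H519/ws/static.py ==
from wsol import *
from full2 import fixword
import pickle,sys,time
z=(0,0)
def exact_facts(W,w):
    ex=[]
    for m in range(6):
        p=DIRS[m]; i,o=w[m]
        ins=set(W.inside((m+3)%6))
        for q in range(W.N):
            c=i if q in ins else o
            ex.append((W.K(p,c,q),))
            for d in range(6):
                if d!=c: ex.append((-W.K(p,d,q),))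
    return ex
if __name__=='__main__':
    R=pickle.load(open('orbits.pkl','rb'))
    al={}
    for p in range(4): al.update(pickle.load(open('full_1_1.%d.pkl'%p,'rb')))
    for (RA,RM) in ((1,1),(2,2),(3,2)):
        t=time.time(); W=WS(RA=RA,RM=RM,J=1); W.cl+=[(W.v[('T',z,c)],) for c in range(6)]
        out=[]
        for w in R:
            if al.get(w) is None: continue
            r=W.solve(fixword(W,'+',w)+fixword(W,'-',w)+exact_facts(W,w),tl=600)
            if r: out.append((w,r))
        print(RA,RM,len(out),'of',sum(1 for w in R if al.get(w) is not None),time.time()-t,W.n,len(W.cl))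
        from collections import Counter
        print(Counter(len(set(c for p in w for c in p)) for w,r in out), [w for w,r in out if r=='TO'])
        if RA==2: pickle.dump([w for w,r in out],open('alive_static.pkl','wb'))


== file notes/H519/ws/path.py ==
import sys,itertools
def load(fn):
    S=set()
    for ln in open(fn):
        a,b=ln.split()
        for i in range(6): S.add((a[i:]+a[:i],b[i:]+b[:i]))
    return S
import glob
def run(E,E0,verbose=True):
    words=set(a for a,b in E)|set(b for a,b in E)
    succ={w:sorted(b for a,b in E if a==w) for w in words}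
    # state: (h, P) P_j=1 if + occurred at V_j at some earlier time (or now). require h_j='-' => P_{j+3}=0
    def upd(h,P):
        P=tuple(int(P[j] or h[j]=='+') for j in range(6))
        if any(h[j]=='-' and P[(j+3)%6] for j in range(6)): return None
        return P
    starts=set(b for a,b in E0)
    out={}
    for s in starts:
        P=upd(s,(0,)*6)
        if P is None: continue
        seen={(s,P):None}; st=[(s,P)]
        while st:
            x=st.pop()
            for b in succ.get(x[0],[]):
                P2=upd(b,x[1])
                if P2 is None: continue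
                y=(b,P2)
                if y not in seen: seen[y]=x; st.append(y)
        out[s]=seen
    # closed: graph on words: start s -> end e (reachable) -> E0 next start
    nxt={}
    for s,seen in out.items():
        ends=set(h for h,P in seen)
        nxt[s]=set(b for a,b in E0 if a in ends)
    # find cycles: words in a strongly connected component
    reach={}
    def rs(s):
        r=set(); st=[s]
        while st:
            x=st.pop()
            for y in nxt.get(x,()):
                if y not in r: r.add(y); st.append(y)
        return r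
    cyc=[s for s in nxt if s in rs(s)]
    return out,nxt,cyc
if __name__=='__main__':
    E=set()
    for f in glob.glob(sys.argv[1]+'.*'): E|=load(f)
    E0=load(sys.argv[2])
    out,nxt,cyc=run(E,E0)
    print('E',len(E),'E0',len(E0),'cyc',sorted(cyc))
    for s in sorted(cyc):
        print(s,'ends',sorted(set(h for h,P in out[s])&set(a for a,b in E0)),'next',sorted(nxt[s]))


== file notes/H519/ws/dumpcnf.py ==
from star import *
import sys
def dump(W,fn):
    with open(fn+'.cnf','w') as f:
        f.write('p cnf %d %d\n'%(W.n,len(W.cl)))
        for c in W.cl: f.write(' '.join(map(str,c))+' 0\n')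
    with open(fn+'.map','w') as f:
        for (j,s) in W.inf:
            for m in range(6):
                for c in range(6):
                    f.write('I %d %d %d %d %d\n'%(j,s,m,c,W.v[('I',(j,s),W.z,m,c)]))
                    f.write('O %d %d %d %d %d\n'%(j,s,m,c,W.v[('O',(j,s),W.z,m,c)]))
if __name__=='__main__':
    mode,fn,kw=sys.argv[1],sys.argv[2],eval(sys.argv[3])
    anch=star(2) if mode=='star' else [(a,b) for a in ball(1) for b in ball(1)]
    W=mkS(anch,2,[(0,1),(0,-1),(1,1),(1,-1)],kw)
    if len(sys.argv)>4:
        for x in eval(sys.argv[4]): W.cl+=Afacts(W,[x])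
    dump(W,fn); print(fn,W.n,len(W.cl))


== file notes/H519/ws/gen.py ==
import itertools,sys,time
from functools import lru_cache
def relab(w):
    m={};r=[]
    for c in w:
        if c not in m: m[c]=len(m)
        r.append(m[c])
    return tuple(r)
def rot(w,r): r%=6; return w[2*r:]+w[:2*r]
@lru_cache(None)
def canw(w): return min(relab(rot(w,r)) for r in range(6))
@lru_cache(None)
def canp(a,b):
    best=None
    for r in range(6):
        x=relab(rot(a,r)+rot(b,r))
        if best is None or x<best: best=x
    return best
def load_alive(fn='/home/model/p32/ws/efull.txt'):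
    S=set()
    f=open(fn); f.readline()
    for ln in f: S.add(tuple(int(c) for c in ln.split()[0]))
    return S
def load_pairs(fn):
    P=set()
    for ln in open(fn):
        a,b=ln.split()[:2]; P.add(canp(tuple(map(int,a)),tuple(map(int,b))))
    return P
ALIVE=load_alive()
def sg(s,k):
    q,r=divmod(k,6); return s[r]+6*q
def norm(s):
    q=s[0]//6; return tuple(x-6*q for x in s)
@lru_cache(None)
def legalN(s):
    near=[];far=[]
    for m in range(6):
        near.append([c%6 for c in range(sg(s,m-1)+1,sg(s,m+2))]); far.append([c%6 for c in range(sg(s,m+2)+1,sg(s,m+5))])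
        if not near[-1] or not far[-1]: return ()
    out=[]
    def rec(m,w):
        if m==6:
            if w[10] in w[:2] or w[11] in w[:2]: return
            if canw(w) in ALIVE: out.append(w)
            return
        for x in near[m]:
            if m and (x==w[-1] or x==w[-2]): continue
            for y in far[m]:
                if x==y or (m and (y==w[-1] or y==w[-2])): continue
                rec(m+1,w+(x,y))
    rec(0,())
    return tuple(out)
def legal(s): return legalN(norm(s))
SIG=[]
def _rec(s):
    if len(s)==6: SIG.append(tuple(s)); return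
    for v in range(s[-1] if s else 0, 7 if s else 1): _rec(s+[v])
_rec([])
@lru_cache(None)
def ups(s,t):  # all sigma' with s<=sigma'<=min(shift s, t)
    rg=[range(s[k],min(sg(s,k+1),t[k])+1) for k in range(6)]
    return tuple(itertools.product(*rg))
def allups(s):
    rg=[range(s[k],sg(s,k+1)+1) for k in range(6)]
    return itertools.product(*rg)


== file notes/H519/ws/elimns.cpp ==
// anchored elimination in the general geometry. usage: elim base(.cnf,.map) pairsfile Mlist mode(part nparts) out
#include <bits/stdc++.h>
#include @Q/home/model/p32/satd/mini.h@Q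
using namespace std;
typedef array<int,12> W;
static W rot(const W&w,int r){ W v; for(int m=0;m<6;m++){ v[2*m]=w[2*((m+r)%6)]; v[2*m+1]=w[2*((m+r)%6)+1]; } return v; }
static uint64_t key(const W&w){ uint64_t x=0; for(int i=0;i<12;i++) x=x*6+w[i]; return x; }
static W relab(const W&w){ int p[6]; for(int i=0;i<6;i++)p[i]=-1; int n=0; W v; for(int i=0;i<12;i++){ if(p[w[i]]<0)p[w[i]]=n++; v[i]=p[w[i]]; } return v; }
static W canw(const W&w){ W b=relab(w); for(int r=1;r<6;r++){ W x=relab(rot(w,r)); if(x<b)b=x; } return b; }
static pair<W,W> canp(const W&a,const W&b,int*br=0,int*bp=0){ pair<W,W> best; bool f=true; for(int r=0;r<6;r++){ W x=rot(a,r),y=rot(b,r); int p[6]; for(int i=0;i<6;i++)p[i]=-1; int n=0; W u,v; for(int i=0;i<12;i++){ if(p[x[i]]<0)p[x[i]]=n++; u[i]=p[x[i]]; } for(int i=0;i<12;i++){ if(p[y[i]]<0)p[y[i]]=n++; v[i]=p[y[i]]; } auto q=make_pair(u,v); if(f||q<best){best=q;f=false; if(br){ *br=r; for(int i=0;i<6;i++) if(p[i]<0) p[i]=n++; memcpy(bp,p,sizeof p);} } } return best; }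
struct PH{ size_t operator()(const pair<uint64_t,uint64_t>&p)const{ return p.first*1000003ull^p.second*0x9E3779B97F4A7C15ull; } };
set<W> ALIVE;
unordered_map<pair<uint64_t,uint64_t>,int,PH> pc; map<pair<W,W>,int> cls; vector<pair<W,W>> clsv;
unordered_map<uint64_t,char> aw;
static bool alive(const W&w){ uint64_t k=key(w); auto it=aw.find(k); if(it!=aw.end()) return it->second; bool r=ALIVE.count(canw(w)); aw[k]=r; return r; }
static int pclass(const W&a,const W&b){ auto k=make_pair(key(a),key(b)); auto it=pc.find(k); if(it!=pc.end()) return it->second; auto c=canp(a,b); auto jt=cls.find(c); int r=jt==cls.end()?-1:jt->second; pc[k]=r; return r; }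
struct G{ int M; array<int,6> s; array<int,6> x; bool operator<(const G&o)const{ return tie(M,s,x)<tie(o.M,o.s,o.x);} bool operator==(const G&o)const{return M==o.M&&s==o.s&&x==o.x;} };
static int sg(const G&g,int k){ int q=k>=0?k/6:-((5-k)/6); return g.s[k-6*q]+g.M*q; }
static int md(int x,int M){ return ((x%M)+M)%M; }
struct GH{ size_t operator()(const G&g)const{ uint64_t h=g.M; for(int i=0;i<6;i++) h=h*31+g.s[i]+7; for(int i=0;i<6;i++) h=h*31+g.x[i]+7; return h; } };
unordered_map<G,vector<W>,GH> LG;
static const vector<W>& legal(G g){
  if(g.M>1){ int q=g.s[0]>=0?g.s[0]/g.M:-((g.M-1-g.s[0])/g.M); for(int i=0;i<6;i++) g.s[i]-=g.M*q; } else g.s.fill(0);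
  for(int c=g.M;c<6;c++) g.x[c]=md(g.x[c],6);
  auto it=LG.find(g); if(it!=LG.end()) return it->second; if(g.M>1){ bool wide=false; for(int k=0;k<6;k++) if(sg(g,k)==sg(g,k+3)) wide=true; if(wide) return LG[g]=vector<W>(); }
  vector<W> out; int near[6][6],nn[6]; bool ok=true;
  for(int m=0;m<6;m++){ nn[m]=0; if(g.M>1) for(int c=sg(g,m-1)+1;c<sg(g,m+2);c++) near[m][nn[m]++]=md(c,g.M); for(int c=g.M;c<6;c++){ int d=md(g.x[c]-(m-1),6); if(d<3) near[m][nn[m]++]=c; } if(!nn[m]) ok=false; }
  if(ok){ W w; function<void(int)> rec=[&](int m){ if(m==6){ for(int a=0;a<2;a++)for(int b=0;b<2;b++) if(w[10+a]==w[b]) return; if(alive(w)) out.push_back(w); return; }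
    for(int i=0;i<nn[m];i++){ int x=near[m][i]; for(int j=0;j<nn[(m+3)%6];j++){ int y=near[(m+3)%6][j]; if(x==y) continue; if(m&&(x==w[2*m-2]||x==w[2*m-1]||y==w[2*m-2]||y==w[2*m-1])) continue; w[2*m]=x;w[2*m+1]=y; rec(m+1);} } }; rec(0); }
  return LG[g]=out; }
static void steps(const G&g,const G&tgt,vector<G>&out){ out.clear(); G t=g; function<void(int)> rec=[&](int k){ if(k==12){ out.push_back(t); return; } if(k<6){ if(g.M==1){ rec(k+1); return; } int hi=min(sg(g,k+1),tgt.s[k]); for(int v=g.s[k];v<=hi;v++){ t.s[k]=v; rec(k+1);} t.s[k]=g.s[k]; return; } int c=k-6; if(c<g.M){ rec(k+1); return; } t.x[c]=g.x[c]; rec(k+1); if(g.x[c]-1>=tgt.x[c]){ t.x[c]=g.x[c]-1; rec(k+1); t.x[c]=g.x[c]; } }; rec(0); }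
struct Tier{ Solver S; int VI[2][2][6][6],VO[2][2][6][6]; vector<Lit> extra; unordered_map<pair<uint64_t,uint64_t>,char,PH> memo; long nq=0;
 void load(const string&base){ { FILE*f=fopen((base+@Q.cnf@Q).c_str(),@Qr@Q); static char buf[1<<20]; int n,m; vector<Lit> c; while(fgets(buf,sizeof buf,f)){ if(buf[0]=='p'){ sscanf(buf,@Qp cnf %d %d@Q,&n,&m); S.newvars(n); continue;} char*p=buf; c.clear(); while(1){ int x=strtol(p,&p,10); if(!x) break; c.push_back(mk(x)); } S.add(c);} fclose(f); }
  { ifstream f(base+@Q.map@Q); string t; int j,s,m,c,v; while(f>>t){ if(t==@QI@Q||t==@QO@Q){ f>>j>>s>>m>>c>>v; if(t==@QI@Q) VI[j][s>0][m][c]=v; else VO[j][s>0][m][c]=v; } else { string l; getline(f,l); } } } }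
 void lits(int j,int s,const W&w,vector<Lit>&a){ for(int m=0;m<6;m++){ a.push_back(mk(VI[j][s][m][w[2*m]])); a.push_back(mk(VO[j][s][m][w[2*m+1]])); } }
 bool q(const W&EA,const W&EB,const W&u,const W&v){ auto k=make_pair(key(u),key(v)); auto it=memo.find(k); if(it!=memo.end()) return it->second; nq++; vector<Lit> a=extra; lits(0,0,EA,a); lits(0,1,EB,a); lits(1,0,u,a); lits(1,1,v,a); int r=S.solve(a,-1); return memo[k]=(r>=0); }
 bool known_bad(const W&u,const W&v){ auto it=memo.find(make_pair(key(u),key(v))); return it!=memo.end()&&!it->second; } };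
Tier S1,S2;
W EA,EB;
static bool q1(const W&u,const W&v){ return S1.q(EA,EB,u,v)&&!S2.known_bad(u,v); }
int main(int argc,char**argv){
  string base=argv[1]; ifstream pf(argv[2]); string Ms=argv[3]; string mode=argv[4]; int part=atoi(argv[5]),np=atoi(argv[6]); ofstream out(string(argv[7])+@Q.@Q+argv[5]);
  bool constm=(mode==@Qconst@Q); bool pairq=(mode==@Qpair@Q||mode==@Qconstp@Q);
  if(mode==@Qconstp@Q) constm=true;
  string base2=base.substr(base.find(',')+1), base1=base.substr(0,base.find(',')); S1.load(base1); S2.load(base2);
  auto dec=[&](const string&s){ W w; for(int i=0;i<12;i++) w[i]=s[i]-'0'; return w; };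
  string line,a,b; set<W> deadw; if(argc>8){ ifstream f(argv[8]); while(f>>a) deadw.insert(dec(a)); }
  while(getline(pf,line)){ stringstream ss(line); ss>>a>>b; W u=dec(a),v=dec(b); if(deadw.count(canw(u))||deadw.count(canw(v))) continue; auto c=canp(u,v); if(!cls.count(c)){ cls[c]=clsv.size(); clsv.push_back(c);} ALIVE.insert(canw(u)); ALIVE.insert(canw(v)); }
  // anchors
  struct Inst{ G g0; W w; G g1; W w2; };
  map<pair<W,W>,vector<Inst>> AN; size_t ni=0;
  for(char ch:Ms){ int M=ch-'0'; vector<G> cfg; G g; g.M=M; g.x.fill(0); g.s.fill(0);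
    function<void(int)> rec=[&](int k){ if(k==6){ function<void(int)> r2=[&](int c){ if(c==6){ cfg.push_back(g); return; } int lo=(c>M)?g.x[c-1]:0; for(int v=lo;v<6;v++){ g.x[c]=v; r2(c+1);} }; r2(M); return; } if(k==0||M==1){ g.s[k]=0; rec(M==1?6:1); return; } for(int v=g.s[k-1];v<=M;v++){ g.s[k]=v; rec(k+1);} }; rec(0);
    for(auto&g0:cfg){ auto L0=legal(g0); if(L0.empty()) continue; G tg=g0; for(int k=0;k<6;k++) tg.s[k]=sg(g0,k+1); if(M==1) tg.s=g0.s; for(int c=M;c<6;c++) tg.x[c]=g0.x[c]-1;
      if(constm){ for(auto&w:L0){ AN[canp(w,w)].push_back({g0,w,g0,w}); ni++; } }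
      else { vector<G> nx; steps(g0,tg,nx); for(auto&w:L0) for(auto&t:nx){ auto L1=legal(t); for(auto&v:L1) if(!(v==w)){ int c=pclass(w,v); if(c>=0){ AN[clsv[c]].push_back({g0,w,t,v}); ni++; } } } } } }
  if(part==0) fprintf(stderr,@Qpairs %zu words %zu anchors %zu instances %zu\n@Q,clsv.size(),ALIVE.size(),AN.size(),ni);
  int idx=0,n=0,k=0; auto t0=chrono::steady_clock::now();
  for(auto&kv:AN){ if((idx++)%np!=part) continue; n++; S1.memo.clear(); S2.memo.clear(); EA=kv.first.first; EB=kv.first.second; bool found=false; size_t cnt=0; string ps;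
    for(auto&I:kv.second){ cnt++; int r,mp[6]; canp(I.w,I.w2,&r,mp); auto T=[&](const W&v){ W x=rot(v,r); for(int i=0;i<12;i++) x[i]=mp[x[i]]; return x; };
      G tg=I.g0; int M=I.g0.M; if(M>1) for(int q=0;q<6;q++) tg.s[q]=sg(I.g0,q+1); for(int c=M;c<6;c++) tg.x[c]=I.g0.x[c]-1; W wt=rot(I.w,1);
      bool again=true; auto s0=make_pair(I.g1,I.w2); 
      while(again&&!found){ again=false; if(!q1(T(I.w2),T(I.w2))||!q1(T(wt),T(wt))) break;
        auto um=[&](const W&v){ int r=0; for(int k=0;k<12;k++) r|=1<<v[k]; return r; };
        typedef tuple<G,W,int> TS; set<TS> seen; deque<TS> st; TS t0_(s0.first,s0.second,um(I.w)|um(I.w2)); seen.insert(t0_); st.push_back(t0_); vector<G> nx; map<TS,TS> par; bool hit=(s0.first==tg&&s0.second==wt&&get<2>(t0_)==63); TS last=t0_;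
        while(!st.empty()&&!hit){ TS x=st.front(); st.pop_front(); steps(get<0>(x),tg,nx); for(auto&g:nx){ for(auto&v:legal(g)){ TS y(g,v,get<2>(x)|um(v)); if(seen.count(y)) continue; bool same=(v==get<1>(x)); if(!same&&pclass(get<1>(x),v)<0) continue; W tv=T(v); if(!same&&!q1(tv,tv)) continue; if(!same&&pairq&&!q1(T(get<1>(x)),tv)) continue; seen.insert(y); par[y]=x; st.push_back(y); if(g==tg&&v==wt&&get<2>(y)==63){ hit=true; last=y; break; } } if(hit) break; } }
        if(!hit) break;
        // verify with the full engine
        vector<pair<G,W>> P; { TS z=last; while(true){ P.push_back({get<0>(z),get<1>(z)}); if(z==t0_) break; z=par[z]; } } reverse(P.begin(),P.end()); bool ok=true;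
        for(auto&y:P){ W tv=T(y.second); if(!S2.q(EA,EB,tv,tv)) ok=false; }
        if(ok&&pairq) for(size_t i=1;i<P.size();i++) if(!(P[i].second==P[i-1].second)) if(!S2.q(EA,EB,T(P[i-1].second),T(P[i].second))) ok=false;
        if(ok){ found=true; string s; for(auto&z:P){ string q; for(int i=0;i<6;i++){ q+=to_string(z.first.s[i]); } q+=@Q/@Q; for(int c=M;c<6;c++) q+=to_string(md(z.first.x[c],6)); q+=@Q:@Q; for(int i=0;i<12;i++) q+=char('0'+z.second[i]); s+=q+@Q @Q; } ps=@QM@Q+to_string(M)+@Q @Q+s; }
        else again=true; }
      if(found) break; }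
    if(found) k++;
    for(int i=0;i<12;i++) out<<EA[i]; out<<@Q @Q; for(int i=0;i<12;i++) out<<EB[i]; out<<(found?@Q PATH @Q+ps:@Q DEAD@Q)<<@Q\n@Q; out.flush();
    if(n%50==0||constm) fprintf(stderr,@Qpart %d n %d alive %d inst %zu/%zu memo %zu queries %ld t %.0f\n@Q,part,n,k,cnt,kv.second.size(),S2.memo.size(),S1.nq,chrono::duration<double>(chrono::steady_clock::now()-t0).count());
  }
  fprintf(stderr,@Qpart %d done %d alive %d queries %ld t %.0f\n@Q,part,n,k,S2.nq,chrono::duration<double>(chrono::steady_clock::now()-t0).count());
}


== file notes/H519/farmR/run.py ==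
#!/usr/bin/env python3
# run.py tag tasksfile K N sym tt deadany deadu deadc : runs tasks with index%N==K on 4 cores, results into table h519_res
import sys,os,subprocess,time
from concurrent.futures import ThreadPoolExecutor
tag,tasks,K,N=sys.argv[1],sys.argv[2],int(sys.argv[3]),int(sys.argv[4]); fl=sys.argv[5:]
os.chdir(os.path.dirname(os.path.abspath(__file__)))
for b in ('estar','efull2'):
    if not os.path.exists(b+'.cnf'):
        subprocess.run('xz -dc %s.cnf.xz > %s.cnf.tmp$$ && mv %s.cnf.tmp$$ %s.cnf'%(b,b,b,b),shell=True,check=True)
if not os.access('./elimR',os.X_OK): os.chmod('./elimR',0o755)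
T=[l.split() for i,l in enumerate(open(tasks)) if i%N==K and l.strip()]
def one(t):
    i,p=t; nm='t_%s_%d_%d'%(tag,K,i); open(nm+'.a','w').write(' '.join(p[:5])+'\n')
    t0=time.time()
    try: subprocess.run([os.environ.get('EXE','./elimR'),'estar,efull2','p38_2_b.txt',nm+'.a','0','1',nm,'g1.allow','sa2.txt','0',p[5]]+fl,stderr=subprocess.DEVNULL,timeout=1500)
    except Exception as e: pass
    try: r=open(nm+'.0').read().split()
    except Exception: r=[]
    st=r[5] if len(r)>5 else 'FAIL'; path=' '.join(r[6:])
    q=@QINSERT INTO h519_res(tag,typ,mode,status,path) VALUES ('%s','%s','%s','%s','%s')@Q%(tag,' '.join(p[:5]),p[5],st,path+' t=%d'%(time.time()-t0))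
    for k in range(4):
        x=subprocess.run(['team-sql','sql',q],capture_output=True,text=True)
        if 'INSERT' in x.stdout: break
        time.sleep(3)
    return st
with ThreadPoolExecutor(4) as ex: R=list(ex.map(one,list(enumerate(T))))
print(tag,K,N,'done',len(R),'DEAD',R.count('DEAD'),'PATH',R.count('PATH'),'FAIL',R.count('FAIL'))


== file notes/H519/farmR/split.py ==
# split.py tag modeprefix out : for PATH results of tag produce T-split tasks
import subprocess,json,itertools,sys
tag,out=sys.argv[1],sys.argv[2]
r=subprocess.run(['team-sql','@Djson',@QSELECT DISTINCT typ,mode FROM h519_res WHERE tag='%s' AND status<>'DEAD'@Q%tag],capture_output=True,text=True)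
rows=json.loads(r.stdout)['results'][0]['rows']
n=0
with open(out,'w') as o:
    for typ,mode in rows:
        p=typ.split(); ws=p[:4]
        for m in range(6):
            base={w[2*m] for w in ws}|{w[2*m+1] for w in ws}; base={int(x) for x in base}
            ext=[e for e in range(6) if e not in base]; k=4-len(base)
            if k<=0: o.write(typ+' u0\n'); n+=1; continue
            for S in itertools.combinations(ext,k):
                o.write(typ+' '+mode+','+''.join('T%d%d'%(m,e) for e in S)+'\n'); n+=1
print(len(rows),'survivors',n,'tasks')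


== file notes/H519/farmR/post.py ==
import subprocess,sys
tag,tasks,N=sys.argv[1],sys.argv[2],int(sys.argv[3]); fl=' '.join(sys.argv[4:])
rows=[]
for K in range(N):
    cmd=@Qsleep $(( RANDOM % 10 )); mkdir -p /tmp/h519V && git -C /workdir/vale/outputs/live fetch -q origin helper519:refs/tmp/h519R$$ && git -C /workdir/vale/outputs/live archive refs/tmp/h519R$$ notes/H519/farmR | tar x -C /tmp/h519V @Dstrip-components=3 && cd /tmp/h519V && EXE=./elimT3 timeout 2300 python3 run.py @Q+@Q%s %s %d %d %s@Q%(tag,tasks,K,N,fl)
    rows.append(@Q(current_seat(), $q$@Q+cmd+@Q$q$, 'P032 O6 (helper519) closed path elimination, 4 cores, 4 GB, about 5 min; result goes to h519_res by itself', 5)@Q)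
for i in range(0,len(rows),60):
    q=@QINSERT INTO p032_jobs(poster,cmd,needs,prio) VALUES @Q+@Q,@Q.join(rows[i:i+60])
    r=subprocess.run(['team-sql','sql',q],capture_output=True,text=True); print(r.stdout[-200:],r.stderr[-200:])


== file notes/H519/farmR/elimR.cpp ==
// local-structured elimination, case S: states = gap words and accumulating symmetric pairs
#include <bits/stdc++.h>
#include @Q/home/model/p32/satd/mini.h@Q
using namespace std;
typedef array<int,12> W;
static W rot(const W&w,int r){ r=((r%6)+6)%6; W v; for(int m=0;m<6;m++){ v[2*m]=w[2*((m+r)%6)]; v[2*m+1]=w[2*((m+r)%6)+1]; } return v; }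
static uint64_t key(const W&w){ uint64_t x=0; for(int i=0;i<12;i++) x=x*6+w[i]; return x; }
static W relab(const W&w,int*p){ for(int i=0;i<6;i++)p[i]=-1; int n=0; W v; for(int i=0;i<12;i++){ if(p[w[i]]<0)p[w[i]]=n++; v[i]=p[w[i]]; } for(int i=0;i<6;i++) if(p[i]<0) p[i]=n++; return v; }
static W canw(const W&w,int*br=0,int*bp=0){ W b; bool f=true; int p[6]; for(int r=0;r<6;r++){ W x=relab(rot(w,r),p); if(f||x<b){b=x;f=false; if(br){*br=r; memcpy(bp,p,sizeof p);} } } return b; }
struct X2{ W a,b; bool pair; bool operator<(const X2&o)const{ return tie(pair,a,b)<tie(o.pair,o.a,o.b);} bool operator==(const X2&o)const{ return pair==o.pair&&a==o.a&&b==o.b; } };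
static X2 gapS(const W&a){ return {a,a,false}; }
static X2 pairS(const W&a,const W&b){ return a<b?X2{a,b,true}:X2{b,a,true}; }
struct Tier{ Solver S; int VI[2][2][6][6],VO[2][2][6][6],DI[2][2][6][6],DO[2][2][6][6],VT[2][6][6],VW[6],VH[2][6][6],VHA[2][6],VA[2][2],VC[2],VU[2],VM[2][6]; int u1=0,c1=0; vector<Lit> extra; long nq=0; map<tuple<X2,X2,int>,char> memo;
 void load(const string&base){ { FILE*f=fopen((base+@Q.cnf@Q).c_str(),@Qr@Q); static char buf[1<<20]; int n,m; vector<Lit> c; while(fgets(buf,sizeof buf,f)){ if(buf[0]=='p'){ sscanf(buf,@Qp cnf %d %d@Q,&n,&m); S.newvars(n); continue;} char*p=buf; c.clear(); while(1){ int x=strtol(p,&p,10); if(!x) break; c.push_back(mk(x)); } S.add(c);} fclose(f); }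
  { ifstream f(base+@Q.map@Q); string t; int j,s,m,c,v; while(f>>t){ if(t==@QI@Q||t==@QO@Q||t==@QDI@Q||t==@QDO@Q){ f>>j>>s>>m>>c>>v; (t==@QI@Q?VI:t==@QO@Q?VO:t==@QDI@Q?DI:DO)[j][s>0][m][c]=v; } else if(t==@Qw@Q){ f>>c>>v; VW[c]=v; } else if(t==@Qh@Q){ f>>j>>m>>c>>v; VH[j][m][c]=v; } else if(t==@QT@Q){ f>>j>>m>>c>>v; VT[j][m][c]=v; } else if(t==@QH@Q){ f>>j>>c>>v; VHA[j][c]=v; } else if(t==@QA@Q){ f>>j>>s>>v; VA[j][s>0]=v; } else if(t==@QC@Q){ f>>j>>v; VC[j]=v; } else if(t==@QU@Q){ f>>j>>v; VU[j]=v; } else if(t==@QM@Q){ f>>j>>m>>v; VM[j][m]=v; } } } }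
 void lw(int j,int s,const W&w,vector<Lit>&a,bool d=false){ for(int m=0;m<6;m++){ a.push_back(mk((d?DI:VI)[j][s][m][w[2*m]])); a.push_back(mk((d?DO:VO)[j][s][m][w[2*m+1]])); } }
 void ls(int j,int s,const X2&x,vector<Lit>&a){ lw(j,s,x.a,a); if(x.pair) lw(j,s,x.b,a,true); else a.push_back(mk(VA[j][s])); }
 // kind 0: generic exact instant in a gap; 1: instant (X;Y); 2: the same with partner
 bool q(const X2&x,const X2&y,int kind,int cc){ auto k=make_tuple(x,y,kind); auto it=memo.find(k); if(it!=memo.end()) return it->second; nq++; vector<Lit> a=extra; ls(1,0,x,a); ls(1,1,y,a);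
   if(kind==0) for(int m=0;m<6;m++) for(int c=0;c<6;c++) if(c!=x.a[2*m]&&c!=x.a[2*m+1]) a.push_back(mk(-VT[1][m][c]));
   if(kind==2||kind==6||kind==7) a.push_back(mk(VHA[1][cc])); if(kind==4||kind==7) a.push_back(mk(VC[1])); if(kind==5||kind==6) a.push_back(mk(VU[1])); if(kind>0&&!(x==y)){ if(u1) a.push_back(mk(VU[1])); if(c1) a.push_back(mk(VC[1])); }
   int r=S.solve(a,-1); return memo[k]=(r>=0); } };
Tier S1,S2;
static string canon3(const W&u,const W&v,int cc){ string best; for(int r=0;r<6;r++){ W x=rot(u,r),y=rot(v,r); int p[6]; for(int i=0;i<6;i++)p[i]=-1; int k=0; string s; for(int i=0;i<12;i++){ if(p[x[i]]<0)p[x[i]]=k++; s+=char('0'+p[x[i]]); } s+=' '; for(int i=0;i<12;i++){ if(p[y[i]]<0)p[y[i]]=k++; s+=char('0'+p[y[i]]); } if(p[cc]<0) p[cc]=5; s+=' '; s+=char('0'+p[cc]); if(best.empty()||s<best) best=s; } return best; }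
set<string> ALLOW,SYM; set<string> GAPW;
map<W,vector<W>> SUC; unordered_map<uint64_t,vector<W>> sucmemo;
static const vector<W>& succ(const W&w){ uint64_t k=key(w); auto it=sucmemo.find(k); if(it!=sucmemo.end()) return it->second; int r,p[6]; W c=canw(w,&r,p); int inv[6]; for(int i=0;i<6;i++) inv[p[i]]=i; vector<W> o; auto jt=SUC.find(c); if(jt!=SUC.end()) for(auto&s:jt->second){ W t; for(int i=0;i<12;i++) t[i]=inv[s[i]]; o.push_back(rot(t,-r)); } return sucmemo[k]=o; }
static int win1(const W&w,int c){ int S=63; bool u=false; for(int m=0;m<6;m++){ int A=0; if(w[2*m]==c) A=(1<<((m+5)%6))|(1<<m)|(1<<((m+1)%6)); else if(w[2*m+1]==c) A=(1<<((m+2)%6))|(1<<((m+3)%6))|(1<<((m+4)%6)); else continue; u=true; S&=A; } return u?S:63; }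
static int win(const X2&x,int c){ return x.pair?(win1(x.a,c)&win1(x.b,c)):win1(x.a,c); }
static int filt(int mask,int wn){ int r=0; for(int x=0;x<6;x++){ if(mask>>x&1) if(wn>>x&1) r|=1<<x; if(mask>>(6+x)&1) if(wn>>((x+5)%6)&1) r|=1<<(6+x); } return r; }
static int stepm(int mask){ return mask|((mask&63)<<6); }
static map<pair<uint64_t,int>,vector<W>> cm_; 
static const vector<W>& cand(const W&w,int cc){ auto k=make_pair(key(w),cc); auto it=cm_.find(k); if(it!=cm_.end()) return it->second; vector<W> o; o.push_back(w); for(auto&y:succ(w)){ bool has=false; for(int i=0;i<12;i++) if(y[i]==cc) has=true; if(has||y==w) continue; if(ALLOW.count(canon3(w,y,cc))) o.push_back(y); } sort(o.begin(),o.end()); o.erase(unique(o.begin(),o.end()),o.end()); return cm_[k]=o; }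
static map<pair<uint64_t,int>,vector<W>> sm_;
static const vector<W>& symp(const W&w,int cc){ auto k=make_pair(key(w),cc); auto it=sm_.find(k); if(it!=sm_.end()) return it->second; vector<W> o; for(auto&y:cand(w,cc)) if(!(y==w)&&SYM.count(canon3(w,y,cc))) o.push_back(y); return sm_[k]=o; }
static string cant3(const W&A,const X2&y,int c){ string best; for(int sw=0;sw<2;sw++) for(int r=0;r<6;r++){ W x=rot(A,r),u=rot(sw?y.b:y.a,r),v=rot(sw?y.a:y.b,r); int p[6]; for(int i=0;i<6;i++)p[i]=-1; int k=0; string t; for(const W*w:{&x,&u,&v}){ for(int i=0;i<12;i++){ if(p[(*w)[i]]<0)p[(*w)[i]]=k++; t+=char('0'+p[(*w)[i]]); } t+=' '; } if(p[c]<0) p[c]=5; t+=char('0'+p[c]); if(best.empty()||t<best) best=t; } return best; }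
static string can4(const X2&L,const X2&R,int c){ string best; for(int s1=0;s1<(L.pair?2:1);s1++) for(int s2=0;s2<(R.pair?2:1);s2++) for(int r=0;r<6;r++){ W ws[4]={rot(s1?L.b:L.a,r),rot(s1?L.a:L.b,r),rot(s2?R.b:R.a,r),rot(s2?R.a:R.b,r)}; int p[6]; for(int i=0;i<6;i++)p[i]=-1; int k=0; string t; for(auto&w:ws){ for(int i=0;i<12;i++){ if(p[w[i]]<0)p[w[i]]=k++; t+=char('0'+p[w[i]]); } t+=' '; } if(p[c]<0) p[c]=5; t+=char('0'+p[c]); if(best.empty()||t<best) best=t; } return best; }
set<string> DEADT,DEADU,DEADC; // dead types (any), dead when unclean, dead when clean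
set<string> TM,TP; bool useT=false; set<string> SC,SU,SI,TT; bool useS=true;
static map<pair<X2,X2>,int> ts_; // 0 dead, 1 only clean, 2 only unclean, 3 both
static map<X2,vector<X2>> xs_;
static const vector<X2>& succX(const X2&x,int cc){ auto it=xs_.find(x); if(it!=xs_.end()) return it->second; vector<W> c=cand(x.a,cc); if(x.pair){ auto&d=cand(x.b,cc); vector<W> e; set_intersection(c.begin(),c.end(),d.begin(),d.end(),back_inserter(e)); c=e; }
  set<X2> o; if(!x.pair) for(auto&v:c) if(!(v==x.a)&&TT.count(canon3(x.a,v,cc))) o.insert(gapS(v)); if(x.pair) for(auto&v:c) if(!useT||TP.count(cant3(v,x,cc))) o.insert(gapS(v)); for(auto&v:c) for(auto&u:symp(v,cc)) if(binary_search(c.begin(),c.end(),u)){ X2 y=pairS(v,u); if(!(y==x)&&(x.pair||!useT||TM.count(cant3(x.a,y,cc)))) o.insert(y); } return xs_[x]=vector<X2>(o.begin(),o.end()); }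
static string str(const W&w){ string s; for(int i=0;i<12;i++) s+=char('0'+w[i]); return s; }
static string str(const X2&x){ return x.pair?(@Q{@Q+str(x.a)+@Q,@Q+str(x.b)+@Q}@Q):str(x.a); }
int main(int argc,char**argv){
  // base1,base2 pairs anchors part np out allow partners side mode
  string base=argv[1]; S1.load(base.substr(0,base.find(','))); S2.load(base.substr(base.find(',')+1));
  ifstream pf(argv[2]); ifstream af(argv[3]); int part=atoi(argv[4]),np=atoi(argv[5]); ofstream out(string(argv[6])+@Q.@Q+argv[4]);
  auto dec=[&](const string&s){ W w; for(int i=0;i<12;i++) w[i]=s[i]-'0'; return w; };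
  string line,a,b; { map<W,set<W>> T; while(getline(pf,line)){ stringstream ss(line); ss>>a>>b; W u=dec(a),v=dec(b); W cu=canw(u); for(int r=0;r<6;r++){ int p[6]; W x=relab(rot(u,r),p); if(!(x==cu)) continue; W y=rot(v,r); for(int i=0;i<12;i++) y[i]=p[y[i]]; int used=0; for(int i=0;i<12;i++) used=max(used,x[i]+1); vector<int> un; for(int c=used;c<6;c++) un.push_back(c); vector<int> pm=un; do{ int q[6]; for(int c=0;c<6;c++) q[c]=c; for(size_t i=0;i<un.size();i++) q[un[i]]=pm[i]; W z; for(int i=0;i<12;i++) z[i]=q[y[i]]; T[cu].insert(z);} while(next_permutation(pm.begin(),pm.end())); } }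
    for(auto&kv:T) SUC[kv.first]=vector<W>(kv.second.begin(),kv.second.end()); }
  { ifstream f(argv[7]); string l; while(getline(f,l)) ALLOW.insert(l); }
  set<string> PA; { ifstream f(argv[8]); string x,y; int cc,mm; while(f>>x>>y>>cc>>mm) PA.insert(canon3(dec(x),dec(y),cc)); }
  int side=atoi(argv[9]); string md=argc>10?argv[10]:@Q@Q; bool c0=md.find(@Qc0@Q)!=string::npos,u0=md.find(@Qu0@Q)!=string::npos; for(Tier*t:{&S1,&S2}){ t->u1=md.find(@Qu1@Q)!=string::npos; t->c1=md.find(@Qc1@Q)!=string::npos; }
  vector<tuple<string,string,string,int>> AN; int c; { ifstream sf(argv[11]); while(getline(sf,line)){ stringstream ss(line); string sg; ss>>a>>b>>c>>sg; SYM.insert(canon3(dec(a),dec(b),c)); SYM.insert(canon3(dec(b),dec(a),c)); if(!sg.empty()){ useS=true; if(sg.find('c')!=string::npos){ SC.insert(canon3(dec(a),dec(b),c)); SC.insert(canon3(dec(b),dec(a),c)); } if(sg.find('u')!=string::npos){ SU.insert(canon3(dec(a),dec(b),c)); SU.insert(canon3(dec(b),dec(a),c)); } if(sg.find('i')!=string::npos){ SI.insert(canon3(dec(a),dec(b),c)); SI.insert(canon3(dec(b),dec(a),c)); } } } }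
  { ifstream tf(argv[12]); while(getline(tf,line)){ stringstream ss(line); ss>>a>>b>>c; TT.insert(canon3(dec(a),dec(b),c)); } fprintf(stderr,@QTT %zu\n@Q,TT.size()); }
  if(argc>13){ ifstream tf(argv[13]); while(getline(tf,line)) DEADT.insert(line); } if(argc>14){ ifstream tf(argv[14]); while(getline(tf,line)) DEADU.insert(line); } if(argc>15){ ifstream tf(argv[15]); while(getline(tf,line)) DEADC.insert(line); }
  fprintf(stderr,@Qdead any %zu unclean %zu clean %zu\n@Q,DEADT.size(),DEADU.size(),DEADC.size());
  if(md.find(@Qenum@Q)!=string::npos){ set<string> seen; string a2; while(getline(af,line)){ stringstream ss(line); ss>>a>>a2>>c; xs_.clear(); X2 X=a==a2?gapS(dec(a)):pairS(dec(a),dec(a2)); for(auto&y:succX(X,c)){ auto t=can4(X,y,c); if(seen.insert(t).second) out<<t<<@Q\n@Q; } } fprintf(stderr,@Qtypes %zu\n@Q,seen.size()); return 0; }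
  vector<tuple<string,string,string,string,int>> AR; { string a2,b2; while(getline(af,line)){ stringstream ss(line); ss>>a>>a2>>b>>b2>>c; AR.push_back({a,a2,b,b2,c}); } }
  
  if(part==0) fprintf(stderr,@Qanchors %zu sym %zu allow %zu\n@Q,AR.size(),SYM.size(),ALLOW.size());
  int idx=0,n=0,al=0; auto t0=chrono::steady_clock::now();
  for(auto&[sa,sa2,sb,sb2,cc]:AR){ if((idx++)%np!=part) continue; n++; xs_.clear(); ts_.clear(); X2 L=sa==sa2?gapS(dec(sa)):pairS(dec(sa),dec(sa2)),R=sb==sb2?gapS(dec(sb)):pairS(dec(sb),dec(sb2));
    for(Tier*t:{&S1,&S2}){ t->memo.clear(); t->nq=0; t->extra.clear(); vector<Lit>&e=t->extra; t->ls(0,0,L,e); t->ls(0,1,R,e); if(c0) e.push_back(mk(t->VC[0])); if(u0) e.push_back(mk(t->VU[0])); for(size_t i=0;i+2<md.size();i++){ if(md[i]=='T') e.push_back(mk(t->VT[0][md[i+1]-'0'][md[i+2]-'0'])); if(md[i]=='N') e.push_back(mk(-t->VT[0][md[i+1]-'0'][md[i+2]-'0'])); } }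
    auto rotX=[&](const X2&x,int r){ return x.pair?pairS(rot(x.a,r),rot(x.b,r)):gapS(rot(x.a,r)); };
     X2 TG=rotX(L,1);
    array<int,6> M0; bool ok=true; for(int d=0;d<6;d++){ if(d==cc){M0[d]=0;continue;} int m0=win(L,d); int mm=m0|(m0<<6); mm=filt(mm,win(R,d)); M0[d]=mm; if(!mm) ok=false; }
    auto G1=[&](const W&w){ return S1.q(gapS(w),gapS(w),0,cc); }; auto G2=[&](const W&w){ return S2.q(gapS(w),gapS(w),0,cc); };
    auto isC=[&](const X2&x){ return !useS||SC.count(canon3(x.a,x.b,cc))>0; }; auto isU=[&](const X2&x){ return !useS||SU.count(canon3(x.a,x.b,cc))>0; }; auto isI=[&](const X2&x){ return SI.count(canon3(x.a,x.b,cc))>0; };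
    auto reg=[&](Tier&t,const X2&x){ if(!x.pair||!useS) return true; for(int k:{4,5}){ if(k==4&&!isC(x)) continue; if(k==5&&!isU(x)) continue; if(t.q(gapS(x.a),x,k,cc)&&t.q(gapS(x.b),x,k,cc)&&t.q(x,gapS(x.a),k,cc)&&t.q(x,gapS(x.b),k,cc)) return true; } if(isI(x)){ if(TT.count(canon3(x.a,x.b,cc))&&t.q(gapS(x.a),gapS(x.b),1,cc)) return true; if(TT.count(canon3(x.b,x.a,cc))&&t.q(gapS(x.b),gapS(x.a),1,cc)) return true; } return false; };
    auto regI=[&](Tier&t,const X2&x){ if(!isI(x)) return false; if(TT.count(canon3(x.a,x.b,cc))&&t.q(gapS(x.a),gapS(x.b),1,cc)) return true; if(TT.count(canon3(x.b,x.a,cc))&&t.q(gapS(x.b),gapS(x.a),1,cc)) return true; return false; };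
    auto badI=[&](const X2&x){ bool any=false; for(int w=0;w<2;w++){ X2 p=w?gapS(x.b):gapS(x.a),r=w?gapS(x.a):gapS(x.b); if(!TT.count(canon3(p.a,r.a,cc))) continue; auto it=S2.memo.find(make_tuple(p,r,1)); if(!(it!=S2.memo.end()&&!it->second)) any=true; } return !any; };
    auto onlyU=[&](const X2&x){ return useS&&x.pair&&!isC(x)&&!isI(x); };
    auto GX1=[&](const X2&x){ return G1(x.a)&&(!x.pair||G1(x.b))&&reg(S1,x); }; auto GX2=[&](const X2&x){ return G2(x.a)&&(!x.pair||G2(x.b))&&reg(S2,x); };
    auto badR=[&](const X2&x){ if(!x.pair||!useS) return false; for(int k:{4,5}){ if(k==4&&!isC(x)) continue; if(k==5&&!isU(x)) continue; bool b=false; for(int w=0;w<4;w++){ X2 p=(w&1)?gapS(x.b):gapS(x.a); auto it=S2.memo.find((w&2)?make_tuple(x,p,k):make_tuple(p,x,k)); if(it!=S2.memo.end()&&!it->second) b=true; } if(!b) return false; } if(isI(x)){ for(int w=0;w<2;w++){ X2 p=w?gapS(x.b):gapS(x.a),r=w?gapS(x.a):gapS(x.b); if(!TT.count(canon3(p.a,r.a,cc))) continue; auto it=S2.memo.find(make_tuple(p,r,1)); if(!(it!=S2.memo.end()&&!it->second)) return false; } } return true; };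
    auto bad2=[&](const X2&x,const X2&y,int k){ auto it=S2.memo.find(make_tuple(x,y,k)); return it!=S2.memo.end()&&!it->second; };
    auto tstat=[&](const X2&v,const X2&y){ auto k=make_pair(v,y); auto it=ts_.find(k); if(it!=ts_.end()) return it->second; auto t=can4(v,y,cc); int r=3; if(DEADT.count(t)) r=0; else { if(DEADU.count(t)) r&=1; if(DEADC.count(t)) r&=2; } return ts_[k]=r; };
    auto popt=[&](const X2&v){ vector<pair<X2,X2>> o; X2 a=gapS(v.a),b=gapS(v.b); o.push_back({a,a}); if(v.pair){ for(auto&p:vector<pair<X2,X2>>{{b,b},{v,v},{a,v},{b,v},{v,a},{v,b},{a,b},{b,a}}) o.push_back(p); } return o; };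
    bool found=false; string ps; if(md.find(@Qdbg@Q)!=string::npos){ vector<Lit> a1=S1.extra,a2=S2.extra; fprintf(stderr,@Qdbg anchor star %d full %d | ok %d G1R %d G1T %d G2R %d G2T %d\n@Q,S1.S.solve(a1,-1)>=0,S2.S.solve(a2,-1)>=0,ok,GX1(R),GX1(TG),GX2(R),GX2(TG)); }
    if(ok&&GX1(R)&&GX1(TG)&&GX2(R)&&GX2(TG)) while(true){ struct St{ X2 v; array<int,6> M; int par; bool fl; int pk; }; vector<St> S; map<pair<X2,bool>,vector<int>> at; deque<int> q; bool f0=false; { // partner at the anchor itself
          for(int k=0;k<1;k++){} vector<Lit> e1=S1.extra,e2=S2.extra; S1.extra.push_back(mk(S1.VHA[0][cc])); S2.extra.push_back(mk(S2.VHA[0][cc])); vector<Lit> a1=S1.extra,a2=S2.extra; f0=S1.S.solve(a1,-1)>=0&&S2.S.solve(a2,-1)>=0; S1.extra=e1; S2.extra=e2; }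
          S.push_back({R,M0,-1,f0,0}); at[{R,f0}].push_back(0); q.push_back(0); int hit=-1;
          auto isT=[&](const St&s){ if(!(s.v==TG)||!s.fl) return false; for(int d=0;d<6;d++) if(d!=cc){ int mm=stepm(s.M[d]); mm=filt(mm,win(TG,d)); if(!(mm>>6)) return false; } return true; };
          if(isT(S[0])) hit=0;
          auto push=[&](const X2&y,const array<int,6>&N,int i,bool fl,int pk){ for(int j:at[{y,fl}]){ bool le=true; for(int d=0;d<6;d++) if(N[d]&~S[j].M[d]){le=false;break;} if(le) return; } int id=S.size(); S.push_back({y,N,i,fl,pk}); at[{y,fl}].push_back(id); q.push_back(id); if(isT(S[id])) hit=id; };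
          while(!q.empty()&&hit<0){ int i=q.front(); q.pop_front(); X2 v=S[i].v; auto M=S[i].M; bool fl=S[i].fl;
            if(!fl){ // partner inside a gap (word v.a or v.b) or at an interior instant of the minimal region
              bool pg=false; for(auto&pr:popt(v)) if(S1.q(pr.first,pr.second,2,cc)&&!bad2(pr.first,pr.second,2)){ pg=true; break; }
              if(pg){ array<int,6> N=M; for(int d=0;d<6;d++) if(d!=cc) N[d]=filt(stepm(M[d]),win(v,d)); push(v,N,i,true,1); if(hit>=0) break; } }
            { // free moves of iso pair states
              vector<X2> fr; if(v.pair){ if(isI(v)){ fr.push_back(gapS(v.a)); fr.push_back(gapS(v.b)); } } else for(auto&u:symp(v.a,cc)){ X2 y=pairS(v.a,u); if(isI(y)&&regI(S1,y)&&!badI(y)) fr.push_back(y); }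
              for(auto&y:fr){ array<int,6> N; bool good=true; for(int d=0;d<6;d++){ if(d==cc){N[d]=0;continue;} int mm=filt(stepm(M[d]),win(y,d)); if(!mm){good=false;break;} N[d]=mm; } if(!good) continue; if(!G1(y.a)||!G1(y.b)||bad2(gapS(y.a),gapS(y.a),0)||bad2(gapS(y.b),gapS(y.b),0)) continue; push(y,N,i,fl,3); if(hit>=0) break; } if(hit>=0) break; }
            for(auto&y:succX(v,cc)){ array<int,6> N; bool good=true; for(int d=0;d<6;d++){ if(d==cc){N[d]=0;continue;} int mm=filt(stepm(M[d]),win(v,d)); mm=filt(stepm(mm),win(y,d)); if(!mm){good=false;break;} N[d]=mm; } if(!good) continue;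
              if(!GX1(y)) continue; if(bad2(gapS(y.a),gapS(y.a),0)||bad2(gapS(y.b),gapS(y.b),0)||badR(y)) continue; int st=tstat(v,y); if(st==0) continue; int k1=(onlyU(v)||onlyU(y)||st==2)?5:(st==1?4:1),k2=k1==5?6:(k1==4?7:2); if(!S1.q(v,y,k1,cc)||bad2(v,y,k1)) continue; push(y,N,i,fl,0); if(hit>=0) break;
              if(!fl&&S1.q(v,y,k2,cc)&&!bad2(v,y,k2)){ push(y,N,i,true,2); if(hit>=0) break; } } }
          if(hit<0) break;
          vector<int> P; for(int i=hit;i>=0;i=S[i].par) P.push_back(i); reverse(P.begin(),P.end()); bool good=true; for(int i:P) if(!G2(S[i].v.a)||!G2(S[i].v.b)) good=false; for(size_t i=0;i<P.size()&&good;i++) if(S[P[i]].pk!=3&&!GX2(S[P[i]].v)) good=false;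
          if(good) for(size_t i=1;i<P.size();i++){ auto&x=S[P[i-1]],&y=S[P[i]]; if(y.pk==3){ X2 z=x.v.pair?x.v:y.v; if(!x.v.pair&&!regI(S2,z)) good=false; } else if(y.pk==1){ bool g=false; for(auto&pr:popt(x.v)) if(S1.q(pr.first,pr.second,2,cc)&&S2.q(pr.first,pr.second,2,cc)){ g=true; break; } if(!g) good=false; } else { int st=tstat(x.v,y.v); int k1=(onlyU(x.v)||onlyU(y.v)||st==2)?5:(st==1?4:1),k2=k1==5?6:(k1==4?7:2); if(!S2.q(x.v,y.v,k1,cc)) good=false; if(y.pk==2&&!S2.q(x.v,y.v,k2,cc)) good=false; } }
          if(good){ found=true; for(int i:P){ ps+=str(S[i].v); if(S[i].fl) ps+=@Q*@Q; ps+=@Q @Q; } break; } }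
    if(found) al++; out<<sa<<@Q @Q<<sa2<<@Q @Q<<sb<<@Q @Q<<sb2<<@Q @Q<<cc<<(found?@Q PATH @Q+ps:@Q DEAD@Q)<<@Q\n@Q; out.flush();
    if(n%5==0) fprintf(stderr,@Qpart %d n %d alive %d last q1 %ld q2 %ld t %.0f\n@Q,part,n,al,S1.nq,S2.nq,chrono::duration<double>(chrono::steady_clock::now()-t0).count()); }
  fprintf(stderr,@Qpart %d done %d alive %d t %.0f\n@Q,part,n,al,chrono::duration<double>(chrono::steady_clock::now()-t0).count());
}


== file notes/H519/farmR/elimT.cpp ==
// local-structured elimination, case S: states = gap words and accumulating symmetric pairs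
#include <bits/stdc++.h>
#include @Q/home/model/p32/satd/mini.h@Q
using namespace std;
typedef array<int,12> W;
static W rot(const W&w,int r){ r=((r%6)+6)%6; W v; for(int m=0;m<6;m++){ v[2*m]=w[2*((m+r)%6)]; v[2*m+1]=w[2*((m+r)%6)+1]; } return v; }
static uint64_t key(const W&w){ uint64_t x=0; for(int i=0;i<12;i++) x=x*6+w[i]; return x; }
static W relab(const W&w,int*p){ for(int i=0;i<6;i++)p[i]=-1; int n=0; W v; for(int i=0;i<12;i++){ if(p[w[i]]<0)p[w[i]]=n++; v[i]=p[w[i]]; } for(int i=0;i<6;i++) if(p[i]<0) p[i]=n++; return v; }
static W canw(const W&w,int*br=0,int*bp=0){ W b; bool f=true; int p[6]; for(int r=0;r<6;r++){ W x=relab(rot(w,r),p); if(f||x<b){b=x;f=false; if(br){*br=r; memcpy(bp,p,sizeof p);} } } return b; }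
struct X2{ W a,b; bool pair; bool operator<(const X2&o)const{ return tie(pair,a,b)<tie(o.pair,o.a,o.b);} bool operator==(const X2&o)const{ return pair==o.pair&&a==o.a&&b==o.b; } };
static X2 gapS(const W&a){ return {a,a,false}; }
static X2 pairS(const W&a,const W&b){ return a<b?X2{a,b,true}:X2{b,a,true}; }
struct Tier{ Solver S; int VI[2][2][6][6],VO[2][2][6][6],DI[2][2][6][6],DO[2][2][6][6],VT[2][6][6],VW[6],VH[2][6][6],VHA[2][6],VA[2][2],VC[2],VU[2],VM[2][6]; int u1=0,c1=0; vector<Lit> extra; long nq=0; map<tuple<X2,X2,int>,char> memo;
 void load(const string&base){ { FILE*f=fopen((base+@Q.cnf@Q).c_str(),@Qr@Q); static char buf[1<<20]; int n,m; vector<Lit> c; while(fgets(buf,sizeof buf,f)){ if(buf[0]=='p'){ sscanf(buf,@Qp cnf %d %d@Q,&n,&m); S.newvars(n); continue;} char*p=buf; c.clear(); while(1){ int x=strtol(p,&p,10); if(!x) break; c.push_back(mk(x)); } S.add(c);} fclose(f); }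
  { ifstream f(base+@Q.map@Q); string t; int j,s,m,c,v; while(f>>t){ if(t==@QI@Q||t==@QO@Q||t==@QDI@Q||t==@QDO@Q){ f>>j>>s>>m>>c>>v; (t==@QI@Q?VI:t==@QO@Q?VO:t==@QDI@Q?DI:DO)[j][s>0][m][c]=v; } else if(t==@Qw@Q){ f>>c>>v; VW[c]=v; } else if(t==@Qh@Q){ f>>j>>m>>c>>v; VH[j][m][c]=v; } else if(t==@QT@Q){ f>>j>>m>>c>>v; VT[j][m][c]=v; } else if(t==@QH@Q){ f>>j>>c>>v; VHA[j][c]=v; } else if(t==@QA@Q){ f>>j>>s>>v; VA[j][s>0]=v; } else if(t==@QC@Q){ f>>j>>v; VC[j]=v; } else if(t==@QU@Q){ f>>j>>v; VU[j]=v; } else if(t==@QM@Q){ f>>j>>m>>v; VM[j][m]=v; } } } }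
 void lw(int j,int s,const W&w,vector<Lit>&a,bool d=false){ for(int m=0;m<6;m++){ a.push_back(mk((d?DI:VI)[j][s][m][w[2*m]])); a.push_back(mk((d?DO:VO)[j][s][m][w[2*m+1]])); } }
 void ls(int j,int s,const X2&x,vector<Lit>&a){ lw(j,s,x.a,a); if(x.pair) lw(j,s,x.b,a,true); else a.push_back(mk(VA[j][s])); }
 // kind 0: generic exact instant in a gap; 1: instant (X;Y); 2: the same with partner
 bool q(const X2&x,const X2&y,int kind,int cc){ auto k=make_tuple(x,y,kind); auto it=memo.find(k); if(it!=memo.end()) return it->second; nq++; vector<Lit> a=extra; ls(1,0,x,a); ls(1,1,y,a);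
   if(kind==0) for(int m=0;m<6;m++) for(int c=0;c<6;c++) if(c!=x.a[2*m]&&c!=x.a[2*m+1]) a.push_back(mk(-VT[1][m][c]));
   if(kind==2||kind==6||kind==7) a.push_back(mk(VHA[1][cc])); if(kind==4||kind==7) a.push_back(mk(VC[1])); if(kind==5||kind==6) a.push_back(mk(VU[1])); if(kind>0&&!(x==y)){ if(u1) a.push_back(mk(VU[1])); if(c1) a.push_back(mk(VC[1])); }
   int r=S.solve(a,-1); return memo[k]=(r>=0); } };
Tier S1,S2;
static string canon3(const W&u,const W&v,int cc){ string best; for(int r=0;r<6;r++){ W x=rot(u,r),y=rot(v,r); int p[6]; for(int i=0;i<6;i++)p[i]=-1; int k=0; string s; for(int i=0;i<12;i++){ if(p[x[i]]<0)p[x[i]]=k++; s+=char('0'+p[x[i]]); } s+=' '; for(int i=0;i<12;i++){ if(p[y[i]]<0)p[y[i]]=k++; s+=char('0'+p[y[i]]); } if(p[cc]<0) p[cc]=5; s+=' '; s+=char('0'+p[cc]); if(best.empty()||s<best) best=s; } return best; }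
set<string> ALLOW,SYM; set<string> GAPW;
map<W,vector<W>> SUC; unordered_map<uint64_t,vector<W>> sucmemo;
static const vector<W>& succ(const W&w){ uint64_t k=key(w); auto it=sucmemo.find(k); if(it!=sucmemo.end()) return it->second; int r,p[6]; W c=canw(w,&r,p); int inv[6]; for(int i=0;i<6;i++) inv[p[i]]=i; vector<W> o; auto jt=SUC.find(c); if(jt!=SUC.end()) for(auto&s:jt->second){ W t; for(int i=0;i<12;i++) t[i]=inv[s[i]]; o.push_back(rot(t,-r)); } return sucmemo[k]=o; }
static int win1(const W&w,int c){ int S=63; bool u=false; for(int m=0;m<6;m++){ int A=0; if(w[2*m]==c) A=(1<<((m+5)%6))|(1<<m)|(1<<((m+1)%6)); else if(w[2*m+1]==c) A=(1<<((m+2)%6))|(1<<((m+3)%6))|(1<<((m+4)%6)); else continue; u=true; S&=A; } return u?S:63; }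
static int win(const X2&x,int c){ return x.pair?(win1(x.a,c)&win1(x.b,c)):win1(x.a,c); }
static int filt(int mask,int wn){ int r=0; for(int x=0;x<6;x++){ if(mask>>x&1) if(wn>>x&1) r|=1<<x; if(mask>>(6+x)&1) if(wn>>((x+5)%6)&1) r|=1<<(6+x); } return r; }
static int stepm(int mask){ return mask|((mask&63)<<6); }
static map<pair<uint64_t,int>,vector<W>> cm_; 
static const vector<W>& cand(const W&w,int cc){ auto k=make_pair(key(w),cc); auto it=cm_.find(k); if(it!=cm_.end()) return it->second; vector<W> o; o.push_back(w); for(auto&y:succ(w)){ bool has=false; for(int i=0;i<12;i++) if(y[i]==cc) has=true; if(has||y==w) continue; if(ALLOW.count(canon3(w,y,cc))) o.push_back(y); } sort(o.begin(),o.end()); o.erase(unique(o.begin(),o.end()),o.end()); return cm_[k]=o; }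
static map<pair<uint64_t,int>,vector<W>> sm_;
static const vector<W>& symp(const W&w,int cc){ auto k=make_pair(key(w),cc); auto it=sm_.find(k); if(it!=sm_.end()) return it->second; vector<W> o; for(auto&y:cand(w,cc)) if(!(y==w)&&SYM.count(canon3(w,y,cc))) o.push_back(y); return sm_[k]=o; }
static string cant3(const W&A,const X2&y,int c){ string best; for(int sw=0;sw<2;sw++) for(int r=0;r<6;r++){ W x=rot(A,r),u=rot(sw?y.b:y.a,r),v=rot(sw?y.a:y.b,r); int p[6]; for(int i=0;i<6;i++)p[i]=-1; int k=0; string t; for(const W*w:{&x,&u,&v}){ for(int i=0;i<12;i++){ if(p[(*w)[i]]<0)p[(*w)[i]]=k++; t+=char('0'+p[(*w)[i]]); } t+=' '; } if(p[c]<0) p[c]=5; t+=char('0'+p[c]); if(best.empty()||t<best) best=t; } return best; }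
static string can4(const X2&L,const X2&R,int c){ string best; for(int s1=0;s1<(L.pair?2:1);s1++) for(int s2=0;s2<(R.pair?2:1);s2++) for(int r=0;r<6;r++){ W ws[4]={rot(s1?L.b:L.a,r),rot(s1?L.a:L.b,r),rot(s2?R.b:R.a,r),rot(s2?R.a:R.b,r)}; int p[6]; for(int i=0;i<6;i++)p[i]=-1; int k=0; string t; for(auto&w:ws){ for(int i=0;i<12;i++){ if(p[w[i]]<0)p[w[i]]=k++; t+=char('0'+p[w[i]]); } t+=' '; } if(p[c]<0) p[c]=5; t+=char('0'+p[c]); if(best.empty()||t<best) best=t; } return best; }
set<string> DEADT,DEADU,DEADC; // dead types (any), dead when unclean, dead when clean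
set<string> TM,TP; bool useT=false; set<string> SC,SU,SI,TT; bool useS=true;
static map<pair<X2,X2>,int> ts_; // 0 dead, 1 only clean, 2 only unclean, 3 both
static map<X2,vector<X2>> xs_;
static const vector<X2>& succX(const X2&x,int cc){ auto it=xs_.find(x); if(it!=xs_.end()) return it->second; vector<W> c=cand(x.a,cc); if(x.pair){ auto&d=cand(x.b,cc); vector<W> e; set_intersection(c.begin(),c.end(),d.begin(),d.end(),back_inserter(e)); c=e; }
  set<X2> o; if(!x.pair) for(auto&v:c) if(!(v==x.a)&&TT.count(canon3(x.a,v,cc))) o.insert(gapS(v)); if(x.pair) for(auto&v:c) if(!useT||TP.count(cant3(v,x,cc))) o.insert(gapS(v)); for(auto&v:c) for(auto&u:symp(v,cc)) if(binary_search(c.begin(),c.end(),u)){ X2 y=pairS(v,u); if(!(y==x)&&(x.pair||!useT||TM.count(cant3(x.a,y,cc)))) o.insert(y); } return xs_[x]=vector<X2>(o.begin(),o.end()); }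
static string str(const W&w){ string s; for(int i=0;i<12;i++) s+=char('0'+w[i]); return s; }
static string str(const X2&x){ return x.pair?(@Q{@Q+str(x.a)+@Q,@Q+str(x.b)+@Q}@Q):str(x.a); }
int main(int argc,char**argv){
  // base1,base2 pairs anchors part np out allow partners side mode
  string base=argv[1]; S1.load(base.substr(0,base.find(','))); S2.load(base.substr(base.find(',')+1));
  ifstream pf(argv[2]); ifstream af(argv[3]); int part=atoi(argv[4]),np=atoi(argv[5]); ofstream out(string(argv[6])+@Q.@Q+argv[4]);
  auto dec=[&](const string&s){ W w; for(int i=0;i<12;i++) w[i]=s[i]-'0'; return w; };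
  string line,a,b; { map<W,set<W>> T; while(getline(pf,line)){ stringstream ss(line); ss>>a>>b; W u=dec(a),v=dec(b); W cu=canw(u); for(int r=0;r<6;r++){ int p[6]; W x=relab(rot(u,r),p); if(!(x==cu)) continue; W y=rot(v,r); for(int i=0;i<12;i++) y[i]=p[y[i]]; int used=0; for(int i=0;i<12;i++) used=max(used,x[i]+1); vector<int> un; for(int c=used;c<6;c++) un.push_back(c); vector<int> pm=un; do{ int q[6]; for(int c=0;c<6;c++) q[c]=c; for(size_t i=0;i<un.size();i++) q[un[i]]=pm[i]; W z; for(int i=0;i<12;i++) z[i]=q[y[i]]; T[cu].insert(z);} while(next_permutation(pm.begin(),pm.end())); } }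
    for(auto&kv:T) SUC[kv.first]=vector<W>(kv.second.begin(),kv.second.end()); }
  { ifstream f(argv[7]); string l; while(getline(f,l)) ALLOW.insert(l); }
  set<string> PA; { ifstream f(argv[8]); string x,y; int cc,mm; while(f>>x>>y>>cc>>mm) PA.insert(canon3(dec(x),dec(y),cc)); }
  int side=atoi(argv[9]); string md=argc>10?argv[10]:@Q@Q; bool c0=md.find(@Qc0@Q)!=string::npos,u0=md.find(@Qu0@Q)!=string::npos; for(Tier*t:{&S1,&S2}){ t->u1=md.find(@Qu1@Q)!=string::npos; t->c1=md.find(@Qc1@Q)!=string::npos; }
  vector<tuple<string,string,string,int>> AN; int c; { ifstream sf(argv[11]); while(getline(sf,line)){ stringstream ss(line); string sg; ss>>a>>b>>c>>sg; SYM.insert(canon3(dec(a),dec(b),c)); SYM.insert(canon3(dec(b),dec(a),c)); if(!sg.empty()){ useS=true; if(sg.find('c')!=string::npos){ SC.insert(canon3(dec(a),dec(b),c)); SC.insert(canon3(dec(b),dec(a),c)); } if(sg.find('u')!=string::npos){ SU.insert(canon3(dec(a),dec(b),c)); SU.insert(canon3(dec(b),dec(a),c)); } if(sg.find('i')!=string::npos){ SI.insert(canon3(dec(a),dec(b),c)); SI.insert(canon3(dec(b),dec(a),c)); } } } }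
  { ifstream tf(argv[12]); while(getline(tf,line)){ stringstream ss(line); ss>>a>>b>>c; TT.insert(canon3(dec(a),dec(b),c)); } fprintf(stderr,@QTT %zu\n@Q,TT.size()); }
  if(argc>13){ ifstream tf(argv[13]); while(getline(tf,line)) DEADT.insert(line); } if(argc>14){ ifstream tf(argv[14]); while(getline(tf,line)) DEADU.insert(line); } if(argc>15){ ifstream tf(argv[15]); while(getline(tf,line)) DEADC.insert(line); }
  fprintf(stderr,@Qdead any %zu unclean %zu clean %zu\n@Q,DEADT.size(),DEADU.size(),DEADC.size());
  if(md.find(@Qenum@Q)!=string::npos){ set<string> seen; string a2; while(getline(af,line)){ stringstream ss(line); ss>>a>>a2>>c; xs_.clear(); X2 X=a==a2?gapS(dec(a)):pairS(dec(a),dec(a2)); for(auto&y:succX(X,c)){ auto t=can4(X,y,c); if(seen.insert(t).second) out<<t<<@Q\n@Q; } } fprintf(stderr,@Qtypes %zu\n@Q,seen.size()); return 0; }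
  vector<tuple<string,string,string,string,int>> AR; { string a2,b2; while(getline(af,line)){ stringstream ss(line); ss>>a>>a2>>b>>b2>>c; AR.push_back({a,a2,b,b2,c}); } }
  
  if(part==0) fprintf(stderr,@Qanchors %zu sym %zu allow %zu\n@Q,AR.size(),SYM.size(),ALLOW.size());
  int idx=0,n=0,al=0; auto t0=chrono::steady_clock::now();
  for(auto&[sa,sa2,sb,sb2,cc]:AR){ if((idx++)%np!=part) continue; n++; xs_.clear(); ts_.clear(); X2 L=sa==sa2?gapS(dec(sa)):pairS(dec(sa),dec(sa2)),R=sb==sb2?gapS(dec(sb)):pairS(dec(sb),dec(sb2));
    for(Tier*t:{&S1,&S2}){ t->memo.clear(); t->nq=0; t->extra.clear(); vector<Lit>&e=t->extra; t->ls(0,0,L,e); t->ls(0,1,R,e); if(c0) e.push_back(mk(t->VC[0])); if(u0) e.push_back(mk(t->VU[0])); if(md.find(@Qh0@Q)!=string::npos) e.push_back(mk(t->VHA[0][cc])); for(size_t i=0;i+2<md.size();i++){ if(md[i]=='T') e.push_back(mk(t->VT[0][md[i+1]-'0'][md[i+2]-'0'])); if(md[i]=='N') e.push_back(mk(-t->VT[0][md[i+1]-'0'][md[i+2]-'0'])); } }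
    auto rotX=[&](const X2&x,int r){ return x.pair?pairS(rot(x.a,r),rot(x.b,r)):gapS(rot(x.a,r)); };
     X2 TG=rotX(L,1);
    array<int,6> M0; bool ok=true; for(int d=0;d<6;d++){ if(d==cc){M0[d]=0;continue;} int m0=win(L,d); int mm=m0|(m0<<6); mm=filt(mm,win(R,d)); M0[d]=mm; if(!mm) ok=false; }
    auto G1=[&](const W&w){ return S1.q(gapS(w),gapS(w),0,cc); }; auto G2=[&](const W&w){ return S2.q(gapS(w),gapS(w),0,cc); };
    auto isC=[&](const X2&x){ return !useS||SC.count(canon3(x.a,x.b,cc))>0; }; auto isU=[&](const X2&x){ return !useS||SU.count(canon3(x.a,x.b,cc))>0; }; auto isI=[&](const X2&x){ return SI.count(canon3(x.a,x.b,cc))>0; };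
    auto reg=[&](Tier&t,const X2&x){ if(!x.pair||!useS) return true; for(int k:{4,5}){ if(k==4&&!isC(x)) continue; if(k==5&&!isU(x)) continue; if(t.q(gapS(x.a),x,k,cc)&&t.q(gapS(x.b),x,k,cc)&&t.q(x,gapS(x.a),k,cc)&&t.q(x,gapS(x.b),k,cc)) return true; } if(isI(x)){ if(TT.count(canon3(x.a,x.b,cc))&&t.q(gapS(x.a),gapS(x.b),1,cc)) return true; if(TT.count(canon3(x.b,x.a,cc))&&t.q(gapS(x.b),gapS(x.a),1,cc)) return true; } return false; };
    auto regI=[&](Tier&t,const X2&x){ if(!isI(x)) return false; if(TT.count(canon3(x.a,x.b,cc))&&t.q(gapS(x.a),gapS(x.b),1,cc)) return true; if(TT.count(canon3(x.b,x.a,cc))&&t.q(gapS(x.b),gapS(x.a),1,cc)) return true; return false; };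
    auto badI=[&](const X2&x){ bool any=false; for(int w=0;w<2;w++){ X2 p=w?gapS(x.b):gapS(x.a),r=w?gapS(x.a):gapS(x.b); if(!TT.count(canon3(p.a,r.a,cc))) continue; auto it=S2.memo.find(make_tuple(p,r,1)); if(!(it!=S2.memo.end()&&!it->second)) any=true; } return !any; };
    auto onlyU=[&](const X2&x){ return useS&&x.pair&&!isC(x)&&!isI(x); };
    auto GX1=[&](const X2&x){ return G1(x.a)&&(!x.pair||G1(x.b))&&reg(S1,x); }; auto GX2=[&](const X2&x){ return G2(x.a)&&(!x.pair||G2(x.b))&&reg(S2,x); };
    auto badR=[&](const X2&x){ if(!x.pair||!useS) return false; for(int k:{4,5}){ if(k==4&&!isC(x)) continue; if(k==5&&!isU(x)) continue; bool b=false; for(int w=0;w<4;w++){ X2 p=(w&1)?gapS(x.b):gapS(x.a); auto it=S2.memo.find((w&2)?make_tuple(x,p,k):make_tuple(p,x,k)); if(it!=S2.memo.end()&&!it->second) b=true; } if(!b) return false; } if(isI(x)){ for(int w=0;w<2;w++){ X2 p=w?gapS(x.b):gapS(x.a),r=w?gapS(x.a):gapS(x.b); if(!TT.count(canon3(p.a,r.a,cc))) continue; auto it=S2.memo.find(make_tuple(p,r,1)); if(!(it!=S2.memo.end()&&!it->second)) return false; } } return true; };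
    auto bad2=[&](const X2&x,const X2&y,int k){ auto it=S2.memo.find(make_tuple(x,y,k)); return it!=S2.memo.end()&&!it->second; };
    auto tstat=[&](const X2&v,const X2&y){ auto k=make_pair(v,y); auto it=ts_.find(k); if(it!=ts_.end()) return it->second; auto t=can4(v,y,cc); int r=3; if(DEADT.count(t)) r=0; else { if(DEADU.count(t)) r&=1; if(DEADC.count(t)) r&=2; } return ts_[k]=r; };
    auto popt=[&](const X2&v){ vector<pair<X2,X2>> o; X2 a=gapS(v.a),b=gapS(v.b); o.push_back({a,a}); if(v.pair){ for(auto&p:vector<pair<X2,X2>>{{b,b},{v,v},{a,v},{b,v},{v,a},{v,b},{a,b},{b,a}}) o.push_back(p); } return o; };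
    bool found=false; string ps; if(md.find(@Qdbg@Q)!=string::npos){ vector<Lit> a1=S1.extra,a2=S2.extra; fprintf(stderr,@Qdbg anchor star %d full %d | ok %d G1R %d G1T %d G2R %d G2T %d\n@Q,S1.S.solve(a1,-1)>=0,S2.S.solve(a2,-1)>=0,ok,GX1(R),GX1(TG),GX2(R),GX2(TG)); }
    // state kinds: 0 gap, 1 perfect pair, 2 iso pair from the left (L), 3 iso pair from the right (R)
    auto isP=[&](const X2&x){ return isC(x)||isU(x); };
    auto regP=[&](Tier&t,const X2&x){ for(int k:{4,5}){ if(k==4&&!isC(x)) continue; if(k==5&&!isU(x)) continue; if(t.q(gapS(x.a),x,k,cc)&&t.q(gapS(x.b),x,k,cc)&&t.q(x,gapS(x.a),k,cc)&&t.q(x,gapS(x.b),k,cc)) return true; } return false; };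
    auto badP=[&](const X2&x){ for(int k:{4,5}){ if(k==4&&!isC(x)) continue; if(k==5&&!isU(x)) continue; bool b=false; for(int w=0;w<4;w++){ X2 p=(w&1)?gapS(x.b):gapS(x.a); auto it=S2.memo.find((w&2)?make_tuple(x,p,k):make_tuple(p,x,k)); if(it!=S2.memo.end()&&!it->second) b=true; } if(!b) return false; } return true; };
    auto gg1=[&](const X2&x){ return G1(x.a)&&G1(x.b)&&!bad2(gapS(x.a),gapS(x.a),0)&&!bad2(gapS(x.b),gapS(x.b),0); };
    auto okk=[&](const X2&x,int kd){ if(!gg1(x)) return false; if(kd==0) return true; if(kd==1) return isP(x)&&regP(S1,x)&&!badP(x); return isI(x)&&regI(S1,x)&&!badI(x); };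
    auto okk2=[&](const X2&x,int kd){ if(!G2(x.a)||!G2(x.b)) return false; if(kd==0) return true; if(kd==1) return regP(S2,x); return regI(S2,x); };
    auto kq=[&](const X2&v,int kv,const X2&y,int ky){ int st=tstat(v,y); bool oU=(kv==1&&!isC(v))||(ky==1&&!isC(y)); if(st==0) return 0; if(oU||st==2) return 5; return st==1?4:1; };
    auto hk=[&](const X2&g){ int st=tstat(g,g); return st==0?0:(st==1?7:(st==2?6:2)); };
    auto kp=[&](int k){ return k==5?6:(k==4?7:2); };
    vector<int> sk; if(!R.pair) sk.push_back(0); else { if(isP(R)) sk.push_back(1); if(isI(R)) sk.push_back(3); }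
    auto isTk=[&](const X2&v,int kd){ return v==TG&&(TG.pair?(kd==1||kd==2):kd==0); };
    if(ok&&!sk.empty()) while(true){ struct St{ X2 v; int kd; array<int,6> M; int par; bool fl; int pk; }; vector<St> S; map<tuple<X2,int,bool>,vector<int>> at; deque<int> q; bool f0=false; int hit=-1;
          { vector<Lit> a1=S1.extra,a2=S2.extra; a1.push_back(mk(S1.VHA[0][cc])); a2.push_back(mk(S2.VHA[0][cc])); f0=S1.S.solve(a1,-1)>=0&&S2.S.solve(a2,-1)>=0; }
          auto isT=[&](const St&s){ if(!isTk(s.v,s.kd)||!s.fl) return false; for(int d=0;d<6;d++) if(d!=cc){ int mm=stepm(s.M[d]); mm=filt(mm,win(TG,d)); if(!(mm>>6)) return false; } return true; };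
          auto push=[&](const X2&y,int kd,const array<int,6>&N,int i,bool fl,int pk){ if(hit>=0) return; for(int j:at[{y,kd,fl}]){ bool le=true; for(int d=0;d<6;d++) if(N[d]&~S[j].M[d]){le=false;break;} if(le) return; } int id=S.size(); S.push_back({y,kd,N,i,fl,pk}); at[{y,kd,fl}].push_back(id); q.push_back(id); if(isT(S[id])) hit=id; };
          if(okk(gapS(TG.a),0)&&okk(gapS(TG.b),0)) for(int k:sk) if(okk(R,k)) push(R,k,M0,-1,f0,0);
          while(!q.empty()&&hit<0){ int i=q.front(); q.pop_front(); X2 v=S[i].v; int kd=S[i].kd; auto M=S[i].M; bool fl=S[i].fl;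
            auto stay=[&](const X2&y,array<int,6>&N){ for(int d=0;d<6;d++){ if(d==cc){N[d]=0;continue;} int mm=filt(stepm(M[d]),win(y,d)); if(!mm) return false; N[d]=mm; } return true; };
            auto move=[&](const X2&y,array<int,6>&N){ for(int d=0;d<6;d++){ if(d==cc){N[d]=0;continue;} int mm=filt(stepm(M[d]),win(v,d)); mm=filt(stepm(mm),win(y,d)); if(!mm) return false; N[d]=mm; } return true; };
            if(!fl&&(kd==0||kd==1)){ bool pg=false; X2 ga=gapS(v.a),gb=gapS(v.b); auto pq=[&](const X2&x,const X2&y,int k){ return S1.q(x,y,k,cc)&&!bad2(x,y,k); };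
              if(hk(ga)&&pq(ga,ga,hk(ga))) pg=true; if(!pg&&kd==1){ int k=isU(v)?2:7; pg=(hk(gb)&&pq(gb,gb,hk(gb)))||pq(v,v,k)||pq(ga,v,k)||pq(gb,v,k)||pq(v,ga,k)||pq(v,gb,k); }
              if(pg){ array<int,6> N; if(stay(v,N)) push(v,kd,N,i,true,1); } }
            if(kd==3){ array<int,6> N; for(auto&y:{gapS(v.a),gapS(v.b)}) if(stay(y,N)&&okk(y,0)) push(y,0,N,i,fl,3); continue; }
            if(kd==0) for(auto&u:symp(v.a,cc)){ X2 y=pairS(v.a,u); if(!isI(y)) continue; array<int,6> N; if(stay(y,N)&&okk(y,2)) push(y,2,N,i,fl,3); }
            vector<X2> sx=succX(v,cc); if(v.pair) sx.push_back(v);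
            for(auto&y:sx){ if(hit>=0) break; array<int,6> N; if(!move(y,N)) continue; vector<int> ks; if(!y.pair) ks.push_back(0); else { if(isP(y)&&!(y==v&&kd==1)) ks.push_back(1); if(isI(y)) ks.push_back(3); }
              for(int ky:ks){ int k1=kq(v,kd,y,ky); if(!k1) continue; if(!okk(y,ky)) continue; if(!S1.q(v,y,k1,cc)||bad2(v,y,k1)) continue; push(y,ky,N,i,fl,0); int k2=kp(k1); if(!fl&&S1.q(v,y,k2,cc)&&!bad2(v,y,k2)) push(y,ky,N,i,true,2); } } }
          if(hit<0) break;
          vector<int> P; for(int i=hit;i>=0;i=S[i].par) P.push_back(i); reverse(P.begin(),P.end()); bool good=true; for(int i:P) if(!okk2(S[i].v,S[i].kd)) good=false; if(!G2(TG.a)||!G2(TG.b)) good=false;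
          if(good) for(size_t i=1;i<P.size();i++){ auto&x=S[P[i-1]],&y=S[P[i]]; if(y.pk==3) continue; if(y.pk==1){ X2 ga=gapS(x.v.a),gb=gapS(x.v.b); auto pq=[&](const X2&a,const X2&b,int k){ return S1.q(a,b,k,cc)&&S2.q(a,b,k,cc); }; bool g=hk(ga)&&pq(ga,ga,hk(ga)); if(!g&&x.kd==1){ int k=isU(x.v)?2:7; g=(hk(gb)&&pq(gb,gb,hk(gb)))||pq(x.v,x.v,k)||pq(ga,x.v,k)||pq(gb,x.v,k)||pq(x.v,ga,k)||pq(x.v,gb,k); } if(!g) good=false; }
             else { int k1=kq(x.v,x.kd,y.v,y.kd); if(!S2.q(x.v,y.v,k1,cc)) good=false; if(y.pk==2&&!S2.q(x.v,y.v,kp(k1),cc)) good=false; } }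
          if(good){ found=true; for(int i:P){ ps+=string(1,@QgPLR@Q[S[i].kd])+str(S[i].v); if(S[i].fl) ps+=@Q*@Q; ps+=@Q @Q; } break; }
          if(!G2(TG.a)||!G2(TG.b)) break; }
    if(found) al++; out<<sa<<@Q @Q<<sa2<<@Q @Q<<sb<<@Q @Q<<sb2<<@Q @Q<<cc<<(found?@Q PATH @Q+ps:@Q DEAD@Q)<<@Q\n@Q; out.flush();
    if(n%5==0) fprintf(stderr,@Qpart %d n %d alive %d last q1 %ld q2 %ld t %.0f\n@Q,part,n,al,S1.nq,S2.nq,chrono::duration<double>(chrono::steady_clock::now()-t0).count()); }
  fprintf(stderr,@Qpart %d done %d alive %d t %.0f\n@Q,part,n,al,chrono::duration<double>(chrono::steady_clock::now()-t0).count());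
}


== file notes/H519/w5/w5enum.py ==
import sys; sys.path.insert(0,'/home/model/p32/ws')
from prodx import *
from isat import ISat
import itertools,time
def mk5(RA,J=1,anch=None,inf=None,kw=dict(N1=1,N2=0,N3a=1,N3b=0)):
    if anch is None: anch=[(a,) for a in ball(RA)]
    W=PL(anch,J,inf or [(j,s) for j in range(J) for s in (1,-1)]); z=ZZ(J); W.z=z
    for c in range(5): W.cl.append((W.v[('T',z,c)],))
    W.cl.append((-W.v[('T',z,5)],))
    for u in W.A:
        T=[W.v[('T',u,c)] for c in range(6)]
        for t in W.inf:
            for m in range(6):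
                for i in range(6):
                    for o in range(6):
                        if i==o: continue
                        # gap only with colours of T(u): |T u \ P| >= 2
                        for x in range(6):
                            if x in (i,o): continue
                            W.cl.append((-W.v[('I',t,u,m,i)],-W.v[('O',t,u,m,o)])+tuple(T[c] for c in range(6) if c not in (i,o,x)))
    extend(W,**kw); return W
# letters: (i,o) or (5,5) meaning G=5
OPT=[(i,o) for i in range(6) for o in range(6) if i!=o]+[(5,5)]
def lit(W,t,m,l):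
    if l==(5,5): return [W.v[('G',t,W.z,m,5)]]
    return [W.v[('I',t,W.z,m,l[0])],W.v[('O',t,W.z,m,l[1])]]
def fix5(W,t,w): return [x for m in range(6) for x in lit(W,t,m,w[m])]
def relab5(w,p=None):
    p=dict(p or {}); p[5]=5; n=len([k for k in p if k!=5]); r=[]
    for l in w:
        q=[]
        for c in l:
            if c not in p: p[c]=n; n+=1
            q.append(p[c])
        r.append(tuple(q))
    return tuple(r)
def rot5(w,r): r%=6; return w[r:]+w[:r]
def can5(w): return min(relab5(rot5(w,r)) for r in range(6))
if __name__=='__main__':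
    RA=int(sys.argv[1]); t0=time.time(); W=mk5(RA); S=ISat(W,'e5'); print('built',W.n,len(W.cl),time.time()-t0,flush=True)
    out=set(); nq=0
    def rec(w,used):
        global nq
        m=len(w)
        if m==6:
            c=can5(tuple(w))
            out.add(c); return
        for l in OPT:
            # symmetry: new colours in order
            u=used; ok=True
            for c in l:
                if c!=5 and c>u: ok=False; break
                if c!=5 and c==u: u+=1
            if not ok: continue
            if m and set(l)&set(w[-1]): continue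
            if m==5 and set(l)&set(w[0]): continue
            ww=w+[l]
            nq+=1
            a=[x for k in range(len(ww)) for t in ((0,1),(0,-1)) for x in lit(W,t,k,ww[k])]
            if S.q(a): rec(ww,u)
    rec([],0)
    print('words',len(out),'queries',nq,time.time()-t0)
    from collections import Counter
    print(Counter(sum(1 for l in w if 5 in l) for w in out))
    with open('w5_%d.txt'%RA,'w') as f:
        for w in sorted(out): f.write(''.join('%d%d'%l for l in w)+'\n')


== file notes/H519/w5/w5pairs.py ==
from w5enum import *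
RA=int(sys.argv[1]); fin=sys.argv[2]; part,np_=int(sys.argv[3]),int(sys.argv[4])
dec=lambda s: tuple((int(s[2*i]),int(s[2*i+1])) for i in range(6))
enc=lambda w: ''.join('%d%d'%l for l in w)
C=[dec(x.strip()) for x in open(fin)]
# all labelled words
L=set()
for w in C:
    for r in range(6):
        x=rot5(w,r)
        used=sorted({c for l in x for c in l if c!=5})
        for im in itertools.permutations(range(5),len(used)):
            p=dict(zip(used,im)); p[5]=5
            L.add(tuple((p[a],p[b]) for a,b in x))
L=sorted(L); print('labelled',len(L),flush=True)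
W=mk5(RA); S=ISat(W,'p%d'%part); t0=time.time(); n=k=0; out=open('p5_%d.%d'%(RA,part),'w')
A={v:fix5(W,(0,1),v) for v in L}
def canpair(a,b):
    best=None
    for r in range(6):
        x=relab5(rot5(a,r)+rot5(b,r))
        if best is None or x<best: best=x
    return best
seen=set()
for i,w in enumerate(C):
    if i%np_!=part: continue
    f=fix5(W,(0,-1),w)
    for v in L:
        c=canpair(w,v)
        if c in seen: continue
        seen.add(c); n+=1
        if S.q(f+A[v]): k+=1; out.write(enc(c[:6])+' '+enc(c[6:])+'\n')
    out.flush(); print(part,i,n,k,round(time.time()-t0),flush=True)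
print('done',part,n,k,time.time()-t0)


== file notes/H519/w5/elim5.cpp ==
// anchored elimination in the general geometry. usage: elim base(.cnf,.map) pairsfile Mlist mode(part nparts) out
#include <bits/stdc++.h>
#include @Q/home/model/p32/satd/mini.h@Q
using namespace std;
typedef array<int,12> W;
static W rot(const W&w,int r){ W v; for(int m=0;m<6;m++){ v[2*m]=w[2*((m+r)%6)]; v[2*m+1]=w[2*((m+r)%6)+1]; } return v; }
static uint64_t key(const W&w){ uint64_t x=0; for(int i=0;i<12;i++) x=x*6+w[i]; return x; }
static W relab(const W&w){ int p[6]; for(int i=0;i<5;i++)p[i]=-1; p[5]=5; int n=0; W v; for(int i=0;i<12;i++){ if(p[w[i]]<0)p[w[i]]=n++; v[i]=p[w[i]]; } return v; }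
static W canw(const W&w){ W b=relab(w); for(int r=1;r<6;r++){ W x=relab(rot(w,r)); if(x<b)b=x; } return b; }
static pair<W,W> canp(const W&a,const W&b,int*br=0,int*bp=0){ pair<W,W> best; bool f=true; for(int r=0;r<6;r++){ W x=rot(a,r),y=rot(b,r); int p[6]; for(int i=0;i<5;i++)p[i]=-1; p[5]=5; int n=0; W u,v; for(int i=0;i<12;i++){ if(p[x[i]]<0)p[x[i]]=n++; u[i]=p[x[i]]; } for(int i=0;i<12;i++){ if(p[y[i]]<0)p[y[i]]=n++; v[i]=p[y[i]]; } auto q=make_pair(u,v); if(f||q<best){best=q;f=false; if(br){ *br=r; for(int i=0;i<5;i++) if(p[i]<0) p[i]=n++; memcpy(bp,p,sizeof p);} } } return best; }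
struct PH{ size_t operator()(const pair<uint64_t,uint64_t>&p)const{ return p.first*1000003ull^p.second*0x9E3779B97F4A7C15ull; } };
set<W> ALIVE;
unordered_map<pair<uint64_t,uint64_t>,int,PH> pc; map<pair<W,W>,int> cls; vector<pair<W,W>> clsv;
unordered_map<uint64_t,char> aw;
static bool alive(const W&w){ uint64_t k=key(w); auto it=aw.find(k); if(it!=aw.end()) return it->second; bool r=ALIVE.count(canw(w)); aw[k]=r; return r; }
static int pclass(const W&a,const W&b){ auto k=make_pair(key(a),key(b)); auto it=pc.find(k); if(it!=pc.end()) return it->second; auto c=canp(a,b); auto jt=cls.find(c); int r=jt==cls.end()?-1:jt->second; pc[k]=r; return r; }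
struct G{ int M; array<int,6> s; array<int,6> x; bool operator<(const G&o)const{ return tie(M,s,x)<tie(o.M,o.s,o.x);} bool operator==(const G&o)const{return M==o.M&&s==o.s&&x==o.x;} };
static int sg(const G&g,int k){ int q=k>=0?k/6:-((5-k)/6); return g.s[k-6*q]+g.M*q; }
static int md(int x,int M){ return ((x%M)+M)%M; }
struct GH{ size_t operator()(const G&g)const{ uint64_t h=g.M; for(int i=0;i<6;i++) h=h*31+g.s[i]+7; for(int i=0;i<6;i++) h=h*31+g.x[i]+7; return h; } };
unordered_map<G,vector<W>,GH> LG;
static const vector<W>& legal(G g){
  if(g.M>1){ int q=g.s[0]>=0?g.s[0]/g.M:-((g.M-1-g.s[0])/g.M); for(int i=0;i<6;i++) g.s[i]-=g.M*q; } else g.s.fill(0);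
  for(int c=g.M;c<5;c++) g.x[c]=md(g.x[c],6);
  auto it=LG.find(g); if(it!=LG.end()) return it->second; if(g.M>1){ bool wide=false; for(int k=0;k<6;k++) if(sg(g,k)==sg(g,k+3)) wide=true; if(wide) return LG[g]=vector<W>(); }
  vector<W> out; int near[6][7],nn[6];
  for(int m=0;m<6;m++){ nn[m]=0; for(int c=sg(g,m-1)+1;c<sg(g,m+2);c++) near[m][nn[m]++]=md(c,g.M); for(int c=g.M;c<5;c++){ int d=md(g.x[c]-(m-1),6); if(d<3) near[m][nn[m]++]=c; } near[m][nn[m]++]=5; }
  { W w; function<void(int)> rec=[&](int m){ if(m==6){ for(int a=0;a<2;a++)for(int b=0;b<2;b++) if(w[10+a]==w[b]) return; if(alive(w)) out.push_back(w); return; }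
    for(int i=0;i<nn[m];i++){ int x=near[m][i]; for(int j=0;j<nn[(m+3)%6];j++){ int y=near[(m+3)%6][j]; if(x==y&&x!=5) continue; if(m&&(x==w[2*m-2]||x==w[2*m-1]||y==w[2*m-2]||y==w[2*m-1])) continue; w[2*m]=x;w[2*m+1]=y; rec(m+1);} } }; rec(0); }
  return LG[g]=out; }
static void steps(const G&g,const G&tgt,vector<G>&out){ out.clear(); G t=g; function<void(int)> rec=[&](int k){ if(k==12){ out.push_back(t); return; } if(k<6){ if(g.M==1){ rec(k+1); return; } int hi=min(sg(g,k+1),tgt.s[k]); for(int v=g.s[k];v<=hi;v++){ t.s[k]=v; rec(k+1);} t.s[k]=g.s[k]; return; } int c=k-6; if(c<g.M||c>=5){ rec(k+1); return; } t.x[c]=g.x[c]; rec(k+1); if(g.x[c]-1>=tgt.x[c]){ t.x[c]=g.x[c]-1; rec(k+1); t.x[c]=g.x[c]; } }; rec(0); }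
struct Tier{ Solver S; int VI[2][2][6][6],VO[2][2][6][6],VG[2][2][6][6]; vector<Lit> extra; unordered_map<pair<uint64_t,uint64_t>,char,PH> memo; long nq=0;
 void load(const string&base){ { FILE*f=fopen((base+@Q.cnf@Q).c_str(),@Qr@Q); static char buf[1<<20]; int n,m; vector<Lit> c; while(fgets(buf,sizeof buf,f)){ if(buf[0]=='p'){ sscanf(buf,@Qp cnf %d %d@Q,&n,&m); S.newvars(n); continue;} char*p=buf; c.clear(); while(1){ int x=strtol(p,&p,10); if(!x) break; c.push_back(mk(x)); } S.add(c);} fclose(f); }
  { ifstream f(base+@Q.map@Q); string t; int j,s,m,c,v; while(f>>t){ if(t==@QI@Q||t==@QO@Q||t==@QG@Q){ f>>j>>s>>m>>c>>v; if(t==@QI@Q) VI[j][s>0][m][c]=v; else if(t==@QO@Q) VO[j][s>0][m][c]=v; else VG[j][s>0][m][c]=v; } else { string l; getline(f,l); } } } }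
 void lits(int j,int s,const W&w,vector<Lit>&a){ for(int m=0;m<6;m++){ if(w[2*m]==5&&w[2*m+1]==5) a.push_back(mk(VG[j][s][m][5])); else { a.push_back(mk(VI[j][s][m][w[2*m]])); a.push_back(mk(VO[j][s][m][w[2*m+1]])); } } }
 bool q(const W&EA,const W&EB,const W&u,const W&v){ auto k=make_pair(key(u),key(v)); auto it=memo.find(k); if(it!=memo.end()) return it->second; nq++; vector<Lit> a=extra; lits(0,0,EA,a); lits(0,1,EB,a); lits(1,0,u,a); lits(1,1,v,a); int r=S.solve(a,-1); return memo[k]=(r>=0); }
 bool known_bad(const W&u,const W&v){ auto it=memo.find(make_pair(key(u),key(v))); return it!=memo.end()&&!it->second; } };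
Tier S1,S2;
W EA,EB;
static bool q1(const W&u,const W&v){ return S1.q(EA,EB,u,v)&&!S2.known_bad(u,v); }
int main(int argc,char**argv){
  string base=argv[1]; ifstream pf(argv[2]); string Ms=argv[3]; string mode=argv[4]; int part=atoi(argv[5]),np=atoi(argv[6]); ofstream out(string(argv[7])+@Q.@Q+argv[5]);
  bool constm=(mode==@Qconst@Q); bool pairq=(mode==@Qpair@Q||mode==@Qconstp@Q);
  if(mode==@Qconstp@Q) constm=true;
  string base2=base.substr(base.find(',')+1), base1=base.substr(0,base.find(',')); S1.load(base1); S2.load(base2);
  auto dec=[&](const string&s){ W w; for(int i=0;i<12;i++) w[i]=s[i]-'0'; return w; };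
  string line,a,b; set<W> deadw; if(argc>8){ ifstream f(argv[8]); while(f>>a) deadw.insert(dec(a)); }
  while(getline(pf,line)){ stringstream ss(line); ss>>a>>b; W u=dec(a),v=dec(b); if(deadw.count(canw(u))||deadw.count(canw(v))) continue; auto c=canp(u,v); if(!cls.count(c)){ cls[c]=clsv.size(); clsv.push_back(c);} ALIVE.insert(canw(u)); ALIVE.insert(canw(v)); }
  // anchors
  struct Inst{ G g0; W w; G g1; W w2; };
  map<pair<W,W>,vector<Inst>> AN; size_t ni=0;
  for(char ch:Ms){ int M=ch-'0'; vector<G> cfg; G g; g.M=M; g.x.fill(0); g.s.fill(0);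
    function<void(int)> rec=[&](int k){ if(k==6){ function<void(int)> r2=[&](int c){ if(c>=5){ cfg.push_back(g); return; } int lo=(c>M)?g.x[c-1]:0; for(int v=lo;v<6;v++){ g.x[c]=v; r2(c+1);} }; r2(M); return; } if(k==0||M==1){ g.s[k]=0; rec(M==1?6:1); return; } for(int v=g.s[k-1];v<=M;v++){ g.s[k]=v; rec(k+1);} }; rec(0);
    for(auto&g0:cfg){ auto L0=legal(g0); if(L0.empty()) continue; G tg=g0; for(int k=0;k<6;k++) tg.s[k]=sg(g0,k+1); if(M==1) tg.s=g0.s; for(int c=M;c<5;c++) tg.x[c]=g0.x[c]-1;
      if(constm){ for(auto&w:L0){ AN[canp(w,w)].push_back({g0,w,g0,w}); ni++; } }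
      else { vector<G> nx; steps(g0,tg,nx); for(auto&w:L0) for(auto&t:nx){ auto L1=legal(t); for(auto&v:L1) if(!(v==w)){ int c=pclass(w,v); if(c>=0){ AN[clsv[c]].push_back({g0,w,t,v}); ni++; } } } } } }
  if(part==0) fprintf(stderr,@Qpairs %zu words %zu anchors %zu instances %zu\n@Q,clsv.size(),ALIVE.size(),AN.size(),ni);
  int idx=0,n=0,k=0; auto t0=chrono::steady_clock::now();
  for(auto&kv:AN){ if((idx++)%np!=part) continue; n++; S1.memo.clear(); S2.memo.clear(); EA=kv.first.first; EB=kv.first.second; bool found=false; size_t cnt=0; string ps;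
    for(auto&I:kv.second){ cnt++; int r,mp[6]; canp(I.w,I.w2,&r,mp); auto T=[&](const W&v){ W x=rot(v,r); for(int i=0;i<12;i++) x[i]=mp[x[i]]; return x; };
      G tg=I.g0; int M=I.g0.M; if(M>1) for(int q=0;q<6;q++) tg.s[q]=sg(I.g0,q+1); for(int c=M;c<5;c++) tg.x[c]=I.g0.x[c]-1; W wt=rot(I.w,1);
      bool again=true; auto s0=make_pair(I.g1,I.w2); 
      while(again&&!found){ again=false; if(!q1(T(I.w2),T(I.w2))||!q1(T(wt),T(wt))) break;
        auto um=[&](const W&v){ int r=32; for(int k=0;k<12;k++) r|=1<<v[k]; return r; };
        typedef tuple<G,W,int> TS; set<TS> seen; deque<TS> st; TS t0_(s0.first,s0.second,um(I.w)|um(I.w2)); seen.insert(t0_); st.push_back(t0_); vector<G> nx; map<TS,TS> par; bool hit=(s0.first==tg&&s0.second==wt&&get<2>(t0_)==63); TS last=t0_;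
        while(!st.empty()&&!hit){ TS x=st.front(); st.pop_front(); steps(get<0>(x),tg,nx); for(auto&g:nx){ for(auto&v:legal(g)){ TS y(g,v,get<2>(x)|um(v)); if(seen.count(y)) continue; bool same=(v==get<1>(x)); if(!same&&pclass(get<1>(x),v)<0) continue; W tv=T(v); if(!same&&!q1(tv,tv)) continue; if(!same&&pairq&&!q1(T(get<1>(x)),tv)) continue; seen.insert(y); par[y]=x; st.push_back(y); if(g==tg&&v==wt&&get<2>(y)==63){ hit=true; last=y; break; } } if(hit) break; } }
        if(!hit) break;
        // verify with the full engine
        vector<pair<G,W>> P; { TS z=last; while(true){ P.push_back({get<0>(z),get<1>(z)}); if(z==t0_) break; z=par[z]; } } reverse(P.begin(),P.end()); bool ok=true;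
        for(auto&y:P){ W tv=T(y.second); if(!S2.q(EA,EB,tv,tv)) ok=false; }
        if(ok&&pairq) for(size_t i=1;i<P.size();i++) if(!(P[i].second==P[i-1].second)) if(!S2.q(EA,EB,T(P[i-1].second),T(P[i].second))) ok=false;
        if(ok){ found=true; string s; for(auto&z:P){ string q; for(int i=0;i<6;i++){ q+=to_string(z.first.s[i]); } q+=@Q/@Q; for(int c=M;c<5;c++) q+=to_string(md(z.first.x[c],6)); q+=@Q:@Q; for(int i=0;i<12;i++) q+=char('0'+z.second[i]); s+=q+@Q @Q; } ps=@QM@Q+to_string(M)+@Q @Q+s; }
        else again=true; }
      if(found) break; }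
    if(found) k++;
    for(int i=0;i<12;i++) out<<EA[i]; out<<@Q @Q; for(int i=0;i<12;i++) out<<EB[i]; out<<(found?@Q PATH @Q+ps:@Q DEAD@Q)<<@Q\n@Q; out.flush();
    if(n%50==0||constm) fprintf(stderr,@Qpart %d n %d alive %d inst %zu/%zu memo %zu queries %ld t %.0f\n@Q,part,n,k,cnt,kv.second.size(),S2.memo.size(),S1.nq,chrono::duration<double>(chrono::steady_clock::now()-t0).count());
  }
  fprintf(stderr,@Qpart %d done %d alive %d queries %ld t %.0f\n@Q,part,n,k,S2.nq,chrono::duration<double>(chrono::steady_clock::now()-t0).count());
}

-/
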