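import Mathlib.Logic.Basic

/-
# P032 (chromatic number of the plane): what is proved, what is left, what is known about the rest

Working notes of the problem lead, no theorem of its own here, imported by nothing.  See also
`P032/H979/LockNotes.lean` (certificates and the lock).

## 1. Frame

Six open sets `U i` of the plane, each maximal among the open sets without two points at distance
one, union `W` dense (equivalent to the existence of a proper colouring with six colours,
`AllColouringsOpen`).  `T p` = palette of `p`: closed, upper semicontinuous, `W` is the union of the
`U i`, `i` in `T p`, near `p`; `Irr` (P032/S5, Six) is the irredundant form, `MinF`/`Mn` the minimal one.
Order of `p` = size of a minimal set at `p`.  A HUB is a 4-point `z = {ab|cd}`: every direction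
`m` on its unit circle (its ring) reads `A` (exact ab-arc), `C` (exact cd-arc) or one of the two
missing colours `e`, `f`; points of the ring 60 degrees apart have disjoint letters, and for two
centres `z`, `y` at distance one the points `z+m` and `y+m` have disjoint letters.

## 2. Proved (Lean, on main)

* five colours do not suffice (`AllColouringsSix`), the finite form (`AllFiniteSix`);
* `MeasurableEqual` (H125): a proper colouring of the plane with k colours gives one with k Lebesgue
  measurable classes, each an open set plus a nowhere dense set, so for Q1 all colourings may be
  taken measurable; `AllColouringsOpen`: six open sets with dense union;
* no point of order 6 is silent for a colour (`R2/H616/NoSilent`, called T2 star here; local form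
  `R2/H616/ActOf`), so the alternative with silent colours has disappeared from all statements;
* clean points (all points of the unit circle about them have order at most 3) of order 5 and of
  order 6 do not exist (`S5/H229`, `S5/H926/FiveLoc`, `Words6/H306/SixLoc` with `Words6/H926/Tab35`);
* `StoppedArcs`: two points `z`, `z'` of order > 3 at distance one, `z` of order > 4 or the pair is a
  limit of pairs (hub, 4-point) in which the 4-point ends an exact arc of the hub;
* `CommonColours` (T2): two points of order > 3 at distance one which are a limit of pairs whose
  minimal sets (at least 4 indices each) share at least THREE indices.  In other words the world
  without such pairs (frame `WT`) is empty: S3 contacts `{ab|cd}`, `{ab|ef}` alone never suffice.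

## 3. Left for the full answer (seven colours needed)

The pairs of `CommonColours` have orders (4,4) with three or four common colours, or one of the two
points has order at least 5 (then three common colours are automatic).  So what is left is:

* LOCK: hubs `z = {ab|cd}` and `y` at distance one with `y` = `{ac|bd}` (S1), `{ac|be}` (S2),
  `{ae|bf}` / `{ac|ef}` are the S4 / S4r contacts (two common colours, dead inside `WT` only);
* O5: points of order 5 with a point of order 4 or 5 at distance one (in the frame without locks and
  without such pairs 5-points are clean, hence dead);
* O6: points of order 6 with a point of order 4, 5 or 6 at distance one.

The sentence to aim at next (T3): in every maximal family some point has order at least 5, that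
is, six colours do not suffice when at most four classes meet at every point.

## 4. LOCK: facts found by search or on paper, not typed

* Cones: in a hub the four sets `K i` (i in `T z`) are convex cones near `z`, `N i` = dual arc.
  `-N i` and `N q` are disjoint for `i` in {a,b}, `q` in {c,d}; an exact ij-arc of `y` which ends
  at `z` needs a common end of `N i` and `-N j` in that direction, and each of the four edges
  `i|q` of `z` carries at most one such arc.
* A hub with exactly one contact and an arbitrary partner (two pairs on both sides assumed, N22):
  numbers of real ends (eA,fA,eC,fC): S1 none, S4 none, S2 0122, 0123, 1032, 1211, S4r 1111, 1122,
  2211, S3 1122, 2211.  So S1 and S4 need a second lock on the same hub, and an S2 leaf needs a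
  partner with at least two locks.
* The missing flip of the partner `{ac|be}` of an S2 leaf 0122 can be a SWAPPED S3 contact
  `u = {be|df}`, then the identity point `x = z+u-y` is a real end of `z` itself; every hand kill
  which says that the identity point is full at `z` overlooks this case.
* Harmless 4-points (one exact pair, ring letters = the two missing colours and that pair) must be
  allowed as partners: they were in none of the early engines.
* Bounded engines (a fixed number T of time instants per 60 degrees): T = 6 proves nothing, T = 8 to
  12 kills the leaf clusters with 13 to 18 rings but is not sound for all words; no result with
  bounded T should be called a kill.  The slot engine (903), independent of T, kills for one lock 14 of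
  16 vectors (kind X) and 10 of 16 (kind r), about two thirds for two to four locks.
* Rhombus rule: for real ends `v`, `q` of complementary classes of `z`, `w = v+q-z` is a hub
  `{x e|y f}` with `v`, `q` as real ends.  Antipode table, horn and corner rules (P032/R2/H659,
  H492) are wild.  The generic picture dies only by the global skeleton argument; with locks the
  surviving local patterns are degenerate rhombi (two 3-points collide in a hub), so a purely local kill
  of every lock may not exist.  Two global ideas: (G1) all four edges of a lock hub are legs, then
  the angles of its sectors and of `N i` must add up to 360; (G2) follow the non-leg edges.

## 5. O5 and O6: facts found by search, not typed

* The ring of a 5-point `{1..5}` reads the sixth colour or an exact pair of NON-adjacent sectors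
  (diagonal of the pentagon).  The word of the ring alone does not kill it; the finite graph with
  generators e^{i(60k + j a/2)}, a = arccos(5/6), |j| at most 2, n = 5 or 6 (about 1100 points, 4700
  clauses) kills 96 to 100 per cent of all words.  A finite cover of all words is missing.
* The ring of a 6-point reads at every direction an unordered pair (inner, outer); pairs at 60 degrees
  are disjoint.  A 6-point needs a PINWHEEL: two rays at a multiple of 60 degrees and an
  instant at which the inner letters rotate at all six neighbours, all six of order at least 3.  The
  hexagonal crystal (six 5-points) is dead by the same finite graph with |j| at most 3.
* Contacts 5-4: all but two classes dead in the tame engine; 5-5 with the same palette dead; two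
  points of order at least 5 at distance one: one class left (search only, T = 8).
* Wild words: near a 6-point the wild relation between consecutive words equals the tame one (218,
  thin rays), for 5-points the relation was computed (394, 56); nothing of this is typed.
* The pentagon case of T2 star has a short proof which uses only palettes: for a clean point, two
  non-adjacent sectors give a line of pairwise disjoint letters through the V-lemma.

## 6. Practice

If MeasurableEqual is used: the maximal family `U i` may be taken so that its sets contain the
interiors of the classes of a colouring which is proper at ALL pairs; nobody has used this extra
information (classes at the exceptional points) in the lock argument yet.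

Certificates: one inductive invariant per start word of ONE ring, shared resolution derivation, kernel
evaluation of a reverse unit propagation checker (`R2/H805/Rup`), 40 to 150 seconds per word.
Kernel check of the whole closure in a box of 16 GB needs one check thread.
-/
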